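import Vale.Agent.P160.Rate.KeyBound
import Vale.Agent.P160.Defs

/-!
An explicit exponential bound for the singularity probability of symmetric sign matrices.
-/

namespace Vale.Agent.P160.Rate

open Finset Filter

set_option linter.unusedSectionVars false

noncomputable section

theorem highSum_nonneg {k : ℕ} (P E₀ : ℕ) [NeZero P] (v : Fin k → ZMod P) (S : Finset (Fin k)) :
    0 ≤ highSum P E₀ v S :=
  sum_nonneg fun χ _ => prod_nonneg fun j _ => fb_nonneg χ _

theorem eventually_const_le (C a : ℝ) (ha : 0 < a) :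
    ∀ᶠ n : ℕ in atTop, C ≤ (2 : ℝ) ^ (a * n) := by
  have h := tendsto_pow_atTop_atTop_of_one_lt (Real.one_lt_rpow (show (1 : ℝ) < 2 by norm_num) ha)
  filter_upwards [h.eventually_ge_atTop C] with n hn
  rw [Real.rpow_mul (by norm_num), Real.rpow_natCast]
  exact hn

open Classical in
/-- The number of bad block vectors is negligible. -/
theorem exists_bad_count :
    ∃ E₀ : ℕ, 1 ≤ E₀ ∧ ∀ δ : ℝ, 0 < δ → ∀ᶠ n : ℕ in atTop, ∀ i, i + 1 ≤ bj n →
      ∀ (N : ℕ) [NeZero N], N = 2 ^ (i + 1) →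
      ((univ.filter fun w : Fin (bk n) → ZMod N => ¬ Good (i + 1) E₀ (bc n) δ (rep w)).card : ℝ)
        ≤ (N : ℝ) ^ bk n * (2 : ℝ) ^ (-(4 * (n : ℝ))) := by
  obtain ⟨E, hE⟩ : ∃ E : ℕ, (3001 : ℝ) ≤ E := exists_nat_ge _
  obtain ⟨r, hr0, hr1, hlam⟩ := exists_lam E
  obtain ⟨s₀, hs₀⟩ := exists_pow_lt_of_lt_one (show (0 : ℝ) < 1 / 2 ^ E by positivity) hr1
  set s := s₀ + 1 with hs
  have hrs : r ^ s ≤ 1 / 2 ^ E :=
    le_trans (pow_le_pow_of_le_one hr0 hr1.le (Nat.le_succ s₀)) hs₀.le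
  have hα : (1 : ℝ) / 2 ^ E + r ^ s ≤ (2 : ℝ) ^ (-(3000 : ℝ)) := by
    calc (1 : ℝ) / 2 ^ E + r ^ s ≤ 1 / 2 ^ E + 1 / 2 ^ E := by linarith
      _ = (2 : ℝ) ^ (1 - (E : ℝ)) := by
          rw [Real.rpow_sub (by norm_num), Real.rpow_one, Real.rpow_natCast]; ring
      _ ≤ _ := Real.rpow_le_rpow_of_exponent_le (by norm_num) (by linarith)
  refine ⟨s, by omega, fun δ hδ => ?_⟩
  set C : ℝ := 3 ^ (s * s) * 2 ^ s / δ ^ s with hC
  filter_upwards [eventually_const_le C (1 / 2) (by norm_num), eventually_ge_atTop 100000] with n hnC hnN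
  intro i hi N _ hN
  subst hN
  obtain ⟨⟨hk1, hk2⟩, hm, ⟨hc1, hc2⟩, ⟨hj1, hj2⟩, ⟨hu1, hu2⟩⟩ := param_bounds n
  have hn : (100000 : ℝ) ≤ n := by exact_mod_cast hnN
  set k := bk n with hk
  have hiR : ((i + 1 : ℕ) : ℝ) ≤ 3 * n / 85 := le_trans (by exact_mod_cast hi) hj1
  set 𝒮 := (univ : Finset (Finset (Fin k))).filter fun S => (univ \ S).card ≤ bc n
  set B : Finset (Fin k) → Finset (Fin k → ZMod (2 ^ (i + 1))) := fun S =>
    univ.filter fun w => δ < highSum (2 ^ (i + 1)) s w S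
  have hsub : (univ.filter fun w : Fin k → ZMod (2 ^ (i + 1)) => ¬ Good (i + 1) s (bc n) δ (rep w))
      ⊆ 𝒮.biUnion B := by
    intro w hw
    simp only [mem_filter, mem_univ, true_and] at hw
    unfold Good at hw
    push Not at hw
    obtain ⟨S, hS, hw⟩ := hw
    have hcast : (fun c => ((rep w c : ℤ) : ZMod (2 ^ (i + 1)))) = w := by
      funext c; simp [rep]
    rw [hcast] at hw
    exact mem_biUnion.2 ⟨S, by simp [𝒮, hS], by simp [B, hw]⟩
  set M : ℝ := ((2 ^ (i + 1) : ℕ) : ℝ) with hM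
  have hB : ∀ S ∈ 𝒮, ((B S).card : ℝ) ≤ M ^ k * C * (2 : ℝ) ^ (-(11 / 2 * (n : ℝ))) := by
    intro S hS
    simp only [𝒮, mem_filter, mem_univ, true_and] at hS
    have hSc : (21 : ℝ) * n / 55 - 2 ≤ S.card := by
      have h1 : k ≤ S.card + bc n := by
        have := card_le_card_sdiff_add_card (s := (univ : Finset (Fin k))) (t := S)
        simp only [card_univ, Fintype.card_fin] at this
        omega
      have h2 := (Nat.cast_le (α := ℝ)).2 h1
      push_cast at h2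
      linarith
    have hmark : δ ^ s * ((B S).card : ℝ) ≤ ∑ w : Fin k → ZMod (2 ^ (i + 1)), highSum (2 ^ (i + 1)) s w S ^ s := by
      rw [mul_comm, ← nsmul_eq_mul]
      refine le_trans (card_nsmul_le_sum (B S) _ _ fun w hw => ?_)
        (sum_le_sum_of_subset_of_nonneg (subset_univ _) fun w _ _ => pow_nonneg (highSum_nonneg _ _ w S) _)
      exact pow_le_pow_left₀ hδ.le (mem_filter.1 hw).2.le _
    have hmom := moment_le (k := k) (i + 1) E s s (by omega) Nat.lt_two_pow_self r hr0 hlam S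
    have hD : ∀ D ∈ (univ : Finset (Finset (Fin s))).filter (·.Nonempty),
        M ^ D.card * (min ((15 / 16 : ℝ) ^ D.card) (1 / 2 ^ E + r ^ s)) ^ S.card
          ≤ (2 : ℝ) ^ (-(11 / 2 * (n : ℝ))) := by
      intro D _
      have hα0 : (0 : ℝ) ≤ 1 / 2 ^ E + r ^ s := by positivity
      have hM' : M ^ D.card = (2 : ℝ) ^ (((i + 1 : ℕ) : ℝ) * D.card) := by
        rw [Real.rpow_mul (by norm_num), Real.rpow_natCast, Real.rpow_natCast, hM]
        push_cast; rfl
      rw [hM']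
      by_cases hbig : (30000 : ℝ) ≤ D.card
      · refine le_trans (mul_le_mul_of_nonneg_left (le_trans (pow_le_pow_left₀ (le_min (by positivity) hα0)
          (min_le_left _ _) _) (pow_le_two_rpow (by positivity)
            (pow_le_two_rpow (by norm_num) fifteen_sixteenths_le D.card) S.card)) (by positivity)) ?_
        rw [← Real.rpow_add (by norm_num)]
        refine Real.rpow_le_rpow_of_exponent_le (by norm_num) ?_
        have h1 : ((i + 1 : ℕ) : ℝ) - 93 / 1000 * S.card ≤ -(2 / 10000 * n) + 1 / 5 := by linarith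
        have h2 := mul_le_mul_of_nonneg_left h1 (Nat.cast_nonneg D.card)
        nlinarith [mul_le_mul_of_nonneg_right hbig (show (0 : ℝ) ≤ 2 / 10000 * n - 1 / 5 by linarith)]
      · push Not at hbig
        refine le_trans (mul_le_mul_of_nonneg_left (le_trans (pow_le_pow_left₀ (le_min (by positivity) hα0)
          (min_le_right _ _) _) (pow_le_two_rpow hα0 hα S.card)) (by positivity)) ?_
        rw [← Real.rpow_add (by norm_num)]
        refine Real.rpow_le_rpow_of_exponent_le (by norm_num) ?_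
        have h1 : ((i + 1 : ℕ) : ℝ) * D.card ≤ 3 * n / 85 * 30000 :=
          mul_le_mul hiR hbig.le (Nat.cast_nonneg _) (by positivity)
        linarith
    have hsumD := sum_le_card_nsmul _ _ _ hD
    have hcardD : (((univ : Finset (Finset (Fin s))).filter (·.Nonempty)).card : ℝ) ≤ 2 ^ s := by
      have : ((univ : Finset (Finset (Fin s))).filter (·.Nonempty)).card ≤ 2 ^ s := by
        refine (card_le_univ _).trans (le_of_eq ?_); simp
      exact_mod_cast this
    rw [nsmul_eq_mul] at hsumD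
    have hds : (0 : ℝ) < δ ^ s := by positivity
    refine le_of_mul_le_mul_left ?_ hds
    refine hmark.trans (hmom.trans ?_)
    rw [← hM, hC]
    calc M ^ k * 3 ^ (s * s) * ∑ D ∈ (univ : Finset (Finset (Fin s))).filter (·.Nonempty),
          M ^ D.card * (min ((15 / 16 : ℝ) ^ D.card) (1 / 2 ^ E + r ^ s)) ^ S.card
        ≤ M ^ k * 3 ^ (s * s) * (2 ^ s * (2 : ℝ) ^ (-(11 / 2 * (n : ℝ)))) := by
          refine mul_le_mul_of_nonneg_left (hsumD.trans ?_) (by positivity)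
          exact mul_le_mul_of_nonneg_right hcardD (by positivity)
      _ = _ := by field_simp
  have h1 : ((univ.filter fun w : Fin k → ZMod (2 ^ (i + 1)) => ¬ Good (i + 1) s (bc n) δ (rep w)).card : ℝ)
      ≤ ∑ S ∈ 𝒮, ((B S).card : ℝ) := by
    exact_mod_cast (card_le_card hsub).trans card_biUnion_le
  refine h1.trans ((sum_le_card_nsmul _ _ _ hB).trans ?_)
  rw [nsmul_eq_mul]
  have h𝒮 : (𝒮.card : ℝ) ≤ (2 : ℝ) ^ (k : ℝ) := by
    rw [Real.rpow_natCast]
    have : 𝒮.card ≤ 2 ^ k := (card_le_univ _).trans (le_of_eq (by simp))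
    exact_mod_cast this
  calc (𝒮.card : ℝ) * (M ^ k * C * (2 : ℝ) ^ (-(11 / 2 * (n : ℝ))))
      ≤ (2 : ℝ) ^ (k : ℝ) * (M ^ k * (2 : ℝ) ^ (1 / 2 * (n : ℝ)) * (2 : ℝ) ^ (-(11 / 2 * (n : ℝ)))) := by
        have hC0 : 0 ≤ C := by positivity
        refine mul_le_mul h𝒮 ?_ (by positivity) (by positivity)
        exact mul_le_mul_of_nonneg_right (mul_le_mul_of_nonneg_left hnC (by positivity)) (by positivity)
    _ = M ^ k * (2 : ℝ) ^ ((k : ℝ) + (1 / 2 * n + -(11 / 2 * (n : ℝ)))) := by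
        rw [Real.rpow_add (by norm_num), Real.rpow_add (by norm_num)]; ring
    _ ≤ _ := by
        refine mul_le_mul_of_nonneg_left (Real.rpow_le_rpow_of_exponent_le (by norm_num) ?_) (by positivity)
        linarith

theorem exists_window {k n : ℕ} (a : ℕ) (ha : a + k ≤ n) :
    ∃ σ : Fin (n - k) ⊕ Fin k ≃ Fin n, ∀ c : Fin k, (σ (Sum.inr c) : ℕ) = a + c := by
  classical
  set f : Fin k → Fin n := fun c => ⟨a + c, by omega⟩ with hf
  have hinj : Function.Injective f := fun c c' h => Fin.ext (by simpa [hf] using congrArg Fin.val h)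
  set p : Fin n → Prop := fun x => x ∈ Set.range f
  let e1 : Fin k ≃ {x // p x} := Equiv.ofInjective f hinj
  have hc : Fintype.card {x // ¬ p x} = n - k := by
    rw [Fintype.card_subtype_compl, Fintype.card_fin, ← Fintype.card_congr e1, Fintype.card_fin]
  let e2 : Fin (n - k) ≃ {x // ¬ p x} := (Fintype.equivFinOfCardEq hc).symm
  exact ⟨((e2.sumCongr e1).trans (Equiv.sumComm _ _)).trans (Equiv.sumCompl p), fun c => by simp [e1]; rfl⟩

theorem prob_le_fq (n : ℕ) :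
    prob n (fun M => M.det = 0) ≤ fq (ι := Fin n) (fun b => ∃ z, IsNull b z ∧ ∃ i, (z i : ZMod 2) ≠ 0) := by
  classical
  let e : (Sym2 (Fin n) → Bool) ≃ (Sym2 (Fin n) → Bool) :=
    ⟨fun x e => !x e, fun x e => !x e, fun x => by simp, fun x => by simp⟩
  unfold prob fq
  rw [Nat.card_eq_fintype_card, Nat.card_eq_fintype_card, Fintype.card_fun, Fintype.card_bool,
    Fintype.card_subtype, Nat.cast_pow, Nat.cast_ofNat, sum_boole]
  refine div_le_div_of_nonneg_right (Nat.cast_le.2 ?_) (by positivity)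
  refine card_le_card_of_injOn e ?_ e.injective.injOn
  intro x hx
  simp only [coe_filter, mem_univ, true_and, Set.mem_ofPred_eq] at hx ⊢
  refine exists_odd_null ?_
  set A : Matrix (Fin n) (Fin n) ℤ := Matrix.of fun i j => (1 - 2 * cMat (e x) i j : ℤ) with hA
  have hAx : (Int.castRingHom ℝ).mapMatrix A = symSign x := by
    ext i j
    simp only [RingHom.mapMatrix_apply, Matrix.map_apply, hA, Matrix.of_apply, cMat, symSign, e,
      Equiv.coe_fn_mk]
    rcases Bool.eq_false_or_eq_true (x s(i, j)) with h | h <;> simp [h] <;> norm_num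
  have h := (Int.castRingHom ℝ).map_det A
  rw [hAx, hx] at h
  simpa using h

theorem window_bound :
    ∃ C : ℝ, 0 ≤ C ∧ ∀ᶠ n : ℕ in atTop,
      fq (Wnd (m := bm n) (k := bk n) (bu n)) ≤ C * (2 : ℝ) ^ (-(141 / 2000 * (n : ℝ))) := by
  obtain ⟨E₀, hE₀, hbad⟩ := exists_bad_count
  obtain ⟨δ, hδ0, hδ1, hkey⟩ := kSum_key E₀
  obtain ⟨r, hr0, hr1, hlam⟩ := exists_lam E₀
  set Kh : ℝ := 1 + 2 ^ E₀ + δ with hKh
  refine ⟨128 * Kh + 1, by positivity, ?_⟩
  filter_upwards [hkey, hbad δ hδ0, eventually_ge_atTop 100000,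
    eventually_const_le 1 1 one_pos] with n hkey hbad hnN _
  obtain ⟨⟨hk1, hk2⟩, hm, ⟨hc1, hc2⟩, ⟨hj1, hj2⟩, ⟨hu1, hu2⟩⟩ := param_bounds n
  have hn : (100000 : ℝ) ≤ n := by exact_mod_cast hnN
  set Kk : ℝ := (2 : ℝ) ^ ((1 / 20000 : ℝ) * n) with hKk
  set j' := bj n - 1 with hj'
  have hj : j' + 1 = bj n := by
    have : bj n = 3 * n / 85 := rfl
    omega
  have hu : 1 ≤ bu n := by
    have : bu n = n / 1000 := rfl
    omega
  have hc : 1 ≤ bc n := by
    have : bc n = 4 * n / 55 := rfl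
    omega
  have hk : 1 ≤ bk n := by
    have : bk n = 5 * n / 11 := rfl
    omega
  have hatom : ∀ (v : Fin (bk n) → ℤ) (S : Finset (Fin (bk n))), Good (j' + 1) E₀ (bc n) δ v →
      ((univ : Finset (Fin (bk n))) \ S).card ≤ bc n →
      ((2 ^ (j' + 1) : ℕ) : ℝ) * atomS (1 / 16) (2 ^ (j' + 1)) v S ≤ Kh :=
    fun v S hg hS => (atom_facts (j' + 1) E₀ (bc n) 0 δ r hr0 hr1.le hlam v (Nat.zero_le _) hg).2 S hS
  refine (fq_wnd_le j' E₀ (bc n) (bu n) δ Kk Kh hδ0.le hu hc (by positivity) (by positivity) hatom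
    (fun v hv hg => hkey (j' + 1) (by omega) hj.le v hv hg)).trans ?_
  have hbadi : ∀ i ∈ Icc (E₀ + 1) (j' + 1),
      fq (BadEv (m := bm n) (k := bk n) i E₀ (bc n) (bu n) δ) ≤ (2 : ℝ) ^ (-(2 * (n : ℝ))) := by
    intro i hi
    rw [mem_Icc] at hi
    obtain ⟨i₁, rfl⟩ : ∃ i₁, i = i₁ + 1 := ⟨i - 1, by omega⟩
    have hi1 : 1 ≤ i₁ := by omega
    refine (fq_bad_le i₁ E₀ (bc n) (bu n) δ Kk hk (by positivity)
      (fun v hv hg => hkey i₁ hi1 (by omega) v hv hg)).trans ?_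
    have hcnt := hbad i₁ (by omega) (2 * 2 ^ i₁) (by rw [pow_succ]; ring)
    refine (mul_le_mul_of_nonneg_right hcnt (by positivity)).trans ?_
    have hpk : (((2 * 2 ^ i₁ : ℕ) : ℝ)) ^ bk n = (2 : ℝ) ^ bk n * ((2 : ℝ) ^ i₁) ^ bk n := by
      push_cast; rw [mul_pow]
    rw [hpk, hKk]
    calc (2 : ℝ) ^ bk n * ((2 : ℝ) ^ i₁) ^ bk n * (2 : ℝ) ^ (-(4 * (n : ℝ))) *
          (2 ^ bm n * (2 : ℝ) ^ ((1 / 20000 : ℝ) * n) * (2 : ℝ) ^ i₁ / ((2 : ℝ) ^ i₁) ^ bk n)
        = (2 : ℝ) ^ bk n * (2 : ℝ) ^ (-(4 * (n : ℝ))) * 2 ^ bm n * (2 : ℝ) ^ ((1 / 20000 : ℝ) * n)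
            * (2 : ℝ) ^ i₁ := by field_simp
      _ = (2 : ℝ) ^ ((bk n : ℝ) + -(4 * (n : ℝ)) + bm n + (1 / 20000 : ℝ) * n + i₁) := by
          simp only [Real.rpow_add (show (0 : ℝ) < 2 by norm_num), Real.rpow_natCast]
      _ ≤ _ := by
          refine Real.rpow_le_rpow_of_exponent_le (by norm_num) ?_
          have h9 : i₁ ≤ bj n := by omega
          have := (Nat.cast_le (α := ℝ)).2 h9
          rw [hm]
          linarith
  have hsum := sum_le_card_nsmul _ _ _ hbadi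
  rw [nsmul_eq_mul] at hsum
  have hcard : ((Icc (E₀ + 1) (j' + 1)).card : ℝ) ≤ (2 : ℝ) ^ (n : ℝ) := by
    rw [Real.rpow_natCast, Nat.card_Icc]
    have : j' + 1 + 1 - (E₀ + 1) ≤ 2 ^ n := by
      have : bj n = 3 * n / 85 := rfl
      have := (Nat.lt_two_pow_self (n := n))
      omega
    exact_mod_cast this
  refine le_trans (add_le_add (hsum.trans (mul_le_mul_of_nonneg_right hcard (by positivity))) le_rfl) ?_
  rw [add_mul (128 * Kh) 1, one_mul, add_comm (128 * Kh * _)]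
  refine add_le_add ?_ ?_
  · rw [← Real.rpow_add (by norm_num)]
    exact Real.rpow_le_rpow_of_exponent_le (by norm_num) (by linarith)
  · rw [hj]
    have e : ((2 : ℝ) ^ bj n) ^ 2 = (2 : ℝ) ^ (2 * (bj n : ℝ)) := by
      rw [← pow_mul, mul_comm, ← Real.rpow_natCast]; push_cast; ring_nf
    rw [e, mul_div_assoc, hKk, ← Real.rpow_sub (by norm_num)]
    calc 32 * Kh * (2 : ℝ) ^ ((1 / 20000 : ℝ) * n - 2 * (bj n : ℝ))
        ≤ 32 * Kh * (2 : ℝ) ^ (2 + -(141 / 2000 * (n : ℝ))) := by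
          refine mul_le_mul_of_nonneg_left (Real.rpow_le_rpow_of_exponent_le (by norm_num) ?_) (by positivity)
          linarith
      _ = _ := by
          rw [Real.rpow_add (by norm_num), Real.rpow_two]; ring

theorem two_rpow_le_twenty : (2 : ℝ) ^ (-(5 / 71) : ℝ) ≤ 20 / 21 := by
  refine le_of_pow_le_pow_left₀ (n := 71) (by norm_num) (by norm_num) ?_
  rw [← Real.rpow_natCast ((2 : ℝ) ^ (-(5 / 71) : ℝ)) 71, ← Real.rpow_mul (by norm_num),
    show (-(5 / 71) : ℝ) * ((71 : ℕ) : ℝ) = -((5 : ℕ) : ℝ) by norm_num,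
    Real.rpow_neg (by norm_num), Real.rpow_natCast]
  norm_num

/-- The explicit exponential bound. -/
theorem singular_le : ∀ᶠ n : ℕ in atTop, prob n (fun M => M.det = 0) ≤ (20 / 21 : ℝ) ^ n := by
  classical
  obtain ⟨C, hC0, hw⟩ := window_bound
  filter_upwards [hw, eventually_ge_atTop 100000,
    eventually_const_le (3 * C + 4) (141 / 2000 - 5 / 71) (by norm_num)] with n hw hnN hC
  obtain ⟨⟨hk1, hk2⟩, hm, ⟨hc1, hc2⟩, ⟨hj1, hj2⟩, ⟨hu1, hu2⟩⟩ := param_bounds n
  have hn : (100000 : ℝ) ≤ n := by exact_mod_cast hnN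
  have hbk : bk n = 5 * n / 11 := rfl
  have hbm : bm n = n - bk n := rfl
  set T := 3 * bu n
  set Wn := fun (σ : Fin (bm n) ⊕ Fin (bk n) ≃ Fin n) (b : Sym2 (Fin n) → Bool) =>
    Wnd (bu n) (fun e => b (Sym2.map σ e))
  obtain ⟨σ1, hσ1⟩ := exists_window (n := n) (k := bk n) 0 (by omega)
  obtain ⟨σ2, hσ2⟩ := exists_window (n := n) (k := bk n) (bk n) (by omega)
  obtain ⟨σ3, hσ3⟩ := exists_window (n := n) (k := bk n) (n - bk n) (by omega)
  set Sp := fun b : Sym2 (Fin n) → Bool => ∃ z, IsNull b z ∧ (∃ i, (z i : ZMod 2) ≠ 0) ∧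
    (univ.filter fun i => (z i : ZMod 2) ≠ 0).card ≤ T
  have hcover : ∀ b, (∃ z, IsNull b z ∧ ∃ i, (z i : ZMod 2) ≠ 0) → Sp b ∨ (Wn σ1 b ∨ (Wn σ2 b ∨ Wn σ3 b)) := by
    rintro b ⟨z, hz, hi⟩
    by_cases hT : (univ.filter fun i => (z i : ZMod 2) ≠ 0).card ≤ T
    · exact Or.inl ⟨z, hz, hi, hT⟩
    right
    by_contra hno
    push Not at hno
    have hlt : ∀ σ : Fin (bm n) ⊕ Fin (bk n) ≃ Fin n, ¬ Wn σ b →
        oddCount (fun c => z (σ (Sum.inr c))) < bu n := by
      intro σ hσ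
      by_contra h
      exact hσ ⟨fun a => z (σ a), isNull_reindex σ hz, not_lt.1 h⟩
    set O := fun σ : Fin (bm n) ⊕ Fin (bk n) ≃ Fin n =>
      ((univ : Finset (Fin (bk n))).filter fun c => (z (σ (Sum.inr c)) : ZMod 2) ≠ 0).image fun c => σ (Sum.inr c)
    have hO : ∀ σ, (O σ).card ≤ oddCount (fun c => z (σ (Sum.inr c))) := fun σ => card_image_le
    have hsub : (univ.filter fun i => (z i : ZMod 2) ≠ 0) ⊆ O σ1 ∪ (O σ2 ∪ O σ3) := by
      intro x hx
      simp only [mem_filter, mem_univ, true_and] at hx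
      have hin : ∀ (σ : Fin (bm n) ⊕ Fin (bk n) ≃ Fin n) (a : ℕ),
          (∀ c : Fin (bk n), (σ (Sum.inr c) : ℕ) = a + c) → a ≤ x → (x : ℕ) < a + bk n → x ∈ O σ := by
        intro σ a hσ h1 h2
        have hxe : σ (Sum.inr ⟨x - a, by omega⟩) = x := Fin.ext (by rw [hσ]; simp; omega)
        refine mem_image.2 ⟨⟨x - a, by omega⟩, ?_, hxe⟩
        simp [hxe, hx]
      simp only [mem_union]
      by_cases h1 : (x : ℕ) < bk n
      · exact Or.inl (hin σ1 0 hσ1 (Nat.zero_le _) (by omega))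
      · by_cases h2 : (x : ℕ) < bk n + bk n
        · exact Or.inr (Or.inl (hin σ2 _ hσ2 (by omega) (by omega)))
        · exact Or.inr (Or.inr (hin σ3 _ hσ3 (by omega) (by omega)))
    have h1 := (card_le_card hsub).trans ((card_union_le _ _).trans (Nat.add_le_add_left (card_union_le _ _) _))
    have a1 := hlt σ1 hno.1
    have a2 := hlt σ2 hno.2.1
    have a3 := hlt σ3 hno.2.2
    have b1 := hO σ1
    have b2 := hO σ2
    have b3 := hO σ3
    omega
  have hq := (prob_le_fq n).trans ((fq_mono hcover).trans ((fq_or _ _).trans (add_le_add le_rfl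
    ((fq_or _ _).trans (add_le_add le_rfl (fq_or _ _))))))
  have hsp : fq Sp ≤ 4 * (2 : ℝ) ^ (-(141 / 2000 * (n : ℝ))) := by
    refine (fq_sparse_le n (by omega) T).trans ?_
    calc (((univ : Finset (Finset (Fin n))).filter fun W => W.card ≤ T).card : ℝ) * 2 / 2 ^ (n - 1)
        ≤ (2 : ℝ) ^ (6 * (T : ℝ) + (1 / 32) * n) * 2 / 2 ^ (n - 1) := by
          gcongr
          refine (card_small_le (α := Fin n) T).trans ?_
          rw [Fintype.card_fin]
          exact sixtyfour_le T n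
      _ = 4 * (2 : ℝ) ^ (6 * (T : ℝ) + (1 / 32) * n - n) := by
          rw [Real.rpow_sub (by norm_num), Real.rpow_natCast]
          have : (2 : ℝ) ^ n = 2 ^ (n - 1) * 2 := by rw [← pow_succ]; congr 1; omega
          rw [this]; field_simp; ring
      _ ≤ _ := by
          refine mul_le_mul_of_nonneg_left (Real.rpow_le_rpow_of_exponent_le (by norm_num) ?_) (by norm_num)
          have : (T : ℝ) = 3 * bu n := by simp [T]
          linarith
  have hWn : ∀ σ, fq (Wn σ) ≤ C * (2 : ℝ) ^ (-(141 / 2000 * (n : ℝ))) := fun σ =>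
    (le_of_eq (fq_reindex σ (Wnd (bu n)))).trans hw
  have h1 : prob n (fun M => M.det = 0) ≤ (3 * C + 4) * (2 : ℝ) ^ (-(141 / 2000 * (n : ℝ))) := by
    have := hWn σ1
    have := hWn σ2
    have := hWn σ3
    linarith
  refine h1.trans ((mul_le_mul_of_nonneg_right hC (by positivity)).trans ?_)
  rw [← Real.rpow_add (by norm_num)]
  calc (2 : ℝ) ^ ((141 / 2000 - 5 / 71) * (n : ℝ) + -(141 / 2000 * (n : ℝ)))
      = ((2 : ℝ) ^ (-(5 / 71) : ℝ)) ^ n := by
        rw [← Real.rpow_natCast ((2 : ℝ) ^ (-(5 / 71) : ℝ)) n, ← Real.rpow_mul (by norm_num)]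
        congr 1; ring
    _ ≤ _ := pow_le_pow_left₀ (by positivity) two_rpow_le_twenty n

end

end Vale.Agent.P160.Rate
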