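import Vale.Agent.P160.Rate.Lazy

/-!
The probability that a lazy row annihilates a vector modulo `P` and satisfies parity constraints.
-/

namespace Vale.Agent.P160.Rate

open Finset

set_option linter.unusedSectionVars false

noncomputable section

variable {k c : ℕ}

/-- The integer inner product of a sign row with an integer vector. -/
def dot (v : Fin k → ℤ) (x : Fin k → SignType) : ℤ := ∑ i, ival (x i) * v i

/-- The parity functional given by `b` (the coordinate `none` multiplies the quotient by `P`). -/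
def parEval (P : ℕ) (v : Fin k → ℤ) (b : Option (Fin k) → ZMod 2) (x : Fin k → SignType) : ZMod 2 :=
  (∑ i, b (some i) * (ival (x i) : ZMod 2)) + b none * ((dot v x / (P : ℤ) : ℤ) : ZMod 2)

/-- The row event. -/
def RowEv (P : ℕ) (v : Fin k → ℤ) (b : Fin c → Option (Fin k) → ZMod 2)
    (x : Fin k → SignType) : Prop :=
  (P : ℤ) ∣ dot v x ∧ ∀ l, parEval P v (b l) x = 0

open Classical in
/-- Probability of an event for a lazy row of laziness `t`. -/
def rowPr (t : ℝ) (p : (Fin k → SignType) → Prop) : ℝ :=
  ∑ x : Fin k → SignType, if p x then fw (fun _ => t) x else 0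

/-- The atom at zero modulo `P` of the lazy combination of `v` restricted to `S`. -/
def atomS (t : ℝ) (P : ℕ) [NeZero P] (v : Fin k → ℤ) (S : Finset (Fin k)) : ℝ :=
  pr (fun _ => t) (fun i => if i ∈ S then (v i : ZMod P) else 0) 0

abbrev PG (P c : ℕ) := ZMod (2 * P) × (Fin c → ZMod 2)

/-- The group element attached to a coordinate. -/
def pg (P : ℕ) (v : Fin k → ℤ) (b : Fin c → Option (Fin k) → ZMod 2) (i : Fin k) : PG P c :=
  ((v i : ZMod (2 * P)), fun l => b l (some i))

/-- The second admissible value of the sum. -/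
def ph (P : ℕ) (b : Fin c → Option (Fin k) → ZMod 2) : PG P c :=
  (((P : ℤ) : ZMod (2 * P)), fun l => b l none)

theorem tot_pg (P : ℕ) (v : Fin k → ℤ) (b : Fin c → Option (Fin k) → ZMod 2)
    (x : Fin k → SignType) :
    tot (pg P v b) x = ((dot v x : ZMod (2 * P)), fun l => ∑ i, b l (some i) * (ival (x i) : ZMod 2)) := by
  refine Prod.ext ?_ ?_
  · simp [tot, dot, pg, Prod.fst_sum, zsmul_eq_mul]
  · funext l
    simp [tot, pg, Prod.snd_sum, Finset.sum_apply, zsmul_eq_mul, mul_comm]

theorem zmod2_neg (a : ZMod 2) : -a = a := by revert a; decide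

theorem rowEv_le (P : ℕ) [NeZero P] (v : Fin k → ℤ) (b : Fin c → Option (Fin k) → ZMod 2) :
    rowPr (1 / 4) (RowEv P v b)
      ≤ pr (fun _ => 1 / 4) (pg P v b) 0 + pr (fun _ => 1 / 4) (pg P v b) (ph P b) := by
  classical
  unfold rowPr pr
  rw [← sum_add_distrib]
  refine sum_le_sum fun x _ => ?_
  have hw : 0 ≤ fw (fun _ : Fin k => (1 / 4 : ℝ)) x := fw_nonneg (fun _ => by norm_num) (fun _ => by norm_num) x
  by_cases hx : RowEv P v b x
  · obtain ⟨⟨a, ha⟩, hb⟩ := hx
    rw [if_pos ⟨⟨a, ha⟩, hb⟩]
    have hP : (P : ℤ) ≠ 0 := by exact_mod_cast NeZero.ne P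
    have hdiv : dot v x / (P : ℤ) = a := by rw [ha]; exact Int.mul_ediv_cancel_left _ hP
    rcases Int.even_or_odd a with ⟨q, hq⟩ | ⟨q, hq⟩
    · have : tot (pg P v b) x = 0 := by
        rw [tot_pg]
        refine Prod.ext ?_ ?_
        · simp only [Prod.fst_zero]
          rw [ZMod.intCast_zmod_eq_zero_iff_dvd]
          exact ⟨q, by rw [ha, hq]; push_cast; ring⟩
        · funext l
          have := hb l
          have ha0 : (a : ZMod 2) = 0 := by
            rw [ZMod.intCast_zmod_eq_zero_iff_dvd]; exact ⟨q, by rw [hq]; push_cast; ring⟩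
          simpa [parEval, hdiv, ha0] using this
      rw [if_pos this]
      split <;> linarith
    · have : tot (pg P v b) x = ph P b := by
        rw [tot_pg]
        refine Prod.ext ?_ ?_
        · simp only [ph]
          rw [ZMod.intCast_eq_intCast_iff_dvd_sub]
          exact ⟨-q, by rw [ha, hq]; push_cast; ring⟩
        · funext l
          have := hb l
          have ha1 : (a : ZMod 2) = 1 := by
            rw [hq]; push_cast
            rw [show (2 : ZMod 2) = 0 from by decide]; simp
          simp only [parEval, hdiv, ha1, mul_one] at this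
          simp only [ph]
          rw [eq_neg_of_add_eq_zero_left this, zmod2_neg]
      rw [if_pos this]
      split <;> linarith
  · rw [if_neg hx]
    split <;> split <;> linarith

theorem intCast_two_mul_eq_zero (P : ℕ) (a : ℤ) :
    ((2 * a : ℤ) : ZMod (2 * P)) = 0 ↔ (a : ZMod P) = 0 := by
  rw [ZMod.intCast_zmod_eq_zero_iff_dvd, ZMod.intCast_zmod_eq_zero_iff_dvd]
  push_cast
  exact mul_dvd_mul_iff_left (two_ne_zero)

/-- Doubling all elements: the atom modulo `2P` of `2v` is the atom modulo `P` of `v`. -/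
theorem pr_double_eq (P : ℕ) [NeZero P] (t : Fin k → ℝ) (v : Fin k → ℤ)
    (b : Fin c → Option (Fin k) → ZMod 2) :
    pr t (fun i => (2 : ℤ) • pg P v b i) 0 = pr t (fun i => (v i : ZMod P)) 0 := by
  unfold pr
  refine sum_congr rfl fun x _ => if_congr ?_ rfl rfl
  have h1 : tot (fun i => (2 : ℤ) • pg P v b i) x = (2 : ℤ) • tot (pg P v b) x := by
    simp only [tot, smul_sum]
    exact sum_congr rfl fun i _ => smul_comm _ _ _
  have h2 : tot (fun i => (v i : ZMod P)) x = (dot v x : ZMod P) := by
    simp [tot, dot, zsmul_eq_mul]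
  rw [h1, h2, tot_pg, ← intCast_two_mul_eq_zero]
  constructor
  · intro h
    have := congrArg Prod.fst h
    simpa [zsmul_eq_mul] using this
  · intro h
    refine Prod.ext ?_ ?_
    · simpa [zsmul_eq_mul] using h
    · funext l
      simp [zsmul_eq_mul, show (2 : ZMod 2) = 0 from by decide]

theorem phi_quarter_le_double {G : Type*} [AddCommGroup G] [Fintype G] [DecidableEq G]
    (χ : AddChar G ℂ) (a : G) :
    phi (1 / 4) (χ a) ≤ phi (1 / 16) (χ ((2 : ℤ) • a)) := by
  have := phi_double (t := 1 / 4) (by norm_num) (norm_char χ a)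
  rw [show (1 : ℝ) / 4 / 4 = 1 / 16 by norm_num] at this
  rwa [two_zsmul, χ.map_add_eq_mul]

/-- The pivot bound. -/
theorem rowEv_pivot (P : ℕ) [NeZero P] (v : Fin k → ℤ) (b : Fin c → Option (Fin k) → ZMod 2)
    (C : Fin c ↪ Fin k) (hC : ∀ l l', b l (some (C l')) = if l = l' then 1 else 0) :
    rowPr (1 / 4) (RowEv P v b) ≤
      2 * ((3 / 4) ^ c * atomS (1 / 16) P v ((univ : Finset (Fin k)) \ univ.map C)) := by
  classical
  set CS : Finset (Fin k) := univ.map C with hCS
  set t' : Fin k → ℝ := fun i => if i ∈ CS then 1 / 4 else 1 / 16 with ht'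
  set g' : Fin k → PG P c := fun i => if i ∈ CS then pg P v b i else (2 : ℤ) • pg P v b i with hg'
  have hle : ∀ h, pr (fun _ => 1 / 4) (pg P v b) h ≤ pr t' g' 0 := fun h =>
    pr_le_of_phi_le h (fun _ => by norm_num) (fun _ => by norm_num) fun χ i => by
      simp only [ht', hg']
      split
      · rfl
      · exact phi_quarter_le_double χ _
  refine (rowEv_le P v b).trans ?_
  suffices hmix : pr t' g' 0 ≤ (3 / 4) ^ c * atomS (1 / 16) P v (univ \ CS) by
    linarith [hle 0, hle (ph P b)]
  have heq : atomS (1 / 16) P v (univ \ CS)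
      = pr (fun i => if i ∈ CS then 0 else 1 / 16) (fun i => if i ∈ univ \ CS then (v i : ZMod P) else 0) 0 := by
    have hc : (Fintype.card (ZMod P) : ℝ) ≠ 0 := by exact_mod_cast Fintype.card_ne_zero
    refine mul_left_cancel₀ hc ?_
    rw [atomS, card_mul_pr_zero, card_mul_pr_zero]
    refine sum_congr rfl fun χ _ => prod_congr rfl fun i _ => ?_
    by_cases hi : i ∈ CS <;> simp [hi, phi]
  rw [heq]
  unfold pr
  rw [mul_sum]
  refine sum_le_sum fun x _ => ?_
  set t0 : Fin k → ℝ := fun i => if i ∈ CS then 0 else 1 / 16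
  have ht'0 : ∀ i, 0 ≤ t' i ∧ t' i ≤ 1 := fun i => by simp only [ht']; split <;> norm_num
  have ht00 : ∀ i, 0 ≤ t0 i ∧ t0 i ≤ 1 := fun i => by simp only [t0]; split <;> norm_num
  have hrhs : 0 ≤ (3 / 4 : ℝ) ^ c * if tot (fun i => if i ∈ univ \ CS then (v i : ZMod P) else 0) x = 0
      then fw t0 x else 0 := by
    split
    · exact mul_nonneg (by positivity) (fw_nonneg (fun i => (ht00 i).1) (fun i => (ht00 i).2) x)
    · simp
  by_cases hx : tot g' x = 0
  · rw [if_pos hx]
    have hx0 : ∀ l, x (C l) = 0 := by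
      intro l
      have h2 : (tot g' x).2 l = (ival (x (C l)) : ZMod 2) := by
        simp only [tot, Prod.snd_sum, Finset.sum_apply]
        rw [sum_eq_single (C l)]
        · simp [hg', hCS, pg, hC, zsmul_eq_mul]
        · intro i _ hi
          by_cases hiC : i ∈ CS
          · obtain ⟨l', -, rfl⟩ := mem_map.1 hiC
            have : l ≠ l' := fun h => hi (by rw [h])
            simp [hg', hiC, pg, hC, this]
          · simp [hg', hiC, pg, zsmul_eq_mul, show (2 : ZMod 2) = 0 from by decide]
        · simp
      rw [hx] at h2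
      revert h2
      cases x (C l) <;> simp [ival]
    have hfw : fw t' x = (3 / 4 : ℝ) ^ c * fw t0 x := by
      have hp : ∀ i, wt (t' i) (x i) = (if i ∈ CS then 3 / 4 else 1) * wt (t0 i) (x i) := by
        intro i
        by_cases hi : i ∈ CS
        · obtain ⟨l, -, rfl⟩ := mem_map.1 hi
          simp [ht', t0, hi, wt, hx0 l]
          norm_num
        · simp [ht', t0, hi]
      simp only [fw, hp, prod_mul_distrib, prod_ite_mem, univ_inter, prod_const]
      simp [hCS]
    have htot : tot (fun i => if i ∈ univ \ CS then (v i : ZMod P) else 0) x = 0 := by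
      have h1 := congrArg Prod.fst hx
      simp only [Prod.fst_zero, tot, Prod.fst_sum] at h1
      set s : ℤ := ∑ i ∈ univ \ CS, ival (x i) * v i with hs
      have hl : tot (fun i => if i ∈ univ \ CS then (v i : ZMod P) else 0) x = (s : ZMod P) := by
        simp only [tot, hs, Int.cast_sum, Int.cast_mul, zsmul_eq_mul]
        rw [← Finset.sum_filter_add_sum_filter_not univ (fun i => i ∈ univ \ CS)]
        rw [sum_eq_zero (s := univ.filter fun i => ¬ i ∈ univ \ CS) (fun i hi => by
          simp only [mem_filter] at hi; simp [hi.2]), add_zero]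
        exact sum_congr (by ext i; simp) fun i hi => by simp [hi]
      rw [hl, ← intCast_two_mul_eq_zero]
      rw [← h1, hs, mul_sum, Int.cast_sum]
      rw [← sum_subset (subset_univ (univ \ CS))]
      · refine sum_congr rfl fun i hi => ?_
        have : i ∉ CS := (mem_sdiff.1 hi).2
        simp [hg', this, pg, zsmul_eq_mul]
        ring
      · intro i _ hi
        have : i ∈ CS := by simpa using hi
        obtain ⟨l, -, rfl⟩ := mem_map.1 this
        simp [hx0 l, ival]
    rw [hfw, if_pos htot]
  · rw [if_neg hx]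
    exact hrhs

end

end Vale.Agent.P160.Rate
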