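import Vale.Agent.P160.Rate.SharpBound

/-!
The parity kernel of a matrix of rows, pivots, and kernels modulo powers of two.
-/

namespace Vale.Agent.P160.Rate

open Finset

set_option linter.unusedSectionVars false

noncomputable section

variable {k : ℕ}

abbrev Row (k : ℕ) := Fin k → SignType

abbrev V2 (k : ℕ) := Option (Fin k) → ZMod 2

theorem parEval_add (P : ℕ) (v : Fin k → ℤ) (a b : V2 k) (x : Row k) :
    parEval P v (a + b) x = parEval P v a x + parEval P v b x := by
  simp only [parEval, Pi.add_apply, add_mul, sum_add_distrib]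
  abel

theorem parEval_smul (P : ℕ) (v : Fin k → ℤ) (c : ZMod 2) (a : V2 k) (x : Row k) :
    parEval P v (c • a) x = c * parEval P v a x := by
  simp only [parEval, Pi.smul_apply, smul_eq_mul, mul_add, mul_sum, mul_assoc]

/-- The parity kernel of a family of rows. -/
def kerW {ι : Type*} (P : ℕ) (v : Fin k → ℤ) (R : ι → Row k) : Submodule (ZMod 2) (V2 k) where
  carrier := {y | ∀ r, parEval P v y (R r) = 0}
  zero_mem' r := by simp [parEval]
  add_mem' ha hb r := by rw [parEval_add, ha r, hb r, add_zero]
  smul_mem' c a ha r := by rw [parEval_smul, ha r, mul_zero]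

theorem mem_kerW {ι : Type*} {P : ℕ} {v : Fin k → ℤ} {R : ι → Row k} {y : V2 k} :
    y ∈ kerW P v R ↔ ∀ r, parEval P v y (R r) = 0 := Iff.rfl

/-- The parity vector of `v`. -/
def vbar (v : Fin k → ℤ) : V2 k := fun o => Option.elim o 0 fun i => (v i : ZMod 2)

theorem vbar_mem_kerW {ι : Type*} {P : ℕ} (hP : 2 ∣ P) {v : Fin k → ℤ} {R : ι → Row k}
    (hR : ∀ r, (P : ℤ) ∣ dot v (R r)) : vbar v ∈ kerW P v R := by
  intro r
  have h2 : ((dot v (R r) : ℤ) : ZMod 2) = 0 :=
    (ZMod.intCast_zmod_eq_zero_iff_dvd _ 2).2 ((by exact_mod_cast hP : (2 : ℤ) ∣ (P : ℤ)).trans (hR r))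
  rw [← h2]
  simp [parEval, vbar, dot, mul_comm]

/-- Pivot coordinates with an adapted family, in a subspace of a coordinate space. -/
theorem exists_pivots {α : Type*} [Finite α] : ∀ (c : ℕ) (L : Submodule (ZMod 2) (α → ZMod 2)),
    c ≤ Module.finrank (ZMod 2) L →
    ∃ (C : Fin c ↪ α) (b : Fin c → α → ZMod 2),
      (∀ l, b l ∈ L) ∧ ∀ l l', b l (C l') = if l = l' then 1 else 0 := by
  classical
  have := Fintype.ofFinite α
  intro c
  induction c with
  | zero => exact fun L _ => ⟨⟨Fin.elim0, fun a => a.elim0⟩, Fin.elim0, fun l => l.elim0,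
      fun l => l.elim0⟩
  | succ c ih =>
    intro L hL
    have hne : L ≠ ⊥ := by
      rintro rfl
      simp at hL
    obtain ⟨y, hyL, hy0⟩ := Submodule.exists_mem_ne_zero_of_ne_bot hne
    obtain ⟨a, ha⟩ := Function.ne_iff.1 hy0
    have ha1 : y a = 1 := (zmod2_cases (y a)).resolve_left ha
    let f : L →ₗ[ZMod 2] ZMod 2 := (LinearMap.proj a).comp L.subtype
    set L' : Submodule (ZMod 2) (α → ZMod 2) := (LinearMap.ker f).map L.subtype with hL'
    have hL'rank : c ≤ Module.finrank (ZMod 2) L' := by
      rw [hL', Submodule.finrank_map_subtype_eq]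
      have h1 := LinearMap.finrank_range_add_finrank_ker f
      have h2 : Module.finrank (ZMod 2) (LinearMap.range f) ≤ 1 :=
        (Submodule.finrank_le _).trans (Module.finrank_self (ZMod 2)).le
      omega
    obtain ⟨C, b, hbL, hb⟩ := ih L' hL'rank
    have hmem : ∀ z ∈ L', z ∈ L ∧ z a = 0 := by
      intro z hz
      obtain ⟨⟨w, hw⟩, hwker, rfl⟩ := Submodule.mem_map.1 hz
      exact ⟨hw, by simpa [f] using hwker⟩
    have hCa : ∀ l, C l ≠ a := by
      intro l h
      have := hb l l
      rw [h, (hmem _ (hbL l)).2, if_pos rfl] at this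
      exact zero_ne_one this
    set y' := y - ∑ l, y (C l) • b l with hy'
    refine ⟨⟨Fin.cons a C, Fin.cons_injective_iff.2 ⟨by rintro ⟨l, hl⟩; exact hCa l hl, C.injective⟩⟩,
      Fin.cons y' b, ?_, ?_⟩
    · intro l
      induction l using Fin.cases with
      | zero =>
        simpa [hy'] using sub_mem hyL (sum_mem fun l _ => L.smul_mem _ (hmem _ (hbL l)).1)
      | succ l => simpa using (hmem _ (hbL l)).1
    · intro l l'
      induction l using Fin.cases with
      | zero =>
        induction l' using Fin.cases with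
        | zero => simp [hy', ha1, fun l => (hmem _ (hbL l)).2]
        | succ l' => simp [hy', hb, (Fin.succ_ne_zero l').symm]
      | succ l =>
        induction l' using Fin.cases with
        | zero => simp [(hmem _ (hbL l)).2]
        | succ l' => simp [hb]

theorem mem_finset_span_card {α : Type*} [Fintype α] [DecidableEq α] (L : Submodule (ZMod 2) (α → ZMod 2))
    [DecidablePred (· ∈ L)] :
    (univ.filter (· ∈ L)).card = 2 ^ Module.finrank (ZMod 2) L := by
  classical
  have := Module.card_eq_pow_finrank (K := ZMod 2) (V := L)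
  rw [ZMod.card] at this
  rw [← this]
  convert (Fintype.card_subtype (fun y => y ∈ L)).symm using 2

/-- Weighted count of a subspace avoiding the extra coordinate. -/
theorem sum_wgt_le (L : Submodule (ZMod 2) (V2 k)) [DecidablePred (· ∈ L)]
    (h0 : ∀ y ∈ L, y none = 0) :
    ∑ y ∈ univ.filter (· ∈ L), wgt y ≤ (3 / 2) ^ Module.finrank (ZMod 2) L := by
  classical
  set r := Module.finrank (ZMod 2) L with hr
  obtain ⟨C, b, hbL, hb⟩ := exists_pivots r L le_rfl
  have hsome : ∀ l, ∃ i, C l = some i := by
    intro l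
    cases hC : C l with
    | none =>
      have := hb l l
      rw [hC, h0 _ (hbL l), if_pos rfl] at this
      exact absurd this zero_ne_one
    | some i => exact ⟨i, rfl⟩
  choose I hI using hsome
  have hIinj : Function.Injective I := fun a a' h => C.injective (by rw [hI, hI, h])
  let G : (Fin r → ZMod 2) → V2 k := fun μ => ∑ l, μ l • b l
  have hGC : ∀ μ l, G μ (C l) = μ l := by
    intro μ l; simp [G, hb]
  have himg : univ.image G = univ.filter (· ∈ L) := by
    refine eq_of_subset_of_card_le ?_ ?_
    · intro y hy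
      obtain ⟨μ, -, rfl⟩ := mem_image.1 hy
      simpa using sum_mem fun l _ => L.smul_mem _ (hbL l)
    · rw [mem_finset_span_card, card_image_of_injective]
      · simp [hr]
      · intro μ μ' h; funext l; rw [← hGC μ l, h, hGC]
  rw [← himg, sum_image fun μ _ μ' _ h => by funext l; rw [← hGC μ l, h, hGC]]
  calc ∑ μ, wgt (G μ) ≤ ∑ μ : Fin r → ZMod 2, ∏ l, (if μ l = 0 then (1 : ℝ) else 1 / 2) := by
        refine sum_le_sum fun μ _ => ?_
        unfold wgt
        rw [← prod_sdiff (subset_univ (univ.image I))]
        rw [prod_image fun a _ a' _ h => hIinj h]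
        have : ∀ l, G μ (some (I l)) = μ l := fun l => by rw [← hI]; exact hGC μ l
        simp only [this]
        refine mul_le_of_le_one_left (prod_nonneg fun l _ => by split <;> norm_num) ?_
        exact prod_le_one (fun i _ => by split <;> norm_num) fun i _ => by split <;> norm_num
    _ = (3 / 2) ^ r := by
        rw [← Fintype.prod_sum (fun (_ : Fin r) (a : ZMod 2) => if a = 0 then (1 : ℝ) else 1 / 2)]
        have : (univ : Finset (ZMod 2)) = {0, 1} := by decide
        simp [this]
        norm_num

/-- A subfamily of at most codimension many rows has the same kernel. -/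
theorem exists_rows_kerW {m : ℕ} (P : ℕ) (v : Fin k → ℤ) (R : Fin m → Row k) :
    ∃ B : Finset (Fin m), B.card + Module.finrank (ZMod 2) (kerW P v R) ≤ k + 1 ∧
      kerW P v (fun r : B => R r) = kerW P v R := by
  classical
  set T : Finset (Finset (Fin m)) := univ.filter fun B : Finset (Fin m) =>
    B.card + Module.finrank (ZMod 2) (kerW P v (fun r : B => R r)) ≤ k + 1 with hT
  have hTne : T.Nonempty := by
    refine ⟨∅, ?_⟩
    simp only [hT, mem_filter, mem_univ, true_and, card_empty, zero_add]
    refine (Submodule.finrank_le _).trans ?_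
    simp
  obtain ⟨B, hBT, hmax⟩ := exists_max_image T card hTne
  simp only [hT, mem_filter, mem_univ, true_and] at hBT
  have hle : kerW P v R ≤ kerW P v (fun r : B => R r) := fun y hy r => hy r
  have heq : kerW P v (fun r : B => R r) = kerW P v R := by
    refine le_antisymm (fun y hy r => ?_) hle
    by_contra hr
    have hrB : r ∉ B := fun h => hr (hy ⟨r, h⟩)
    have hsub : kerW P v (fun x : (insert r B : Finset (Fin m)) => R x)
        < kerW P v (fun r : B => R r) := by
      refine lt_of_le_not_ge (fun z hz x => hz ⟨x, mem_insert_of_mem x.2⟩) fun h => hr ?_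
      exact h hy ⟨r, mem_insert_self r B⟩
    have hlt := Submodule.finrank_lt_finrank_of_lt hsub
    have hmem : insert r B ∈ T := by
      simp only [hT, mem_filter, mem_univ, true_and]
      rw [card_insert_of_notMem hrB]
      omega
    have := hmax _ hmem
    rw [card_insert_of_notMem hrB] at this
    omega
  exact ⟨B, by rw [← heq]; exact hBT, heq⟩

/-- Number of solutions modulo `N` of a system with integer coefficients. -/
def solCard {m : ℕ} {β : Type*} [Fintype β] (N : ℕ) [NeZero N] (A : Fin m → β → ℤ) : ℕ := by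
  classical exact (univ.filter fun y : β → ZMod N => ∀ r, ∑ o, (A r o : ZMod N) * y o = 0).card

theorem solCard_succ {m : ℕ} {β : Type*} [Fintype β] (A : Fin m → β → ℤ) (i : ℕ) :
    solCard (2 ^ (i + 1)) A ≤ solCard (2 ^ i) A * solCard 2 A := by
  classical
  have hd : 2 ∣ 2 ^ (i + 1) := dvd_pow_self 2 (Nat.succ_ne_zero i)
  let π : (β → ZMod (2 ^ (i + 1))) → (β → ZMod 2) := fun y o => ZMod.castHom hd (ZMod 2) (y o)
  set S := univ.filter fun y : β → ZMod (2 ^ (i + 1)) => ∀ r, ∑ o, (A r o : ZMod _) * y o = 0 with hS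
  have hmap : ∀ y ∈ S, π y ∈ univ.filter fun y : β → ZMod 2 => ∀ r, ∑ o, (A r o : ZMod 2) * y o = 0 := by
    intro y hy
    simp only [hS, mem_filter, mem_univ, true_and] at hy ⊢
    intro r
    have := congrArg (ZMod.castHom hd (ZMod 2)) (hy r)
    simpa [π] using this
  have hfib : ∀ z ∈ S.image π, (S.filter fun y => π y = z).card ≤ solCard (2 ^ i) A := by
    intro z hz
    obtain ⟨y0, hy0, rfl⟩ := mem_image.1 hz
    simp only [hS, mem_filter, mem_univ, true_and] at hy0
    let q : (β → ZMod (2 ^ (i + 1))) → (β → ZMod (2 ^ i)) :=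
      fun y o => (((y o - y0 o).val / 2 : ℕ) : ZMod (2 ^ i))
    have key : ∀ y : β → ZMod (2 ^ (i + 1)), π y = π y0 → ∀ o, 2 ∣ (y o - y0 o).val := by
      intro y hy o
      have h := congrFun hy o
      simp only [π] at h
      rw [← sub_eq_zero, ← map_sub, ZMod.castHom_apply, ZMod.cast_eq_val,
        ZMod.natCast_eq_zero_iff_even] at h
      exact even_iff_two_dvd.1 h
    refine Finset.card_le_card_of_injOn q ?_ ?_
    · intro y hy
      simp only [coe_filter, Set.mem_ofPred_eq, hS, mem_filter, mem_univ, true_and] at hy ⊢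
      obtain ⟨hyS, hyπ⟩ := hy
      intro r
      have h1 : ∑ o, (A r o : ZMod (2 ^ (i + 1))) * (y o - y0 o) = 0 := by
        simp [mul_sub, sum_sub_distrib, hyS r, hy0 r]
      set s : ℤ := ∑ o, A r o * ((((y o - y0 o).val / 2 : ℕ) : ℤ))
      have h2 : ((2 * s : ℤ) : ZMod (2 ^ (i + 1))) = 0 := by
        rw [← h1]
        simp only [s, Int.cast_mul, Int.cast_sum, Int.cast_natCast, mul_sum]
        refine sum_congr rfl fun o _ => ?_
        have he : ((2 * ((y o - y0 o).val / 2) : ℕ) : ZMod (2 ^ (i + 1))) = y o - y0 o := by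
          rw [Nat.mul_div_cancel' (key y hyπ o), ZMod.natCast_zmod_val]
        rw [Nat.cast_mul] at he
        conv_rhs => rw [← he]
        push_cast
        ring
      have h3 : ((s : ℤ) : ZMod (2 ^ i)) = 0 := by
        rw [ZMod.intCast_zmod_eq_zero_iff_dvd] at h2 ⊢
        push_cast at h2 ⊢
        rw [pow_succ, mul_comm] at h2
        exact (mul_dvd_mul_iff_left two_ne_zero).1 h2
      rw [← h3]
      simp only [s, q, Int.cast_sum, Int.cast_mul, Int.cast_natCast]
    · intro y hy y' hy' h
      simp only [coe_filter, Set.mem_ofPred_eq] at hy hy'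
      funext o
      have h' := congrFun h o
      simp only [q] at h'
      rw [ZMod.natCast_eq_natCast_iff', Nat.mod_eq_of_lt, Nat.mod_eq_of_lt] at h'
      · have e : (y o - y0 o).val = (y' o - y0 o).val := by
          have := key y hy.2 o
          have := key y' hy'.2 o
          omega
        simpa using ZMod.val_injective _ e
      · have := ZMod.val_lt (y' o - y0 o)
        have e2 : 2 ^ (i + 1) = 2 * 2 ^ i := by rw [pow_succ, mul_comm]
        omega
      · have := ZMod.val_lt (y o - y0 o)
        have e2 : 2 ^ (i + 1) = 2 * 2 ^ i := by rw [pow_succ, mul_comm]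
        omega
  calc solCard (2 ^ (i + 1)) A = S.card := by simp [solCard, hS]
    _ ≤ solCard (2 ^ i) A * (S.image π).card := card_le_mul_card_image S _ hfib
    _ ≤ solCard (2 ^ i) A * solCard 2 A := by
        refine Nat.mul_le_mul_left _ ?_
        unfold solCard
        refine card_le_card fun z hz => ?_
        obtain ⟨y, hy, rfl⟩ := mem_image.1 hz
        simpa using hmap y hy

theorem solCard_pow_le {m : ℕ} {β : Type*} [Fintype β] (A : Fin m → β → ℤ) :
    ∀ i, 1 ≤ i → solCard (2 ^ i) A ≤ solCard 2 A ^ i := by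
  intro i hi
  induction i, hi using Nat.le_induction with
  | base => simp
  | succ i _ ih =>
    refine (solCard_succ A i).trans ?_
    rw [pow_succ (solCard 2 A)]
    exact Nat.mul_le_mul_right _ ih

end

end Vale.Agent.P160.Rate
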