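import Vale.Agent.P160.Rate.Reduction

/-!
The numerical parameters, and the kernel bound at every level.
-/

namespace Vale.Agent.P160.Rate

open Finset

set_option linter.unusedSectionVars false

noncomputable section

/-- The block size. -/
def bk (n : ℕ) : ℕ := 5 * n / 11

/-- The outside size. -/
def bm (n : ℕ) : ℕ := n - 5 * n / 11

/-- The number of pivots. -/
def bc (n : ℕ) : ℕ := 4 * n / 55

/-- The exponent of the modulus. -/
def bj (n : ℕ) : ℕ := 3 * n / 85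

/-- The threshold for odd coordinates. -/
def bu (n : ℕ) : ℕ := n / 1000

theorem param_bounds (n : ℕ) :
    ((bk n : ℝ) ≤ 5 * n / 11 ∧ 5 * (n : ℝ) / 11 - 1 ≤ bk n) ∧
    ((bm n : ℝ) = n - bk n) ∧
    ((bc n : ℝ) ≤ 4 * n / 55 ∧ 4 * (n : ℝ) / 55 - 1 ≤ bc n) ∧
    ((bj n : ℝ) ≤ 3 * n / 85 ∧ 3 * (n : ℝ) / 85 - 1 ≤ bj n) ∧
    ((bu n : ℝ) ≤ n / 1000 ∧ (n : ℝ) / 1000 - 1 ≤ bu n) := by
  have h1 : 11 * bk n ≤ 5 * n ∧ 5 * n ≤ 11 * bk n + 11 := by unfold bk; omega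
  have h2 : 55 * bc n ≤ 4 * n ∧ 4 * n ≤ 55 * bc n + 55 := by unfold bc; omega
  have h3 : 85 * bj n ≤ 3 * n ∧ 3 * n ≤ 85 * bj n + 85 := by unfold bj; omega
  have h4 : 1000 * bu n ≤ n ∧ n ≤ 1000 * bu n + 1000 := by unfold bu; omega
  have h5 : bk n ≤ n := by unfold bk; omega
  refine ⟨⟨?_, ?_⟩, ?_, ⟨?_, ?_⟩, ⟨?_, ?_⟩, ⟨?_, ?_⟩⟩
  · have := (Nat.cast_le (α := ℝ)).2 h1.1; push_cast at this; linarith
  · have := (Nat.cast_le (α := ℝ)).2 h1.2; push_cast at this; linarith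
  · rw [show bm n = n - bk n from rfl, Nat.cast_sub h5]
  · have := (Nat.cast_le (α := ℝ)).2 h2.1; push_cast at this; linarith
  · have := (Nat.cast_le (α := ℝ)).2 h2.2; push_cast at this; linarith
  · have := (Nat.cast_le (α := ℝ)).2 h3.1; push_cast at this; linarith
  · have := (Nat.cast_le (α := ℝ)).2 h3.2; push_cast at this; linarith
  · have := (Nat.cast_le (α := ℝ)).2 h4.1; push_cast at this; linarith
  · have := (Nat.cast_le (α := ℝ)).2 h4.2; push_cast at this; linarith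

theorem base_pow_le {a : ℝ} (ha : 0 ≤ a) (N : ℕ) (hN : N ≠ 0) (q : ℕ) (h : a ^ N ≤ ((1 : ℝ) / 2) ^ q) :
    a ≤ (2 : ℝ) ^ (-((q : ℝ) / N)) := by
  refine le_of_pow_le_pow_left₀ hN (by positivity) (h.trans (le_of_eq ?_))
  rw [← Real.rpow_natCast ((2 : ℝ) ^ (-((q : ℝ) / N))) N, ← Real.rpow_mul (by norm_num),
    one_div, inv_pow, ← Real.rpow_natCast, ← Real.rpow_neg (by norm_num)]
  congr 1
  field_simp

theorem three_quarters_le : (3 / 4 : ℝ) ≤ (2 : ℝ) ^ (-(83 / 200) : ℝ) := by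
  have := base_pow_le (a := (3 / 4 : ℝ)) (by norm_num) 200 (by norm_num) 83 (by norm_num)
  exact_mod_cast this

theorem fifteen_sixteenths_le : (15 / 16 : ℝ) ≤ (2 : ℝ) ^ (-(93 / 1000) : ℝ) := by
  have h := base_pow_le (a := (15 / 16 : ℝ)) (by norm_num) 43 (by norm_num) 4 (by norm_num)
  refine h.trans (Real.rpow_le_rpow_of_exponent_le (by norm_num) ?_)
  norm_num

theorem pow_le_two_rpow {a : ℝ} (ha : 0 ≤ a) {x : ℝ} (h : a ≤ (2 : ℝ) ^ x) (N : ℕ) :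
    a ^ N ≤ (2 : ℝ) ^ (x * N) := by
  rw [Real.rpow_mul (by norm_num), Real.rpow_natCast]
  exact pow_le_pow_left₀ ha h N

theorem two_pow_eq (N : ℕ) : (2 : ℝ) ^ N = (2 : ℝ) ^ (N : ℝ) := (Real.rpow_natCast 2 N).symm

theorem one_add_le_rpow {x : ℝ} (hx : -1 ≤ x) : 1 + x ≤ (2 : ℝ) ^ (2 * x) ∨ x < 0 := by
  by_cases h : x < 0
  · exact Or.inr h
  · left
    push Not at h
    have h1 : 1 + x ≤ Real.exp x := by linarith [Real.add_one_le_exp x]
    refine h1.trans ?_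
    rw [Real.rpow_def_of_pos (by norm_num)]
    refine Real.exp_le_exp.2 ?_
    have : (1 : ℝ) / 2 ≤ Real.log 2 := by linarith [Real.log_two_gt_d9]
    nlinarith

theorem one_add_pow_le {x : ℝ} (hx : 0 ≤ x) (N : ℕ) : (1 + x) ^ N ≤ (2 : ℝ) ^ (2 * x * N) :=
  pow_le_two_rpow (by linarith) ((one_add_le_rpow (by linarith)).resolve_right (not_lt.2 hx)) N

/-- Subsets of bounded size. -/
theorem card_small_le {α : Type*} [Fintype α] [DecidableEq α] (T : ℕ) :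
    (((univ : Finset (Finset α)).filter fun W => W.card ≤ T).card : ℝ)
      ≤ (64 : ℝ) ^ T * (1 + 1 / 64) ^ Fintype.card α := by
  have h : ∑ W : Finset α, (1 / 64 : ℝ) ^ W.card = (1 + 1 / 64) ^ Fintype.card α := by
    rw [add_comm, ← Fintype.sum_pow_mul_eq_add_pow α (1 / 64 : ℝ) 1]
    simp
  rw [← h, mul_sum, card_eq_sum_ones, Nat.cast_sum]
  refine le_trans (sum_le_sum fun W hW => ?_)
    (sum_le_sum_of_subset_of_nonneg (subset_univ _) fun W _ _ => by positivity)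
  rw [Nat.cast_one, one_div, inv_pow, ← div_eq_mul_inv, one_le_div (by positivity)]
  exact pow_le_pow_right₀ (by norm_num) (mem_filter.1 hW).2

theorem card_sparseVecs_le (k σ : ℕ) :
    ((sparseVecs k σ).card : ℝ) ≤ (64 : ℝ) ^ σ * (1 + 1 / 64) ^ k := by
  refine le_trans (Nat.cast_le.2 ?_) ((card_small_le (α := Fin k) σ).trans (le_of_eq (by simp)))
  refine card_le_card_of_injOn (fun w => univ.filter fun i : Fin k => w (some i) ≠ 0) ?_ ?_
  · intro w hw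
    simp only [sparseVecs, coe_filter, mem_univ, true_and, Set.mem_ofPred_eq] at hw ⊢
    exact hw.2
  · intro w hw w' hw' h
    simp only [sparseVecs, coe_filter, mem_univ, true_and, Set.mem_ofPred_eq] at hw hw'
    funext o
    cases o with
    | none => rw [hw.1, hw'.1]
    | some i =>
      have h2 := Finset.ext_iff.1 h i
      simp only [mem_filter, mem_univ, true_and] at h2
      rcases zmod2_cases (w (some i)) with a | a <;> rcases zmod2_cases (w' (some i)) with b | b <;>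
        simp [a, b] at h2 ⊢

theorem sixtyfour_le (σ k : ℕ) :
    (64 : ℝ) ^ σ * (1 + 1 / 64) ^ k ≤ (2 : ℝ) ^ (6 * (σ : ℝ) + (1 / 32) * k) := by
  rw [Real.rpow_add (by norm_num)]
  refine mul_le_mul (le_of_eq ?_) ?_ (by positivity) (by positivity)
  · rw [Real.rpow_mul (by norm_num), Real.rpow_natCast]
    norm_num
  · exact (one_add_pow_le (by norm_num) k).trans (le_of_eq (by norm_num))

theorem eventually_linear (a b : ℝ) (ha : 0 < a) : ∀ᶠ n : ℕ in Filter.atTop, b ≤ a * n :=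
  (tendsto_natCast_atTop_atTop.const_mul_atTop ha).eventually_ge_atTop b

/-- The three atom facts for a good vector with many odd coordinates. -/
theorem atom_facts {k : ℕ} (i E₀ c₁ u : ℕ) (δ r : ℝ) (hr : 0 ≤ r) (hr1 : r ≤ 1)
    (hlam : ∀ w : ℂ, w ^ (2 ^ E₀) = 1 → w ≠ 1 → fb w ≤ r)
    (v : Fin k → ℤ) (hu : u ≤ oddCount v) (hg : Good i E₀ c₁ δ v) :
    ((2 ^ i : ℕ) : ℝ) * atomS (1 / 16) (2 ^ i) v univ - 1 ≤ 2 ^ E₀ * r ^ u + δ ∧
    ∀ S : Finset (Fin k), ((univ : Finset (Fin k)) \ S).card ≤ c₁ →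
      ((2 ^ i : ℕ) : ℝ) * atomS (1 / 16) (2 ^ i) v S ≤ 1 + 2 ^ E₀ + δ := by
  classical
  constructor
  · have h := card_mul_atomS_le i E₀ v univ r hr hr1 hlam
    have hS := hg univ (by simp)
    have hp : r ^ oddCount v ≤ r ^ u := pow_le_pow_of_le_one hr hr1 hu
    unfold oddCount at hp
    have h2 : (0 : ℝ) ≤ 2 ^ E₀ := by positivity
    nlinarith
  · intro S hSc
    have h := card_mul_atomS_le i E₀ v S r hr hr1 hlam
    have hS := hg S hSc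
    have hp : r ^ (S.filter fun j => (v j : ZMod 2) ≠ 0).card ≤ 1 := pow_le_one₀ hr hr1
    have h2 : (0 : ℝ) ≤ 2 ^ E₀ := by positivity
    nlinarith

/-- One term of the union bound. -/
theorem small_term (i k m r e : ℕ) (S X η A N : ℝ) (hS0 : 0 ≤ S) (hS : S ≤ (2 : ℝ) ^ A)
    (hX0 : 0 ≤ X) (hX : X ≤ (3 / 4) ^ r * (1 / 2) ^ e * (1 + η)) (hη : 0 ≤ η) (hN : 0 ≤ N)
    (hr : (i : ℝ) + A - 83 / 200 * m ≤ -N) (he : (i : ℝ) + ((k : ℝ) + 1) - m ≤ -N)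
    (hre : 1 ≤ r + e) (hηm : 2 * η * m ≤ N) :
    ((2 : ℝ) ^ i) ^ (r + e) * (S ^ r * ((2 : ℝ) ^ (k + 1)) ^ e * X ^ m) ≤ 1 := by
  have h2 : (0 : ℝ) < 2 := by norm_num
  have hX' : X ≤ (2 : ℝ) ^ (-(83 / 200) * (r : ℝ) + -(e : ℝ) + 2 * η) := by
    rw [Real.rpow_add h2, Real.rpow_add h2]
    refine hX.trans (mul_le_mul (mul_le_mul ?_ ?_ (by positivity) (by positivity))
      ((one_add_le_rpow (by linarith)).resolve_right (not_lt.2 hη)) (by linarith) (by positivity))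
    · exact pow_le_two_rpow (by norm_num) three_quarters_le r
    · rw [Real.rpow_neg h2.le, Real.rpow_natCast, one_div, inv_pow]
  refine (mul_le_mul_of_nonneg_left (mul_le_mul (mul_le_mul_of_nonneg_right
    (pow_le_two_rpow hS0 hS r) (by positivity)) (pow_le_two_rpow hX0 hX' m) (by positivity) (by positivity))
    (by positivity)).trans ?_
  simp only [← Real.rpow_natCast, ← Real.rpow_mul h2.le, ← Real.rpow_add h2]
  refine Real.rpow_le_one_of_one_le_of_nonpos (by norm_num) ?_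
  push_cast
  have hre' : (1 : ℝ) ≤ (r : ℝ) + e := by exact_mod_cast hre
  have a1 := mul_le_mul_of_nonneg_left hr (Nat.cast_nonneg r)
  have a2 := mul_le_mul_of_nonneg_left he (Nat.cast_nonneg e)
  have a3 := mul_le_mul_of_nonneg_right hre' hN
  nlinarith

/-- The exposure exponent. -/
theorem expo_le (n i k m b c : ℝ) (hn : 200000 ≤ n) (hi0 : 0 ≤ i) (hi : i ≤ 3 * n / 85) (hk0 : 0 ≤ k)
    (hk : k ≤ 5 * n / 11) (hm : m = n - k) (hb : 4 * n / 55 - 1 ≤ b)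
    (hc0 : 0 ≤ c) (hck : c ≤ k) :
    i * c - 83 / 200 * min c b * (m + c - k) ≤ -((1 / 4000) * n * c) := by
  rcases le_total c b with hcc | hcc
  · rw [min_eq_left hcc]
    have h1 : i + 1 / 4000 * n - 83 / 200 * (m - k) ≤ 0 := by linarith
    nlinarith [mul_nonpos_of_nonneg_of_nonpos hc0 h1, mul_nonneg hc0 hc0]
  · rw [min_eq_right hcc]
    have hb0 : 0 ≤ b := by linarith
    have hmk : 0 ≤ m - k := by linarith
    have e1 : (i + 1 / 4000 * n) * k ≤ ((3 / 85 + 1 / 4000) * n) * (5 * n / 11) :=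
      mul_le_mul (by linarith) hk hk0 (by positivity)
    have e2 : (4 * n / 55 - 1) * (6 * n / 11) ≤ b * m :=
      mul_le_mul hb (by linarith) (by positivity) hb0
    have h2 : (i + 1 / 4000 * n - 83 / 200 * b) * k - 83 / 200 * b * (m - k) ≤ 0 := by
      nlinarith [mul_le_mul_of_nonneg_left hn (show (0 : ℝ) ≤ n by linarith)]
    rcases le_total (i + 1 / 4000 * n - 83 / 200 * b) 0 with hs | hs
    · nlinarith [mul_nonpos_of_nonneg_of_nonpos hc0 hs, mul_nonneg hb0 hmk]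
    · nlinarith [mul_le_mul_of_nonneg_left hck hs]

/-- One term of the exposure bound. -/
theorem large_term (i m c k cc : ℕ) (K LK : ℝ) (hK0 : 0 ≤ K) (hK : K ≤ (2 : ℝ) ^ LK) (hk : k ≤ m + c)
    (hexp : (i : ℝ) * c + ((m : ℝ) + LK * m) - 83 / 200 * (cc : ℝ) * ((m : ℝ) + c - k) ≤ 0) :
    ((2 : ℝ) ^ i) ^ c * ((2 : ℝ) ^ m * K ^ m * ((3 / 4 : ℝ) ^ cc) ^ (m + c - k)) ≤ 1 := by
  have h2 : (0 : ℝ) < 2 := by norm_num
  have hγ : ((3 / 4 : ℝ) ^ cc) ≤ (2 : ℝ) ^ (-(83 / 200) * (cc : ℝ)) :=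
    pow_le_two_rpow (by norm_num) three_quarters_le cc
  refine (mul_le_mul_of_nonneg_left (mul_le_mul (mul_le_mul_of_nonneg_left (pow_le_two_rpow hK0 hK m)
    (by positivity)) (pow_le_two_rpow (by positivity) hγ (m + c - k)) (by positivity) (by positivity))
    (by positivity)).trans ?_
  have hsub : ((m + c - k : ℕ) : ℝ) = (m : ℝ) + c - k := by
    rw [Nat.cast_sub hk]; push_cast; ring
  rw [hsub]
  simp only [← Real.rpow_natCast, ← Real.rpow_mul h2.le, ← Real.rpow_add h2]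
  refine Real.rpow_le_one_of_one_le_of_nonpos (by norm_num) ?_
  linarith

/-- The main term. -/
theorem main_case {k m : ℕ} (i n u : ℕ) (hi : 2 ∣ 2 ^ i) (v : Fin k → ℤ) (δ : ℝ) (hδ0 : 0 ≤ δ)
    (hd9 : δ ≤ 1 / 10000000) (hatom' : ((2 ^ i : ℕ) : ℝ) * atomS (1 / 16) (2 ^ i) v univ - 1 ≤ 2 * δ)
    (hu : u ≤ oddCount v) (huB : (1 / 2 : ℝ) ^ u ≤ δ) (hmn : (m : ℝ) ≤ n) :
    dSum (2 ^ i) v m 1 * ((2 : ℝ) ^ i) ^ m ≤ (2 : ℝ) ^ ((1 / 40000 : ℝ) * n) := by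
  have hP : (0 : ℝ) < (2 : ℝ) ^ i := by positivity
  have h := dSum_one_le (m := m) (2 ^ i) hi v (2 * δ) hatom'
  rw [show ((2 ^ i : ℕ) : ℝ) = (2 : ℝ) ^ i by push_cast; rfl] at h
  refine (mul_le_mul_of_nonneg_right h (by positivity)).trans ?_
  rw [← mul_pow, div_mul_cancel₀ _ hP.ne']
  have hw : wgt (vbar v) ≤ δ := by
    refine le_trans ?_ huB
    rw [wgt_eq]
    exact pow_le_pow_of_le_one (by norm_num) (by norm_num) hu
  have hw0 := wgt_nonneg (vbar v)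
  rw [show (1 : ℝ) + wgt (vbar v) + 2 * (2 * δ) = 1 + (wgt (vbar v) + 2 * (2 * δ)) by ring]
  refine (one_add_pow_le (by positivity) m).trans ?_
  refine Real.rpow_le_rpow_of_exponent_le (by norm_num) ?_
  exact mul_le_mul (by linarith) hmn (Nat.cast_nonneg _) (by norm_num)

/-- The union-bound case. -/
theorem small_case {k m : ℕ} (i n σ c d₀ : ℕ) (hi : 2 ∣ 2 ^ i) (v : Fin k → ℤ) (δ δ' : ℝ)
    (hδ' : δ' = 2 * δ) (hδ0 : 0 ≤ δ) (hd : δ * 2 ^ d₀ ≤ 1 / 10000000)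
    (hatom' : ((2 ^ i : ℕ) : ℝ) * atomS (1 / 16) (2 ^ i) v univ - 1 ≤ δ')
    (hc0 : 0 < c) (hsmall : c + 1 < d₀) (hdense : (c + 1) * σ < oddCount v)
    (hnB : (1 / 2 : ℝ) ^ σ ≤ δ) (hσ0 : (σ : ℝ) * 4000 ≤ n) (hnbig : (200000 : ℝ) ≤ n)
    (hiR : (i : ℝ) ≤ 3 * n / 85) (hk1 : (k : ℝ) ≤ 5 * n / 11) (hm : (m : ℝ) = n - k) :
    ((2 : ℝ) ^ i) ^ c * (dSum (2 ^ i) v m (c + 1) * ((2 : ℝ) ^ i) ^ m) ≤ (d₀ : ℝ) := by
  have h := dSum_small_le (m := m) (2 ^ i) hi v δ' hatom' σ (c + 1) (by omega) hdense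
  simp only [Nat.add_sub_cancel] at h
  rw [show ((2 ^ i : ℕ) : ℝ) = (2 : ℝ) ^ i by push_cast; rfl] at h
  refine (mul_le_mul_of_nonneg_left (mul_le_mul_of_nonneg_right h (by positivity)) (by positivity)).trans ?_
  rw [sum_mul, mul_sum]
  have hone : ∀ r' ∈ range (c + 1), ((2 : ℝ) ^ i) ^ c *
      (((sparseVecs k σ).card : ℝ) ^ r' * ((2 : ℝ) ^ (k + 1)) ^ (c - r') *
        ((((3 / 2 : ℝ) ^ r' + 2 ^ (c + 1) * (1 / 2) ^ σ) / 2 ^ c + 2 * δ') / (2 : ℝ) ^ i) ^ m *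
        ((2 : ℝ) ^ i) ^ m) ≤ 1 := by
    intro r' hr'
    rw [mem_range] at hr'
    obtain ⟨e, he⟩ : ∃ e, c = r' + e := ⟨c - r', by omega⟩
    rw [show c - r' = e by omega]
    set η : ℝ := 2 ^ (c + 1) * (1 / 2) ^ σ + 2 ^ c * (2 * δ')
    have hη0 : 0 ≤ η := add_nonneg (by positivity) (mul_nonneg (by positivity) (by rw [hδ']; linarith))
    have hcd : (2 : ℝ) ^ (c + 1) ≤ 2 ^ d₀ := pow_le_pow_right₀ (by norm_num) hsmall.le
    have hη : η ≤ 1 / 1000 := by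
      have h1 : (2 : ℝ) ^ (c + 1) * (1 / 2) ^ σ ≤ 2 ^ d₀ * δ :=
        mul_le_mul hcd hnB (by positivity) (by positivity)
      have h2 : (2 : ℝ) ^ c * (2 * δ') ≤ 2 ^ d₀ * (4 * δ) := by
        rw [hδ', show 2 * (2 * δ) = 4 * δ by ring]
        exact mul_le_mul_of_nonneg_right (le_trans (by rw [pow_succ]; linarith [pow_pos (two_pos (α := ℝ)) c]) hcd) (by positivity)
      simp only [η]; linarith
    have hX : ((3 / 2 : ℝ) ^ r' + 2 ^ (c + 1) * (1 / 2) ^ σ) / 2 ^ c + 2 * δ'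
        ≤ (3 / 4) ^ r' * (1 / 2) ^ e * (1 + η) := by
      have e1 : ((3 / 2 : ℝ) ^ r') / 2 ^ c = (3 / 4) ^ r' * (1 / 2) ^ e := by
        rw [he, pow_add, show (3 / 4 : ℝ) = 3 / 2 * (1 / 2) by norm_num, mul_pow]
        simp only [one_div, inv_pow]; field_simp
      have e2 : 1 ≤ (3 / 2 : ℝ) ^ r' := one_le_pow₀ (by norm_num)
      have e3 : (0 : ℝ) < 2 ^ c := by positivity
      rw [← e1, div_mul_eq_mul_div, div_add' _ _ _ e3.ne']
      refine div_le_div_of_nonneg_right ?_ e3.le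
      have : η ≤ (3 / 2 : ℝ) ^ r' * η := le_mul_of_one_le_left hη0 e2
      simp only [η] at this ⊢
      linarith
    have hX0 : 0 ≤ ((3 / 2 : ℝ) ^ r' + 2 ^ (c + 1) * (1 / 2) ^ σ) / 2 ^ c + 2 * δ' :=
      add_nonneg (by positivity) (by rw [hδ']; linarith)
    rw [div_pow, mul_assoc (_ * _) (_ / _), div_mul_cancel₀ _ (by positivity), he]
    have hmn : (m : ℝ) ≤ n := by linarith [(Nat.cast_nonneg k : (0 : ℝ) ≤ k)]
    refine small_term i k m r' e _ _ η (6 * (σ : ℝ) + (1 / 32) * k) ((1 / 20) * n) (Nat.cast_nonneg _)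
      ((card_sparseVecs_le k σ).trans (sixtyfour_le σ k)) (he ▸ hX0) (he ▸ hX) hη0 (by positivity)
      (by rw [hm]; linarith) (by rw [hm]; linarith) (by omega) ?_
    have h3 : η * (m : ℝ) ≤ 1 / 1000 * n := mul_le_mul hη hmn (Nat.cast_nonneg _) (by norm_num)
    linarith
  refine (sum_le_card_nsmul _ _ 1 hone).trans ?_
  rw [card_range, nsmul_one]
  exact_mod_cast hsmall.le

/-- The exposure case. -/
theorem large_case {k m : ℕ} (i n b c : ℕ) (v : Fin k → ℤ) (K LK : ℝ) (hK0 : 0 ≤ K) (hLK0 : 0 ≤ LK)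
    (hLK : K ≤ (2 : ℝ) ^ LK)
    (hK2' : ∀ S : Finset (Fin k), ((univ : Finset (Fin k)) \ S).card ≤ b →
      ((2 ^ i : ℕ) : ℝ) * atomS (1 / 16) (2 ^ i) v S ≤ K / 2)
    (hcbig : 4000 * (LK + 2) ≤ (c : ℝ)) (hck : c ≤ k) (hnbig : (200000 : ℝ) ≤ n)
    (hiR : (i : ℝ) ≤ 3 * n / 85) (hk1 : (k : ℝ) ≤ 5 * n / 11) (hm : (m : ℝ) = n - k)
    (hb : 4 * (n : ℝ) / 55 - 1 ≤ b) :
    ((2 : ℝ) ^ i) ^ c * (dSum (2 ^ i) v m (c + 1) * ((2 : ℝ) ^ i) ^ m) ≤ 1 := by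
  have hmk : k ≤ m := by
    have : (k : ℝ) ≤ m := by rw [hm]; linarith
    exact_mod_cast this
  have h := dSum_large_le (m := m) (2 ^ i) v b (c + 1) K hK2' (by omega)
  simp only [Nat.add_sub_cancel] at h
  rw [show ((2 ^ i : ℕ) : ℝ) = (2 : ℝ) ^ i by push_cast; rfl, show m + (c + 1) - (k + 1) = m + c - k by omega] at h
  refine (mul_le_mul_of_nonneg_left (mul_le_mul_of_nonneg_right h (by positivity)) (by positivity)).trans ?_
  have hck' : (c : ℝ) ≤ k := by exact_mod_cast hck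
  have hmn : (m : ℝ) ≤ n := by linarith [(Nat.cast_nonneg k : (0 : ℝ) ≤ k)]
  have hexp : (i : ℝ) * c + ((m : ℝ) + LK * m) - 83 / 200 * ((min c b : ℕ) : ℝ) * ((m : ℝ) + c - k) ≤ 0 := by
    have h1 := expo_le n i k m b c hnbig (Nat.cast_nonneg i) hiR (Nat.cast_nonneg k) hk1 hm hb
      (Nat.cast_nonneg c) hck'
    rw [Nat.cast_min]
    have h2 : (1 + LK) * (m : ℝ) ≤ (1 + LK) * n := mul_le_mul_of_nonneg_left hmn (by linarith)
    have h3 := mul_le_mul_of_nonneg_left hcbig (Nat.cast_nonneg n : (0 : ℝ) ≤ n)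
    linarith
  refine le_trans (le_of_eq ?_) (large_term i m c k (min c b) K LK hK0 hLK (by omega) hexp)
  rw [div_pow]; field_simp

theorem kSum_key (E₀ : ℕ) :
    ∃ δ : ℝ, 0 < δ ∧ δ ≤ 1 ∧ ∀ᶠ n : ℕ in Filter.atTop, ∀ i, 1 ≤ i → i ≤ bj n →
      ∀ v : Fin (bk n) → ℤ, bu n ≤ oddCount v → Good i E₀ (bc n) δ v →
        kSum (2 ^ i) v (bm n)
          ≤ (2 : ℝ) ^ ((1 / 20000 : ℝ) * n) * (2 : ℝ) ^ i / ((2 : ℝ) ^ i) ^ bm n := by
  obtain ⟨r, hr0, hr1, hlam⟩ := exists_lam E₀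
  set K : ℝ := 2 * (1 + 2 ^ E₀ + 1) with hK
  obtain ⟨LK, hLK0, hLK⟩ : ∃ LK : ℝ, 0 ≤ LK ∧ K ≤ (2 : ℝ) ^ LK := by
    refine ⟨(E₀ : ℝ) + 3, by positivity, ?_⟩
    rw [Real.rpow_add (by norm_num), Real.rpow_natCast, hK]
    have : (1 : ℝ) ≤ 2 ^ E₀ := one_le_pow₀ (by norm_num)
    norm_num
    linarith
  obtain ⟨d₀, hd₀1, hd₀⟩ : ∃ d₀ : ℕ, 2 ≤ d₀ ∧ 4000 * (LK + 2) + 1 ≤ (d₀ : ℝ) := by
    obtain ⟨N, hN⟩ := exists_nat_ge (4000 * (LK + 2) + 1)
    exact ⟨max N 2, le_max_right _ _, hN.trans (by exact_mod_cast le_max_left _ _)⟩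
  set δ : ℝ := 1 / (10000000 * 2 ^ d₀) with hδ
  have hδ0 : 0 < δ := by positivity
  have hpd : (1 : ℝ) ≤ 2 ^ d₀ := one_le_pow₀ (by norm_num)
  have hδ1 : δ ≤ 1 := by
    rw [hδ, div_le_one (by positivity)]; linarith
  refine ⟨δ, hδ0, hδ1, ?_⟩
  set a : ℝ := 1 / (4000 * (d₀ + 1)) with ha
  have ha0 : 0 < a := by positivity
  have hA : ∀ᶠ n : ℕ in Filter.atTop, (2 : ℝ) ^ E₀ * r ^ bu n ≤ δ := by
    have ht : Filter.Tendsto bu Filter.atTop Filter.atTop := Nat.tendsto_div_const_atTop (by norm_num)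
    have := ((tendsto_pow_atTop_nhds_zero_of_lt_one hr0 hr1).comp ht).const_mul ((2 : ℝ) ^ E₀)
    rw [mul_zero] at this
    exact (this.eventually_le_const hδ0)
  have hB : ∀ᶠ n : ℕ in Filter.atTop, (1 / 2 : ℝ) ^ (n / (4000 * (d₀ + 1))) ≤ δ := by
    have ht : Filter.Tendsto (fun n : ℕ => n / (4000 * (d₀ + 1))) Filter.atTop Filter.atTop :=
      Nat.tendsto_div_const_atTop (by positivity)
    exact ((tendsto_pow_atTop_nhds_zero_of_lt_one (by norm_num) (by norm_num)).comp ht).eventually_le_const hδ0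
  have hpoly : ∀ᶠ n : ℕ in Filter.atTop, ((n : ℝ) + 2) * ((d₀ : ℝ) + 2) * 3 ≤ (2 : ℝ) ^ ((1 / 40000 : ℝ) * n) := by
    have hb : (1 : ℝ) < (2 : ℝ) ^ (1 / 40000 : ℝ) := Real.one_lt_rpow (by norm_num) (by norm_num)
    have h := (tendsto_pow_const_div_const_pow_of_one_lt 1 hb).eventually_le_const
      (show (0 : ℝ) < 1 / (((d₀ : ℝ) + 2) * 9) by positivity)
    filter_upwards [h, Filter.eventually_ge_atTop 1] with n hn hn1
    rw [pow_one] at hn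
    rw [Real.rpow_mul (by norm_num), Real.rpow_natCast]
    have hp : (0 : ℝ) < ((2 : ℝ) ^ (1 / 40000 : ℝ)) ^ n := by positivity
    rw [div_le_div_iff₀ hp (by positivity)] at hn
    have : (1 : ℝ) ≤ n := by exact_mod_cast hn1
    nlinarith
  filter_upwards [hA, hB, hpoly, Filter.eventually_ge_atTop (100000 * (d₀ + 2))] with n hnA hnB hnP hnN
  obtain ⟨⟨hk1, hk2⟩, hm, ⟨hc1, hc2⟩, ⟨hj1, hj2⟩, ⟨hu1, hu2⟩⟩ := param_bounds n
  set k := bk n with hk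
  set m := bm n with hm'
  intro i hi1 hij v hu hg
  have hnR : (100000 : ℝ) * ((d₀ : ℝ) + 2) ≤ n := by
    have h := (Nat.cast_le (α := ℝ)).2 hnN; push_cast at h; linarith
  have hnbig : (200000 : ℝ) ≤ n := by nlinarith [(Nat.cast_nonneg d₀ : (0 : ℝ) ≤ d₀)]
  have hiR : (i : ℝ) ≤ 3 * n / 85 := le_trans (by exact_mod_cast hij) hj1
  obtain ⟨hatom, hK2⟩ := atom_facts i E₀ (bc n) (bu n) δ r hr0 hr1.le hlam v hu hg
  have hK2' : ∀ S : Finset (Fin k), ((univ : Finset (Fin k)) \ S).card ≤ bc n →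
      ((2 ^ i : ℕ) : ℝ) * atomS (1 / 16) (2 ^ i) v S ≤ K / 2 := fun S hS => by
    have := hK2 S hS
    rw [hK]; linarith
  set δ' : ℝ := 2 * δ with hδ'
  have hatom' : ((2 ^ i : ℕ) : ℝ) * atomS (1 / 16) (2 ^ i) v univ - 1 ≤ δ' := by rw [hδ']; linarith
  have hu0 : 0 < oddCount v := by
    have : (0 : ℝ) < bu n := by linarith
    have : 0 < bu n := by exact_mod_cast this
    omega
  obtain ⟨i₀, hi₀⟩ := card_pos.1 hu0
  have hi₀' := (mem_filter.1 hi₀).2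
  have h2 : 2 ∣ 2 ^ i := dvd_pow_self 2 (by omega)
  set σ := n / (4000 * (d₀ + 1)) with hσ
  have hσR : (σ : ℝ) * (4000 * ((d₀ : ℝ) + 1)) ≤ n := by
    have h : σ * (4000 * (d₀ + 1)) ≤ n := Nat.div_mul_le_self _ _
    have h2 := (Nat.cast_le (α := ℝ)).2 h; push_cast at h2; exact h2
  have hP : (0 : ℝ) < (2 : ℝ) ^ i := by positivity
  have hcast : ((2 ^ i : ℕ) : ℝ) = (2 : ℝ) ^ i := by push_cast; rfl
  have hσ4 : σ * (4000 * (d₀ + 1)) ≤ n := Nat.div_mul_le_self _ _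
  have hσ0 : (σ : ℝ) * 4000 ≤ n := by
    have h : σ * 4000 ≤ n :=
      le_trans (Nat.mul_le_mul_left σ (Nat.le_mul_of_pos_right 4000 (Nat.succ_pos d₀))) hσ4
    exact_mod_cast h
  have hdense' : ∀ c, c + 1 < d₀ → (c + 1) * σ < oddCount v := by
    intro c hc
    have h : 4000 * ((c + 1) * σ) ≤ n := by
      refine le_trans ?_ hσ4
      rw [show σ * (4000 * (d₀ + 1)) = 4000 * ((d₀ + 1) * σ) by ring]
      exact Nat.mul_le_mul_left _ (Nat.mul_le_mul_right σ (by omega))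
    have hb : bu n = n / 1000 := rfl
    omega
  have hd10 : δ * 2 ^ d₀ ≤ 1 / 10000000 := by
    refine le_of_eq ?_
    rw [hδ]; field_simp
  have hK0 : (0 : ℝ) ≤ K := by rw [hK]; positivity
  have hcb : ∀ c, d₀ ≤ c + 1 → 4000 * (LK + 2) ≤ (c : ℝ) := by
    intro c hc
    have h := (Nat.cast_le (α := ℝ)).2 hc
    push_cast at h
    linarith
  refine (kSum_le i hi1 v i₀ hi₀' m).trans ?_
  have hterm : ∀ d ∈ Icc 1 (k + 1), ((2 : ℝ) ^ i) ^ d * dSum (2 ^ i) v m d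
      ≤ ((d₀ : ℝ) + 2) * (2 : ℝ) ^ ((1 / 40000 : ℝ) * n) * ((2 : ℝ) ^ i / ((2 : ℝ) ^ i) ^ m) := by
    intro d hd
    rw [mem_Icc] at hd
    obtain ⟨c, rfl⟩ : ∃ c, d = c + 1 := ⟨d - 1, by omega⟩
    have hd0one : (1 : ℝ) ≤ (d₀ : ℝ) + 2 := by linarith [(Nat.cast_nonneg d₀ : (0 : ℝ) ≤ d₀)]
    have hex : (2 : ℝ) ^ (0 : ℝ) ≤ (2 : ℝ) ^ ((1 / 40000 : ℝ) * n) :=
      Real.rpow_le_rpow_of_exponent_le (by norm_num) (by positivity)
    rw [Real.rpow_zero] at hex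
    suffices hkey : ((2 : ℝ) ^ i) ^ c * (dSum (2 ^ i) v m (c + 1) * ((2 : ℝ) ^ i) ^ m)
        ≤ ((d₀ : ℝ) + 2) * (2 : ℝ) ^ ((1 / 40000 : ℝ) * n) by
      calc ((2 : ℝ) ^ i) ^ (c + 1) * dSum (2 ^ i) v m (c + 1)
          = ((2 : ℝ) ^ i) ^ c * (dSum (2 ^ i) v m (c + 1) * ((2 : ℝ) ^ i) ^ m)
              * ((2 : ℝ) ^ i / ((2 : ℝ) ^ i) ^ m) := by
            rw [pow_succ]; field_simp
        _ ≤ _ := mul_le_mul_of_nonneg_right hkey (by positivity)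
    rcases Nat.eq_zero_or_pos c with rfl | hc0
    · rw [pow_zero, one_mul]
      have hd9 : δ ≤ 1 / 10000000 := by
        rw [hδ]; exact one_div_le_one_div_of_le (by norm_num) (by linarith)
      refine (main_case i n σ h2 v δ hδ0.le hd9 hatom' ?_ hnB ?_).trans
        (le_mul_of_one_le_left (by positivity) hd0one)
      · refine le_trans ?_ hu
        unfold bu
        exact Nat.div_le_div_left (by omega) (by norm_num)
      · linarith [(Nat.cast_nonneg k : (0 : ℝ) ≤ k)]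
    · by_cases hsmall : c + 1 < d₀
      · have hdense : (c + 1) * σ < oddCount v := hdense' c hsmall
        refine (small_case i n σ c d₀ h2 v δ δ' hδ' hδ0.le hd10 hatom' hc0 hsmall hdense hnB hσ0 hnbig hiR
          hk1 hm).trans ?_
        exact (le_add_of_nonneg_right (show (0 : ℝ) ≤ 2 by norm_num)).trans
          (le_mul_of_one_le_right (le_trans zero_le_one hd0one) hex)
      · refine (large_case i n (bc n) c v K LK hK0 hLK0 hLK hK2' (hcb c (Nat.not_lt.1 hsmall)) (by omega) hnbig hiR hk1 hm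
          hc2).trans (hex.trans (le_mul_of_one_le_left (by positivity) hd0one))
  refine (sum_le_card_nsmul _ _ _ hterm).trans ?_
  rw [Nat.card_Icc, nsmul_eq_mul, mul_div_assoc]
  rw [show ∀ a b c : ℝ, a * (b * c * ((2 : ℝ) ^ i / ((2 : ℝ) ^ i) ^ m)) = (a * b * c) * ((2 : ℝ) ^ i / ((2 : ℝ) ^ i) ^ m)
    from fun a b c => by ring]
  refine mul_le_mul_of_nonneg_right ?_ (by positivity)
  rw [show (1 / 20000 : ℝ) * n = 1 / 40000 * n + 1 / 40000 * n by ring, Real.rpow_add (by norm_num)]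
  refine mul_le_mul_of_nonneg_right ?_ (by positivity)
  refine le_trans ?_ hnP
  have h1 : ((k + 1 + 1 - 1 : ℕ) : ℝ) ≤ ((n : ℝ) + 2) * 3 := by
    have : k + 1 + 1 - 1 = k + 1 := by omega
    rw [this]; push_cast; linarith
  calc ((k + 1 + 1 - 1 : ℕ) : ℝ) * ((d₀ : ℝ) + 2) ≤ ((n : ℝ) + 2) * 3 * ((d₀ : ℝ) + 2) := by gcongr
    _ = _ := by ring

end

end Vale.Agent.P160.Rate
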