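import Mathlib

/-!
Lazy signed sums in finite abelian groups: the character identity and comparison.
-/

namespace Vale.Agent.P160.Rate

open Finset

set_option linter.unusedSectionVars false

noncomputable section

/-- The weight of a lazy sign of laziness `t`: zero with probability `1 - t`, each sign with `t/2`. -/
def wt (t : ℝ) (x : SignType) : ℝ := if x = 0 then 1 - t else t / 2

/-- The characteristic function of a lazy sign at a point of the circle. -/
def phi (t : ℝ) (u : ℂ) : ℝ := 1 - t + t * u.re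

theorem wt_nonneg {t : ℝ} (h0 : 0 ≤ t) (h1 : t ≤ 1) (x : SignType) : 0 ≤ wt t x := by
  unfold wt; split <;> linarith

theorem sum_signType {M : Type*} [AddCommMonoid M] (f : SignType → M) :
    ∑ x, f x = f 0 + (f 1 + f (-1)) := by
  have h : (univ : Finset SignType) = {0, 1, -1} := by decide
  rw [h, sum_insert (by decide), sum_insert (by decide), sum_singleton]

theorem sum_wt (t : ℝ) : ∑ x, wt t x = 1 := by
  simp [sum_signType, wt]

/-- The integer value of a sign. -/
def ival (x : SignType) : ℤ := (x : ℤ)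

variable {ι : Type*} [Fintype ι] [DecidableEq ι] {G : Type*} [AddCommGroup G] [Fintype G] [DecidableEq G]

/-- The weight of a family of independent lazy signs. -/
def fw (t : ι → ℝ) (x : ι → SignType) : ℝ := ∏ i, wt (t i) (x i)

/-- The signed sum. -/
def tot (g : ι → G) (x : ι → SignType) : G := ∑ i, ival (x i) • g i

/-- The probability that the lazy signed sum equals `h`. -/
def pr (t : ι → ℝ) (g : ι → G) (h : G) : ℝ :=
  ∑ x : ι → SignType, if tot g x = h then fw t x else 0

theorem fw_nonneg {t : ι → ℝ} (h0 : ∀ i, 0 ≤ t i) (h1 : ∀ i, t i ≤ 1) (x : ι → SignType) :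
    0 ≤ fw t x :=
  prod_nonneg fun i _ => wt_nonneg (h0 i) (h1 i) _

theorem sum_fw (t : ι → ℝ) : ∑ x, fw t x = 1 := by
  unfold fw
  rw [← Fintype.prod_sum (fun i a => wt (t i) a)]
  simp [sum_wt]

theorem conj_char (χ : AddChar G ℂ) (a : G) : χ (-a) = (starRingEnd ℂ) (χ a) :=
  AddChar.map_neg_eq_conj χ a

theorem sum_wt_char (χ : AddChar G ℂ) (t : ℝ) (a : G) :
    ∑ x, (wt t x : ℂ) * χ (ival x • a) = (phi t (χ a) : ℂ) := by
  have hc := Complex.add_conj (χ a)
  have h1 : ((1 : SignType) = 0) = False := by decide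
  have h2 : ((-1 : SignType) = 0) = False := by decide
  simp only [sum_signType, wt, ival, phi, h1, h2, if_false, if_true, SignType.coe_zero,
    SignType.coe_one, SignType.coe_neg_one, zero_smul, one_smul, neg_smul,
    AddChar.map_zero_eq_one, conj_char]
  push_cast at hc ⊢
  linear_combination (t / 2 : ℂ) * hc

theorem char_sum {α : Type*} (χ : AddChar G ℂ) (s : Finset α) (f : α → G) :
    χ (∑ i ∈ s, f i) = ∏ i ∈ s, χ (f i) := by
  classical
  induction s using Finset.induction with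
  | empty => simp
  | insert a s ha ih => rw [sum_insert ha, prod_insert ha, χ.map_add_eq_mul, ih]

/-- The character identity. -/
theorem card_mul_pr (t : ι → ℝ) (g : ι → G) (h : G) :
    (Fintype.card G : ℂ) * (pr t g h : ℂ)
      = ∑ χ : AddChar G ℂ, χ (-h) * ∏ i, (phi (t i) (χ (g i)) : ℂ) := by
  have hexp : ∀ χ : AddChar G ℂ, χ (-h) * ∏ i, (phi (t i) (χ (g i)) : ℂ)
      = ∑ x : ι → SignType, (fw t x : ℂ) * χ (tot g x - h) := by
    intro χ
    simp_rw [← sum_wt_char, Fintype.prod_sum, mul_sum]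
    refine sum_congr rfl fun x _ => ?_
    rw [prod_mul_distrib, sub_eq_add_neg, χ.map_add_eq_mul]
    unfold fw tot
    rw [char_sum, Complex.ofReal_prod]
    ring
  simp_rw [hexp]
  rw [sum_comm, pr, Complex.ofReal_sum, mul_sum]
  refine sum_congr rfl fun x _ => ?_
  rw [← mul_sum, AddChar.sum_apply_eq_ite]
  by_cases hx : tot g x = h
  · simp [hx, mul_comm]
  · simp [hx, sub_eq_zero]

theorem norm_char (χ : AddChar G ℂ) (a : G) : ‖χ a‖ = 1 := AddChar.norm_apply χ a

theorem re_le_one (χ : AddChar G ℂ) (a : G) : (χ a).re ≤ 1 :=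
  (Complex.re_le_norm _).trans (norm_char χ a).le

theorem neg_one_le_re (χ : AddChar G ℂ) (a : G) : -1 ≤ (χ a).re := by
  have := (Complex.abs_re_le_norm (χ a)).trans (norm_char χ a).le
  linarith [(abs_le.1 this).1]

theorem phi_nonneg {t : ℝ} (h0 : 0 ≤ t) (h1 : t ≤ 1 / 2) {u : ℂ} (hu : -1 ≤ u.re) :
    0 ≤ phi t u := by
  unfold phi; nlinarith

theorem phi_le_one {t : ℝ} (h0 : 0 ≤ t) {u : ℂ} (hu : u.re ≤ 1) : phi t u ≤ 1 := by
  unfold phi; nlinarith

theorem phi_mono {t t' : ℝ} (h : t ≤ t') {u : ℂ} (hu : u.re ≤ 1) : phi t' u ≤ phi t u := by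
  unfold phi; nlinarith

theorem phi_double {t : ℝ} (ht : 0 ≤ t) {u : ℂ} (hu : ‖u‖ = 1) :
    phi t u ≤ phi (t / 4) (u * u) := by
  have h2 : u.re * u.re + u.im * u.im = 1 := by
    have := Complex.normSq_eq_norm_sq u
    rw [hu] at this
    simpa [Complex.normSq_apply] using this
  unfold phi
  rw [Complex.mul_re]
  have : 0 ≤ t * (1 - u.re) ^ 2 := by positivity
  nlinarith

theorem card_mul_pr_le (t : ι → ℝ) (g : ι → G) (h : G) (h0 : ∀ i, 0 ≤ t i) (h1 : ∀ i, t i ≤ 1 / 2) :
    (Fintype.card G : ℝ) * pr t g h ≤ ∑ χ : AddChar G ℂ, ∏ i, phi (t i) (χ (g i)) := by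
  have hid := card_mul_pr t g h
  have hn : ‖(Fintype.card G : ℂ) * (pr t g h : ℂ)‖ = (Fintype.card G : ℝ) * |pr t g h| := by
    simp
  calc (Fintype.card G : ℝ) * pr t g h ≤ (Fintype.card G : ℝ) * |pr t g h| := by
        gcongr; exact le_abs_self _
    _ = ‖∑ χ : AddChar G ℂ, χ (-h) * ∏ i, (phi (t i) (χ (g i)) : ℂ)‖ := by rw [← hn, hid]
    _ ≤ ∑ χ : AddChar G ℂ, ‖χ (-h) * ∏ i, (phi (t i) (χ (g i)) : ℂ)‖ := norm_sum_le _ _
    _ = ∑ χ : AddChar G ℂ, ∏ i, phi (t i) (χ (g i)) := by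
        refine sum_congr rfl fun χ _ => ?_
        rw [norm_mul, norm_char, one_mul, ← Complex.ofReal_prod, Complex.norm_real,
          Real.norm_of_nonneg]
        exact prod_nonneg fun i _ => phi_nonneg (h0 i) (h1 i) (neg_one_le_re χ _)

theorem card_mul_pr_zero (t : ι → ℝ) (g : ι → G) :
    (Fintype.card G : ℝ) * pr t g 0 = ∑ χ : AddChar G ℂ, ∏ i, phi (t i) (χ (g i)) := by
  have h := card_mul_pr t g 0
  simp only [neg_zero, AddChar.map_zero_eq_one, one_mul] at h
  exact_mod_cast h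

/-- Comparison: a factorwise larger characteristic function gives a larger atom at zero. -/
theorem pr_le_of_phi_le {t t' : ι → ℝ} {g g' : ι → G} (h : G) (h0 : ∀ i, 0 ≤ t i)
    (h1 : ∀ i, t i ≤ 1 / 2)
    (hle : ∀ (χ : AddChar G ℂ) i, phi (t i) (χ (g i)) ≤ phi (t' i) (χ (g' i))) :
    pr t g h ≤ pr t' g' 0 := by
  have hc : (0 : ℝ) < Fintype.card G := by exact_mod_cast Fintype.card_pos
  refine le_of_mul_le_mul_left ?_ hc
  rw [card_mul_pr_zero]
  refine (card_mul_pr_le t g h h0 h1).trans (sum_le_sum fun χ _ => ?_)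
  exact prod_le_prod (fun i _ => phi_nonneg (h0 i) (h1 i) (neg_one_le_re χ _)) fun i _ => hle χ i

theorem pr_le_zero {t : ι → ℝ} {g : ι → G} (h : G) (h0 : ∀ i, 0 ≤ t i) (h1 : ∀ i, t i ≤ 1 / 2) :
    pr t g h ≤ pr t g 0 :=
  pr_le_of_phi_le h h0 h1 fun _ _ => le_rfl

/-- Uniform binary coefficients are dominated by lazy signs of laziness `1/4`. -/
theorem bool_pr_le (g g' : ι → G) (hg : ∀ i, g' i = g i ∨ g' i = 0) (h : G) :
    (∑ b : ι → Bool, if (∑ i, if b i then g i else 0) = h then (1 : ℝ) else 0) / 2 ^ Fintype.card ι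
      ≤ pr (fun _ => 1 / 4) g' 0 := by
  have hc : (0 : ℝ) < Fintype.card G := by exact_mod_cast Fintype.card_pos
  set S : ℝ := (∑ b : ι → Bool, if (∑ i, if b i then g i else 0) = h then (1 : ℝ) else 0) with hS
  have hkey : (Fintype.card G : ℂ) * (S : ℂ)
      = ∑ χ : AddChar G ℂ, χ (-h) * ∏ i, (1 + χ (g i)) := by
    have hexp : ∀ χ : AddChar G ℂ, χ (-h) * ∏ i, (1 + χ (g i))
        = ∑ b : ι → Bool, χ ((∑ i, if b i then g i else 0) - h) := by
      intro χ
      have h1 : ∀ i, 1 + χ (g i) = ∑ b : Bool, χ (if b then g i else 0) := by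
        intro i; simp [add_comm]
      simp_rw [h1, Fintype.prod_sum, mul_sum]
      refine sum_congr rfl fun b _ => ?_
      rw [sub_eq_add_neg, χ.map_add_eq_mul, char_sum, mul_comm]
    simp_rw [hexp]
    rw [sum_comm, hS, Complex.ofReal_sum, mul_sum]
    refine sum_congr rfl fun b _ => ?_
    rw [AddChar.sum_apply_eq_ite]
    by_cases hb : (∑ i, if b i then g i else 0) = h
    · simp [hb]
    · simp [hb, sub_eq_zero]
  have hfac : ∀ (χ : AddChar G ℂ) i, ‖1 + χ (g i)‖ ≤ 2 * phi (1 / 4) (χ (g' i)) := by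
    intro χ i
    have hn := Complex.normSq_eq_norm_sq (1 + χ (g i))
    have hu := Complex.normSq_eq_norm_sq (χ (g i))
    rw [norm_char χ, Complex.normSq_apply] at hu
    rw [Complex.normSq_apply] at hn
    simp only [Complex.add_re, Complex.add_im, Complex.one_re, Complex.one_im] at hn
    have hsq : 0 ≤ (1 - (χ (g i)).re) ^ 2 := sq_nonneg _
    have hre := neg_one_le_re χ (g i)
    rcases hg i with h' | h'
    · rw [h', phi]
      nlinarith [norm_nonneg (1 + χ (g i))]
    · rw [h', phi, AddChar.map_zero_eq_one, Complex.one_re]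
      nlinarith [norm_nonneg (1 + χ (g i)), re_le_one χ (g i)]
  refine le_of_mul_le_mul_left ?_ hc
  rw [card_mul_pr_zero, mul_div_assoc', div_le_iff₀ (by positivity), sum_mul]
  have hSn : 0 ≤ S := sum_nonneg fun b _ => by split <;> norm_num
  calc (Fintype.card G : ℝ) * S = ‖(Fintype.card G : ℂ) * (S : ℂ)‖ := by
        rw [norm_mul, Complex.norm_natCast, Complex.norm_real, Real.norm_of_nonneg hSn]
    _ ≤ ∑ χ : AddChar G ℂ, ‖χ (-h) * ∏ i, (1 + χ (g i))‖ := by rw [hkey]; exact norm_sum_le _ _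
    _ ≤ ∑ χ : AddChar G ℂ, (∏ i, phi (1 / 4) (χ (g' i))) * 2 ^ Fintype.card ι := by
        refine sum_le_sum fun χ _ => ?_
        rw [norm_mul, norm_char, one_mul, norm_prod, mul_comm,
          ← Finset.card_univ, ← prod_const, ← prod_mul_distrib]
        exact prod_le_prod (fun i _ => norm_nonneg _) fun i _ => hfac χ i

/-- Averaging over the group: the dual form of the character identity. -/
theorem avg_prod_phi (t : ι → ℝ) (χ : ι → AddChar G ℂ) :
    ∑ x : G, ∏ i, phi (t i) (χ i x) = (Fintype.card G : ℝ) * pr t χ 0 := by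
  have h1 := card_mul_pr_zero (G := AddChar G ℂ) t χ
  rw [AddChar.card_eq] at h1
  rw [h1]
  refine Fintype.sum_bijective AddChar.doubleDualEmb AddChar.doubleDualEmb_bijective _ _ ?_
  intro x; simp

end

end Vale.Agent.P160.Rate
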