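import Vale.Agent.P160.Rate.JointBound

/-!
A high moment bound for the lazy anticoncentration of a random vector modulo `2 ^ i`.
-/

namespace Vale.Agent.P160.Rate

open Finset

set_option linter.unusedSectionVars false

noncomputable section

/-- The factor of laziness `1/16`. -/
def fb (u : ℂ) : ℝ := phi (1 / 16) u

theorem fb_nonneg {G : Type*} [AddCommGroup G] [Fintype G] [DecidableEq G] (χ : AddChar G ℂ) (a : G) :
    0 ≤ fb (χ a) := phi_nonneg (by norm_num) (by norm_num) (neg_one_le_re χ a)

theorem fb_le_one {G : Type*} [AddCommGroup G] [Fintype G] [DecidableEq G] (χ : AddChar G ℂ) (a : G) :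
    fb (χ a) ≤ 1 := phi_le_one (by norm_num) (re_le_one χ a)

theorem exists_lam (E : ℕ) :
    ∃ r : ℝ, 0 ≤ r ∧ r < 1 ∧ ∀ u : ℂ, u ^ (2 ^ E) = 1 → u ≠ 1 → fb u ≤ r := by
  classical
  set T : Finset ℝ := insert 0 (((Polynomial.nthRoots (2 ^ E) (1 : ℂ)).toFinset.filter (· ≠ 1)).image fb)
    with hT
  refine ⟨T.max' (insert_nonempty _ _), le_max' _ _ (mem_insert_self _ _), ?_, ?_⟩
  · refine (max'_lt_iff _ _).2 fun x hx => ?_
    rcases mem_insert.1 hx with rfl | hx
    · norm_num
    · obtain ⟨u, hu, rfl⟩ := mem_image.1 hx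
      rw [mem_filter, Multiset.mem_toFinset, Polynomial.mem_nthRoots (by positivity)] at hu
      have hn : ‖u‖ = 1 := Complex.norm_eq_one_of_pow_eq_one hu.1 (by positivity)
      have hre : u.re < 1 := by
        refine lt_of_le_of_ne ((Complex.re_le_norm u).trans hn.le) fun h => hu.2 ?_
        have h2 := Complex.normSq_eq_norm_sq u
        rw [hn, Complex.normSq_apply, h] at h2
        refine Complex.ext h ?_
        simp only [Complex.one_im]
        nlinarith
      unfold fb phi
      linarith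
  · intro u hu hne
    refine le_max' _ _ (mem_insert_of_mem (mem_image_of_mem fb ?_))
    rw [mem_filter, Multiset.mem_toFinset, Polynomial.mem_nthRoots (by positivity)]
    exact ⟨hu, hne⟩

/-- Characters of order larger than `2 ^ E₀`. -/
def highSet (P E₀ : ℕ) [NeZero P] : Finset (AddChar (ZMod P) ℂ) :=
  univ.filter fun χ => χ ((2 ^ E₀ : ℕ) : ZMod P) ≠ 1

variable {k : ℕ}

/-- The contribution of the characters of large order. -/
def highSum (P E₀ : ℕ) [NeZero P] (v : Fin k → ZMod P) (S : Finset (Fin k)) : ℝ :=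
  ∑ χ ∈ highSet P E₀, ∏ j ∈ S, fb (χ (v j))

theorem card_mul_atomS (P : ℕ) [NeZero P] (v : Fin k → ℤ) (S : Finset (Fin k)) :
    (P : ℝ) * atomS (1 / 16) P v S = ∑ χ : AddChar (ZMod P) ℂ, ∏ j ∈ S, fb (χ (v j : ZMod P)) := by
  have h := card_mul_pr_zero (fun _ : Fin k => (1 / 16 : ℝ))
    (fun i => if i ∈ S then (v i : ZMod P) else 0)
  rw [ZMod.card] at h
  rw [atomS, h]
  refine sum_congr rfl fun χ _ => ?_
  rw [← prod_subset (subset_univ S)]
  · exact prod_congr rfl fun j hj => by simp [fb, hj]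
  · intro j _ hj; simp [hj, phi]

theorem char_apply_eq_pow (P : ℕ) [NeZero P] (χ : AddChar (ZMod P) ℂ) (x : ZMod P) :
    χ x = χ 1 ^ x.val := by
  rw [← AddChar.map_nsmul_eq_pow, nsmul_one, ZMod.natCast_zmod_val]

theorem low_sum_le (i E₀ : ℕ) (v : Fin k → ℤ) (S : Finset (Fin k)) (r : ℝ) (hr : 0 ≤ r)
    (hr1 : r ≤ 1) (hlam : ∀ u : ℂ, u ^ (2 ^ E₀) = 1 → u ≠ 1 → fb u ≤ r) :
    ∑ χ ∈ (univ : Finset (AddChar (ZMod (2 ^ i)) ℂ)) \ highSet (2 ^ i) E₀,
        ∏ j ∈ S, fb (χ (v j : ZMod (2 ^ i)))
      ≤ 1 + 2 ^ E₀ * r ^ (S.filter fun j => (v j : ZMod 2) ≠ 0).card := by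
  classical
  set L := (univ : Finset (AddChar (ZMod (2 ^ i)) ℂ)) \ highSet (2 ^ i) E₀ with hL
  set u := (S.filter fun j => (v j : ZMod 2) ≠ 0).card
  have hmem : ∀ χ ∈ L, χ ((2 ^ E₀ : ℕ) : ZMod (2 ^ i)) = 1 := by
    intro χ hχ
    simpa [hL, highSet] using hχ
  have hterm : ∀ χ ∈ L, χ ≠ 0 → ∏ j ∈ S, fb (χ (v j : ZMod (2 ^ i))) ≤ r ^ u := by
    intro χ hχ hne
    rw [← prod_sdiff (filter_subset (fun j => (v j : ZMod 2) ≠ 0) S)]
    refine (mul_le_of_le_one_left (prod_nonneg fun j _ => fb_nonneg χ _)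
      (prod_le_one (fun j _ => fb_nonneg χ _) fun j _ => fb_le_one χ _)).trans ?_
    refine le_trans (prod_le_prod (fun j _ => fb_nonneg χ _) (g := fun _ => r) fun j hj => ?_) ?_
    · have hodd : (v j : ZMod 2) ≠ 0 := (mem_filter.1 hj).2
      have hunit : IsUnit ((v j : ℤ) : ZMod (2 ^ i)) := by
        rw [ZMod.coe_int_isUnit_iff_isCoprime]
        push_cast
        refine IsCoprime.pow_left ?_
        rw [Int.isCoprime_iff_gcd_eq_one]
        have h2 : ¬ (2 : ℤ) ∣ v j := fun h => hodd ((ZMod.intCast_zmod_eq_zero_iff_dvd _ 2).2 h)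
        exact (Int.prime_two.coprime_iff_not_dvd.2 h2) |> Int.isCoprime_iff_gcd_eq_one.1
      refine hlam _ ?_ ?_
      · rw [← AddChar.map_nsmul_eq_pow, nsmul_eq_mul]
        rw [char_apply_eq_pow, ← ZMod.natCast_zmod_val ((v j : ℤ) : ZMod (2 ^ i)), ← Nat.cast_mul,
          ← char_apply_eq_pow, mul_comm, Nat.cast_mul, ← nsmul_eq_mul, AddChar.map_nsmul_eq_pow,
          hmem χ hχ, one_pow]
      · intro h1
        apply hne
        refine DFunLike.ext _ _ fun x => ?_
        obtain ⟨w, hw⟩ := hunit.exists_left_inv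
        have hx : x = (x * w).val • ((v j : ℤ) : ZMod (2 ^ i)) := by
          rw [nsmul_eq_mul, ZMod.natCast_zmod_val, mul_assoc, hw, mul_one]
        rw [hx, AddChar.map_nsmul_eq_pow, h1, one_pow, AddChar.zero_apply]
    · rw [prod_const]
  have hcard : L.card ≤ 2 ^ E₀ := by
    refine le_trans ?_ (Polynomial.card_nthRoots (2 ^ E₀) (1 : ℂ))
    refine le_trans ?_ (Multiset.toFinset_card_le _)
    refine card_le_card_of_injOn (fun χ => χ 1) ?_ ?_
    · intro χ hχ
      simp only [mem_coe, Multiset.mem_toFinset, Polynomial.mem_nthRoots (show 0 < 2 ^ E₀ by positivity)]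
      rw [← AddChar.map_nsmul_eq_pow, nsmul_one]
      exact hmem χ hχ
    · intro χ _ χ' _ h
      refine DFunLike.ext _ _ fun x => ?_
      rw [char_apply_eq_pow, char_apply_eq_pow _ χ' x, show χ 1 = χ' 1 from h]
  have h0 : (0 : AddChar (ZMod (2 ^ i)) ℂ) ∈ L := by simp [hL, highSet]
  rw [← add_sum_erase _ _ h0]
  refine add_le_add ?_ ?_
  · simp [fb, phi]
  · refine le_trans (sum_le_card_nsmul _ _ (r ^ u) fun χ hχ => hterm χ (mem_of_mem_erase hχ)
      (ne_of_mem_erase hχ)) ?_
    rw [nsmul_eq_mul]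
    refine mul_le_mul_of_nonneg_right ?_ (pow_nonneg hr _)
    exact_mod_cast (card_le_card (erase_subset _ _)).trans hcard

theorem card_mul_atomS_le (i E₀ : ℕ) (v : Fin k → ℤ) (S : Finset (Fin k)) (r : ℝ) (hr : 0 ≤ r)
    (hr1 : r ≤ 1) (hlam : ∀ u : ℂ, u ^ (2 ^ E₀) = 1 → u ≠ 1 → fb u ≤ r) :
    ((2 ^ i : ℕ) : ℝ) * atomS (1 / 16) (2 ^ i) v S
      ≤ 1 + 2 ^ E₀ * r ^ (S.filter fun j => (v j : ZMod 2) ≠ 0).card
        + highSum (2 ^ i) E₀ (fun j => (v j : ZMod (2 ^ i))) S := by
  classical
  rw [card_mul_atomS, ← sum_sdiff (subset_univ (highSet (2 ^ i) E₀))]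
  have := low_sum_le i E₀ v S r hr hr1 hlam
  unfold highSum
  linarith

/-- No nontrivial signed relation supported in `D`. -/
def Diss {s : ℕ} {G : Type*} [AddCommGroup G] (g : Fin s → G) (D : Finset (Fin s)) : Prop :=
  ∀ x : Fin s → SignType, (∀ l ∉ D, x l = 0) → tot g x = 0 → x = 0

theorem pr_diss_le {s : ℕ} {G : Type*} [AddCommGroup G] [Fintype G] [DecidableEq G] (g : Fin s → G)
    (D : Finset (Fin s)) (hD : Diss g D) :
    pr (fun _ => 1 / 16) g 0 ≤ (15 / 16) ^ D.card := by
  classical
  set g' : Fin s → G := fun l => if l ∈ D then g l else 0 with hg'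
  refine le_trans (pr_le_of_phi_le (t' := fun _ => 1 / 16) (g' := g') 0 (fun _ => by norm_num)
    (fun _ => by norm_num) fun χ l => ?_) ?_
  · simp only [hg']
    split
    · exact le_rfl
    · rw [AddChar.map_zero_eq_one]
      refine (phi_le_one (by norm_num) (re_le_one χ _)).trans ?_
      simp [phi]
  · calc pr (fun _ => 1 / 16) g' 0
        ≤ ∑ x : Fin s → SignType, ∏ l, (if l ∈ D → x l = 0 then wt (1 / 16) (x l) else 0) := by
          refine sum_le_sum fun x _ => ?_
          have hnn : 0 ≤ ∏ l, (if l ∈ D → x l = 0 then wt (1 / 16) (x l) else 0) :=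
            prod_nonneg fun l _ => by
              split
              · exact wt_nonneg (by norm_num) (by norm_num) _
              · exact le_rfl
          split
          · next hx =>
            set y : Fin s → SignType := fun l => if l ∈ D then x l else 0 with hy
            have hty : tot g y = 0 := by
              rw [← hx]
              refine sum_congr rfl fun l _ => ?_
              by_cases hl : l ∈ D <;> simp [hy, hg', hl, ival]
            have hy0 := hD y (fun l hl => by simp [hy, hl]) hty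
            refine le_of_eq (prod_congr rfl fun l _ => ?_)
            rw [if_pos fun hl => by simpa [hy, hl] using congrFun hy0 l]
          · exact hnn
      _ = ∏ l, ∑ a, (if l ∈ D → a = 0 then wt (1 / 16) a else 0) :=
          (Fintype.prod_sum (fun (l : Fin s) (a : SignType) => if l ∈ D → a = 0 then wt (1 / 16) a else 0)).symm
      _ = ∏ l, (if l ∈ D then 15 / 16 else 1) := by
          refine prod_congr rfl fun l _ => ?_
          by_cases hl : l ∈ D
          · simp [hl, wt]; norm_num
          · simp [hl, sum_wt]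
      _ = (15 / 16) ^ D.card := by simp [prod_ite_mem, div_pow]

theorem sum_zsmul' {α G : Type*} [AddCommGroup G] (t : Finset α) (f : α → ℤ) (a : G) :
    (∑ l ∈ t, f l) • a = ∑ l ∈ t, f l • a := by
  classical
  induction t using Finset.induction with
  | empty => simp
  | insert b t hb ih => rw [sum_insert hb, sum_insert hb, add_zsmul, ih]

/-- Each high character has small atom in `s` lazy copies. -/
theorem pr_const_le (i E E₀ s : ℕ) (hs : s < 2 ^ E₀) (r : ℝ) (hr : 0 ≤ r)
    (hlam : ∀ u : ℂ, u ^ (2 ^ E) = 1 → u ≠ 1 → fb u ≤ r) (χ : AddChar (ZMod (2 ^ i)) ℂ)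
    (hχ : χ ∈ highSet (2 ^ i) E₀) :
    pr (fun _ : Fin s => 1 / 16) (fun _ => χ) 0 ≤ 1 / 2 ^ E + r ^ s := by
  classical
  simp only [highSet, mem_filter, mem_univ, true_and] at hχ
  have h1 : pr (fun _ : Fin s => 1 / 16) (fun _ => χ) 0
      ≤ pr (fun _ : Fin s => 1 / 16) (fun _ => (1 : ZMod (2 ^ E))) 0 := by
    refine sum_le_sum fun x _ => ?_
    have hnn := fw_nonneg (t := fun _ : Fin s => (1 / 16 : ℝ)) (fun _ => by norm_num) (fun _ => by norm_num) x
    by_cases hx : tot (fun _ : Fin s => χ) x = 0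
    · rw [if_pos hx]
      set M : ℤ := ∑ l, ival (x l) with hM
      have hM0 : M = 0 := by
        by_contra hne
        have habs : |M| ≤ s := by
          refine (abs_sum_le_sum_abs _ _).trans ?_
          have : ∀ l ∈ (univ : Finset (Fin s)), |ival (x l)| ≤ 1 := fun l _ => by
            rcases x l <;> simp [ival]
          simpa using sum_le_card_nsmul _ _ 1 this
        have hzero : M • χ = 0 := by rw [hM, sum_zsmul']; exact hx
        have hval : χ (M : ZMod (2 ^ i)) = 1 := by
          have h := DFunLike.congr_fun hzero 1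
          rw [AddChar.zero_apply] at h
          rw [← h, AddChar.zsmul_apply, ← AddChar.map_zsmul_eq_zpow, zsmul_one]
        set g := Int.gcd M ((2 ^ i : ℕ) : ℤ) with hg
        have hgval : χ (g : ZMod (2 ^ i)) = 1 := by
          have hb := Int.gcd_eq_gcd_ab M ((2 ^ i : ℕ) : ℤ)
          have h2 : ((g : ℤ) : ZMod (2 ^ i)) = Int.gcdA M ((2 ^ i : ℕ) : ℤ) • (M : ZMod (2 ^ i)) := by
            rw [hg, hb, zsmul_eq_mul]
            push_cast
            rw [show ((2 : ZMod (2 ^ i)) ^ i) = ((2 ^ i : ℕ) : ZMod (2 ^ i)) by push_cast; rfl, ZMod.natCast_self]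
            ring
          rw [Int.cast_natCast] at h2
          rw [h2, AddChar.map_zsmul_eq_zpow, hval, one_zpow]
        obtain ⟨a, _, ha⟩ := (Nat.dvd_prime_pow Nat.prime_two).1
          (by exact_mod_cast (Int.gcd_dvd_right M ((2 ^ i : ℕ) : ℤ)) : g ∣ 2 ^ i)
        have hgle : g ≤ M.natAbs := Nat.le_of_dvd (Int.natAbs_pos.2 hne) (Int.natCast_dvd.1 (Int.gcd_dvd_left M _))
        have haE : a ≤ E₀ := by
          by_contra hlt
          have : 2 ^ E₀ ≤ g := ha ▸ Nat.pow_le_pow_right (by norm_num) (by omega)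
          have := Int.abs_eq_natAbs M
          omega
        apply hχ
        have : (2 ^ E₀ : ℕ) = 2 ^ (E₀ - a) * g := by rw [ha, ← pow_add]; congr 1; omega
        rw [this, Nat.cast_mul, ← nsmul_eq_mul, AddChar.map_nsmul_eq_pow, hgval, one_pow]
      have htot : tot (fun _ : Fin s => (1 : ZMod (2 ^ E))) x = 0 := by
        simp only [tot, zsmul_one, ← Int.cast_sum, ← hM, hM0, Int.cast_zero]
      rw [if_pos htot]
    · rw [if_neg hx]
      split
      · exact hnn
      · exact le_rfl
  refine h1.trans ?_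
  have hid := card_mul_pr_zero (fun _ : Fin s => (1 / 16 : ℝ)) (fun _ => (1 : ZMod (2 ^ E)))
  rw [ZMod.card, ← add_sum_erase _ _ (mem_univ (0 : AddChar (ZMod (2 ^ E)) ℂ))] at hid
  have hN : (0 : ℝ) < ((2 ^ E : ℕ) : ℝ) := by positivity
  refine le_of_mul_le_mul_left ?_ hN
  rw [hid, mul_add, Nat.cast_pow, Nat.cast_ofNat, mul_one_div, div_self (by positivity)]
  refine add_le_add (le_of_eq (prod_eq_one fun l _ => by simp [phi])) ?_
  refine le_trans (sum_le_card_nsmul _ _ (r ^ s) fun ψ hψ => ?_) ?_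
  · rw [prod_const, card_univ, Fintype.card_fin]
    refine pow_le_pow_left₀ (fb_nonneg ψ 1) ?_ _
    refine hlam _ ?_ fun h => ne_of_mem_erase hψ ?_
    · rw [← AddChar.map_nsmul_eq_pow, nsmul_one, ZMod.natCast_self, AddChar.map_zero_eq_one]
    · refine DFunLike.ext _ _ fun x => ?_
      rw [char_apply_eq_pow, h, one_pow, AddChar.zero_apply]
  · rw [nsmul_eq_mul]
    refine mul_le_mul_of_nonneg_right ?_ (pow_nonneg hr _)
    have : (univ.erase (0 : AddChar (ZMod (2 ^ E)) ℂ)).card ≤ 2 ^ E := by
      refine (card_le_card (erase_subset _ _)).trans ?_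
      rw [card_univ, AddChar.card_eq, ZMod.card]
    exact_mod_cast this

theorem prod_le_mean_pow {s : ℕ} (hs : 1 ≤ s) (f : Fin s → ℝ) (hf : ∀ l, 0 ≤ f l) :
    ∏ l, f l ≤ ∑ l, (1 / (s : ℝ)) * f l ^ s := by
  have hs' : (s : ℝ) ≠ 0 := by exact_mod_cast (by omega : s ≠ 0)
  have h := Real.geom_mean_le_arith_mean_weighted (univ : Finset (Fin s)) (fun _ => 1 / (s : ℝ))
    (fun l => f l ^ s) (fun _ _ => by positivity) (by simp; field_simp) (fun l _ => pow_nonneg (hf l) _)
  refine le_trans (le_of_eq (prod_congr rfl fun l _ => ?_)) h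
  rw [one_div, Real.pow_rpow_inv_natCast (hf l) (by omega)]

/-- The moment bound. -/
theorem moment_le (i E E₀ s : ℕ) (hs1 : 1 ≤ s) (hs : s < 2 ^ E₀) (r : ℝ) (hr : 0 ≤ r)
    (hlam : ∀ u : ℂ, u ^ (2 ^ E) = 1 → u ≠ 1 → fb u ≤ r) (S : Finset (Fin k)) :
    ∑ v : Fin k → ZMod (2 ^ i), highSum (2 ^ i) E₀ v S ^ s ≤
      (((2 ^ i : ℕ) : ℝ)) ^ k * 3 ^ (s * s) * ∑ D ∈ (univ : Finset (Finset (Fin s))).filter (·.Nonempty),
        (((2 ^ i : ℕ) : ℝ)) ^ D.card * (min ((15 / 16) ^ D.card) (1 / 2 ^ E + r ^ s)) ^ S.card := by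
  classical
  set H := highSet (2 ^ i) E₀ with hH
  set N : ℝ := ((2 ^ i : ℕ) : ℝ) with hN
  set α : ℝ := 1 / 2 ^ E + r ^ s with hα
  have hα0 : 0 ≤ α := by positivity
  have hexp : ∑ v : Fin k → ZMod (2 ^ i), highSum (2 ^ i) E₀ v S ^ s
      = N ^ k * ∑ g ∈ Fintype.piFinset (fun _ : Fin s => H), (pr (fun _ => 1 / 16) g 0) ^ S.card := by
    unfold highSum
    simp_rw [Finset.sum_pow', mul_sum]
    rw [sum_comm]
    refine sum_congr rfl fun g _ => ?_
    have h1 : ∀ v : Fin k → ZMod (2 ^ i), ∏ l : Fin s, ∏ j ∈ S, fb (g l (v j))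
        = ∏ j, (if j ∈ S then ∏ l, fb (g l (v j)) else 1) := by
      intro v
      rw [prod_comm, prod_ite_mem, univ_inter]
    simp_rw [h1]
    rw [← Fintype.prod_sum (fun (j : Fin k) (x : ZMod (2 ^ i)) => if j ∈ S then ∏ l, fb (g l x) else 1)]
    have h2 : ∀ j, ∑ x : ZMod (2 ^ i), (if j ∈ S then ∏ l, fb (g l x) else 1)
        = N * (if j ∈ S then pr (fun _ => 1 / 16) g 0 else 1) := by
      intro j
      by_cases hj : j ∈ S
      · simp only [hj, if_true, hN]
        have h3 := avg_prod_phi (fun _ : Fin s => (1 / 16 : ℝ)) g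
        rw [ZMod.card] at h3
        exact h3
      · simp [hj, hN]
    rw [prod_congr rfl fun j _ => h2 j, prod_mul_distrib, prod_const, card_univ, Fintype.card_fin,
      prod_ite_mem, univ_inter, prod_const]
  rw [hexp, mul_assoc]
  refine mul_le_mul_of_nonneg_left ?_ (by positivity)
  have hpr0 : ∀ g : Fin s → AddChar (ZMod (2 ^ i)) ℂ, 0 ≤ pr (fun _ => 1 / 16) g 0 := fun g =>
    sum_nonneg fun x _ => by
      split
      · exact fw_nonneg (fun _ => by norm_num) (fun _ => by norm_num) x
      · exact le_rfl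
  have hα' : ∀ g ∈ Fintype.piFinset (fun _ : Fin s => H), pr (fun _ => 1 / 16) g 0 ≤ α := by
    intro g hg
    rw [Fintype.mem_piFinset] at hg
    have hN0 : (0 : ℝ) < N := by positivity
    refine le_of_mul_le_mul_left ?_ hN0
    have h := avg_prod_phi (fun _ : Fin s => (1 / 16 : ℝ)) g
    rw [ZMod.card] at h
    rw [hN, ← h]
    refine (sum_le_sum fun x _ => prod_le_mean_pow hs1 _ fun l => fb_nonneg (g l) x).trans ?_
    rw [sum_comm]
    have hl : ∀ l ∈ (univ : Finset (Fin s)),
        ∑ x : ZMod (2 ^ i), (1 / (s : ℝ)) * fb (g l x) ^ s ≤ (1 / (s : ℝ)) * (N * α) := by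
      intro l _
      rw [← mul_sum]
      refine mul_le_mul_of_nonneg_left ?_ (by positivity)
      have h2 := avg_prod_phi (fun _ : Fin s => (1 / 16 : ℝ)) (fun _ => g l)
      simp only [prod_const, card_univ, Fintype.card_fin, ZMod.card] at h2
      refine le_of_eq_of_le h2 ?_
      exact mul_le_mul_of_nonneg_left (pr_const_le i E E₀ s hs r hr hlam _ (hg l)) (by positivity)
    refine (sum_le_card_nsmul _ _ _ hl).trans (le_of_eq ?_)
    rw [card_univ, Fintype.card_fin, nsmul_eq_mul]
    have hs' : (s : ℝ) ≠ 0 := by exact_mod_cast (by omega : s ≠ 0)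
    field_simp
    rw [hN]
    ring
  set T : Finset (Fin s) → Finset (Fin s → AddChar (ZMod (2 ^ i)) ℂ) := fun D =>
    (Fintype.piFinset fun _ : Fin s => H).filter fun g =>
      Diss g D ∧ ∀ l ∉ D, ∃ x : Fin s → SignType, (∀ l' ∉ D, x l' = 0) ∧ g l = tot g x with hT
  have hex : ∀ g ∈ Fintype.piFinset (fun _ : Fin s => H),
      ∃ D ∈ (univ : Finset (Finset (Fin s))).filter (·.Nonempty), g ∈ T D := by
    intro g hg
    have hgH := Fintype.mem_piFinset.1 hg
    set A := (univ : Finset (Finset (Fin s))).filter fun D => Diss g D with hA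
    have hAne : A.Nonempty := by
      refine ⟨∅, ?_⟩
      simp only [hA, mem_filter, mem_univ, true_and]
      intro x hx _
      funext l; exact hx l (notMem_empty l)
    obtain ⟨D, hDA, hmax⟩ := exists_max_image A card hAne
    simp only [hA, mem_filter, mem_univ, true_and] at hDA
    have hne0 : ∀ l, g l ≠ 0 := by
      intro l h
      have := hgH l
      simp only [hH, highSet, mem_filter, mem_univ, true_and, h, AddChar.zero_apply] at this
      exact this rfl
    have hDne : D.Nonempty := by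
      by_contra hD
      rw [not_nonempty_iff_eq_empty] at hD
      subst hD
      have h1 : Diss g {⟨0, hs1⟩} := by
        intro x hx ht
        have hrest : ∀ l : Fin s, l ≠ ⟨0, hs1⟩ → x l = 0 := fun l hl => hx l (by simpa using hl)
        funext l
        by_cases hl : l = ⟨0, hs1⟩
        · subst hl
          unfold tot at ht
          rw [sum_eq_single ⟨0, hs1⟩ (fun b _ hb => by simp [hrest b hb, ival]) (by simp)] at ht
          cases hc : x ⟨0, hs1⟩
          · rfl
          · simp [hc, ival] at ht; exact absurd ht (hne0 _)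
          · simp [hc, ival] at ht; exact absurd ht (hne0 _)
        · exact hrest l hl
      have := hmax {⟨0, hs1⟩} (by simp only [hA, mem_filter, mem_univ, true_and]; exact h1)
      simp at this
    refine ⟨D, by simp [hDne], ?_⟩
    simp only [hT, mem_filter]
    refine ⟨hg, hDA, fun l hl => ?_⟩
    have hnot : ¬ Diss g (insert l D) := by
      intro h
      have := hmax (insert l D) (by simp only [hA, mem_filter, mem_univ, true_and]; exact h)
      rw [card_insert_of_notMem hl] at this
      omega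
    unfold Diss at hnot
    push Not at hnot
    obtain ⟨x, hxs, hxt, hxne⟩ := hnot
    have hxl : x l ≠ 0 := by
      intro h
      refine hxne (hDA x (fun l' hl' => ?_) hxt)
      by_cases he : l' = l
      · rw [he]; exact h
      · exact hxs l' (by simp [he, hl'])
    have hsplit : tot g x = ival (x l) • g l + tot g (fun l' => if l' = l then 0 else x l') := by
      unfold tot
      rw [← add_sum_erase _ _ (mem_univ l), ← add_sum_erase _ (fun l' => ival (if l' = l then 0 else x l') • g l') (mem_univ l)]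
      simp only [if_true, ival, SignType.coe_zero, zero_zsmul, zero_add]
      congr 1
      exact sum_congr rfl fun l' hl' => by simp [(mem_erase.1 hl').1]
    cases hc : x l
    · exact absurd hc hxl
    · refine ⟨fun l' => if l' = l then 0 else x l', fun l' hl' => ?_, ?_⟩
      · dsimp only
        split
        · rfl
        · next he => exact hxs l' (by simp [he, hl'])
      · rw [hxt, hc] at hsplit
        have h' : (0 : AddChar (ZMod (2 ^ i)) ℂ) = -g l + tot g (fun l' => if l' = l then 0 else x l') := by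
          simpa [ival] using hsplit
        exact neg_add_eq_zero.1 h'.symm
    · refine ⟨fun l' => if l' = l then 0 else -x l', fun l' hl' => ?_, ?_⟩
      · dsimp only
        split
        · rfl
        · next he => rw [hxs l' (by simp [he, hl'])]; rfl
      · rw [hxt, hc] at hsplit
        have h' : (0 : AddChar (ZMod (2 ^ i)) ℂ) = g l + tot g (fun l' => if l' = l then 0 else x l') := by
          simpa [ival] using hsplit
        rw [eq_neg_of_add_eq_zero_left h'.symm]
        unfold tot
        rw [← sum_neg_distrib]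
        refine sum_congr rfl fun l' _ => ?_
        dsimp only
        split
        · simp [ival]
        · rw [← neg_smul]; cases x l' <;> rfl
  have hcardT : ∀ D, ((T D).card : ℝ) ≤ 3 ^ (s * s) * N ^ D.card := by
    intro D
    let dec : ({l // l ∈ D} → AddChar (ZMod (2 ^ i)) ℂ) × (Fin s → Fin s → SignType) →
        (Fin s → AddChar (ZMod (2 ^ i)) ℂ) := fun p l =>
      if h : l ∈ D then p.1 ⟨l, h⟩ else ∑ l' : {l // l ∈ D}, ival (p.2 l l') • p.1 l'
    have hsub : T D ⊆ univ.image dec := by
      intro g hg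
      simp only [hT, mem_filter] at hg
      choose x hx0 hx using hg.2.2
      refine mem_image.2 ⟨(fun l => g l, fun l => if h : l ∈ D then 0 else x l h), mem_univ _, ?_⟩
      funext l
      by_cases h : l ∈ D
      · simp [dec, h]
      · simp only [dec, h, dite_false]
        rw [hx l h]
        unfold tot
        rw [← sum_subset (subset_univ D) (fun l' _ hl' => by simp [hx0 l h l' hl', ival])]
        exact (sum_coe_sort D (fun l' => ival (x l h l') • g l'))
    have := (card_le_card hsub).trans card_image_le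
    rw [card_univ, Fintype.card_prod, Fintype.card_fun, Fintype.card_fun, Fintype.card_fun, AddChar.card_eq,
      ZMod.card, Fintype.card_coe, Fintype.card_fin] at this
    calc ((T D).card : ℝ) ≤ (((2 ^ i) ^ D.card * (Fintype.card SignType ^ s) ^ s : ℕ) : ℝ) := by
          exact_mod_cast this
      _ = 3 ^ (s * s) * N ^ D.card := by
          rw [show Fintype.card SignType = 3 from rfl, hN]
          push_cast
          rw [← pow_mul (3 : ℝ)]
          ring
  calc ∑ g ∈ Fintype.piFinset (fun _ : Fin s => H), (pr (fun _ => 1 / 16) g 0) ^ S.card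
      ≤ ∑ g ∈ Fintype.piFinset (fun _ : Fin s => H),
          ∑ D ∈ (univ : Finset (Finset (Fin s))).filter (·.Nonempty),
            (if g ∈ T D then (min ((15 / 16 : ℝ) ^ D.card) α) ^ S.card else 0) := by
        refine sum_le_sum fun g hg => ?_
        obtain ⟨D, hD, hgD⟩ := hex g hg
        refine le_trans ?_ (single_le_sum (fun D' _ => ?_) hD)
        · rw [if_pos hgD]
          simp only [hT, mem_filter] at hgD
          exact pow_le_pow_left₀ (hpr0 g) (le_min (pr_diss_le g D hgD.2.1) (hα' g hg)) _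
        · split
          · positivity
          · exact le_rfl
    _ ≤ ∑ D ∈ (univ : Finset (Finset (Fin s))).filter (·.Nonempty),
          ((T D).card : ℝ) * (min ((15 / 16 : ℝ) ^ D.card) α) ^ S.card := by
        rw [sum_comm]
        refine sum_le_sum fun D _ => ?_
        rw [← sum_filter, sum_const, nsmul_eq_mul]
        refine mul_le_mul_of_nonneg_right ?_ (by positivity)
        exact_mod_cast card_le_card fun g hg => (mem_filter.1 hg).2
    _ ≤ _ := by
        rw [mul_sum]
        refine sum_le_sum fun D _ => ?_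
        rw [← mul_assoc]
        exact mul_le_mul_of_nonneg_right (hcardT D) (by positivity)

end

end Vale.Agent.P160.Rate
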