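import Vale.Agent.P160.Rate.Ker

/-!
The expected kernel of a lazy matrix with a conditioned null vector.
-/

namespace Vale.Agent.P160.Rate

open Finset

set_option linter.unusedSectionVars false

noncomputable section

variable {k m : ℕ}

/-- Weight of a matrix of lazy rows. -/
def mwt (R : Fin m → Row k) : ℝ := ∏ r, fw (fun _ => 1 / 4) (R r)

theorem mwt_nonneg (R : Fin m → Row k) : 0 ≤ mwt R :=
  prod_nonneg fun r _ => fw_nonneg (fun _ => by norm_num) (fun _ => by norm_num) _

theorem rfw_nonneg (x : Row k) : 0 ≤ fw (fun _ : Fin k => (1 / 4 : ℝ)) x :=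
  fw_nonneg (fun _ => by norm_num) (fun _ => by norm_num) x

theorem rowPr_nonneg (p : Row k → Prop) : 0 ≤ rowPr (1 / 4) p :=
  sum_nonneg fun x _ => by
    split
    · exact rfw_nonneg x
    · exact le_rfl

theorem rowPr_mono {p q : Row k → Prop} (h : ∀ x, p x → q x) :
    rowPr (1 / 4) p ≤ rowPr (1 / 4) q := by
  classical
  refine sum_le_sum fun x _ => ?_
  by_cases hp : p x
  · simp [hp, h x hp]
  · simp only [hp, if_false]
    split
    · exact rfw_nonneg x
    · exact le_rfl

theorem sum_rows {ι : Type*} [Fintype ι] [DecidableEq ι] (p : ι → Row k → Prop)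
    [∀ R : ι → Row k, Decidable (∀ r, p r (R r))] :
    ∑ R : ι → Row k, (if ∀ r, p r (R r) then ∏ r, fw (fun _ => (1 / 4 : ℝ)) (R r) else 0)
      = ∏ r, rowPr (1 / 4) (p r) := by
  unfold rowPr
  rw [Fintype.prod_sum]
  refine sum_congr rfl fun R _ => ?_
  by_cases h : ∀ r, p r (R r)
  · rw [if_pos h]
    exact prod_congr rfl fun r _ => by rw [if_pos (h r)]
  · rw [if_neg h]
    obtain ⟨r, hr⟩ := not_forall.1 h
    exact (prod_eq_zero (mem_univ r) (by rw [if_neg hr])).symm

/-- The augmented integer matrix `[R | Rv / P]`. -/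
def aug (P : ℕ) (v : Fin k → ℤ) (R : Fin m → Row k) (r : Fin m) (o : Option (Fin k)) : ℤ :=
  Option.elim o (dot v (R r) / (P : ℤ)) fun i => ival (R r i)

theorem solCard_two (P : ℕ) (v : Fin k → ℤ) (R : Fin m → Row k) :
    solCard 2 (aug P v R) = 2 ^ Module.finrank (ZMod 2) (kerW P v R) := by
  classical
  rw [← mem_finset_span_card]
  unfold solCard
  congr 1
  ext y
  simp only [mem_filter, mem_univ, true_and, mem_kerW, parEval, Fintype.sum_option, aug,
    Option.elim_none, Option.elim_some]
  refine forall_congr' fun r => ?_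
  rw [add_comm, mul_comm (y none)]
  simp only [mul_comm]

open Classical in
/-- The expected kernel. -/
def kSum (P : ℕ) [NeZero P] (v : Fin k → ℤ) (m : ℕ) : ℝ :=
  ∑ R : Fin m → Row k, if ∀ r, (P : ℤ) ∣ dot v (R r) then mwt R * solCard P (aug P v R) else 0

open Classical in
/-- The probability that all rows are divisible and the parity kernel has dimension `d`. -/
def dSum (P : ℕ) (v : Fin k → ℤ) (m d : ℕ) : ℝ :=
  ∑ R : Fin m → Row k,
    if (∀ r, (P : ℤ) ∣ dot v (R r)) ∧ Module.finrank (ZMod 2) (kerW P v R) = d then mwt R else 0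

theorem vbar_ne_zero {v : Fin k → ℤ} {i₀ : Fin k} (h : (v i₀ : ZMod 2) ≠ 0) : vbar v ≠ 0 :=
  fun e => h (by simpa [vbar] using congrFun e (some i₀))

theorem kSum_le (i : ℕ) (hi : 1 ≤ i) (v : Fin k → ℤ) (i₀ : Fin k) (hv : (v i₀ : ZMod 2) ≠ 0)
    (m : ℕ) :
    kSum (2 ^ i) v m ≤ ∑ d ∈ Icc 1 (k + 1), ((2 : ℝ) ^ i) ^ d * dSum (2 ^ i) v m d := by
  classical
  unfold kSum dSum
  simp only [mul_sum]
  rw [sum_comm]
  refine sum_le_sum fun R _ => ?_
  by_cases hR : ∀ r, ((2 ^ i : ℕ) : ℤ) ∣ dot v (R r)
  · rw [if_pos hR]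
    set d := Module.finrank (ZMod 2) (kerW (2 ^ i) v R) with hd
    have hd1 : 1 ≤ d := by
      have hmem := vbar_mem_kerW (dvd_pow_self 2 (by omega)) hR
      by_contra h
      have : kerW (2 ^ i) v R = ⊥ := Submodule.finrank_eq_zero.1 (by omega)
      rw [this, Submodule.mem_bot] at hmem
      exact vbar_ne_zero hv hmem
    have hd2 : d ≤ k + 1 := (Submodule.finrank_le _).trans (by simp)
    rw [sum_eq_single_of_mem d (mem_Icc.2 ⟨hd1, hd2⟩)]
    · rw [if_pos ⟨hR, hd.symm⟩, mul_comm]
      refine mul_le_mul_of_nonneg_right ?_ (mwt_nonneg R)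
      have := solCard_pow_le (aug (2 ^ i) v R) i hi
      rw [solCard_two, ← hd] at this
      calc (solCard (2 ^ i) (aug (2 ^ i) v R) : ℝ) ≤ (((2 ^ d) ^ i : ℕ) : ℝ) := by exact_mod_cast this
        _ = ((2 : ℝ) ^ i) ^ d := by push_cast; rw [← pow_mul, ← pow_mul, mul_comm]
    · intro b _ hb
      rw [if_neg fun h => hb (hd ▸ h.2.symm), mul_zero]
  · rw [if_neg hR]
    exact sum_nonneg fun d _ => mul_nonneg (by positivity) (by
      rw [if_neg fun h => hR h.1])

theorem dSum_one_le (P : ℕ) [NeZero P] (hP : 2 ∣ P) (v : Fin k → ℤ) (δ : ℝ)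
    (hδ : (P : ℝ) * atomS (1 / 16) P v univ - 1 ≤ δ) :
    dSum P v m 1 ≤ ((1 + wgt (vbar v) + 2 * δ) / P) ^ m := by
  classical
  have hP' : (0 : ℝ) < P := by exact_mod_cast Nat.pos_of_ne_zero (NeZero.ne P)
  have hrow := rowEv_sharp P hP v (Fin.elim0 : Fin 0 → Option (Fin k) → ZMod 2)
  have hev : rowPr (1 / 4) (RowEv P v (Fin.elim0 : Fin 0 → Option (Fin k) → ZMod 2))
      = rowPr (1 / 4) (fun x => (P : ℤ) ∣ dot v x) := by
    unfold rowPr
    refine sum_congr rfl fun x _ => ?_
    by_cases h : (P : ℤ) ∣ dot v x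
    · rw [if_pos h, if_pos (show RowEv P v (Fin.elim0 : Fin 0 → V2 k) x from ⟨h, fun l => l.elim0⟩)]
    · rw [if_neg h, if_neg fun h' => h h'.1]
  rw [hev] at hrow
  have hsum : (∑ μ : ZMod 2 × (Fin 0 → ZMod 2),
      if lowVec v (Fin.elim0 : Fin 0 → Option (Fin k) → ZMod 2) μ none = 0
      then wgt (lowVec v (Fin.elim0 : Fin 0 → Option (Fin k) → ZMod 2) μ) else 0)
      = 1 + wgt (vbar v) := by
    rw [Fintype.sum_prod_type]
    have h2 : (univ : Finset (ZMod 2)) = {0, 1} := by decide
    simp only [h2, Fintype.sum_unique, sum_insert (show (0 : ZMod 2) ∉ ({1} : Finset (ZMod 2)) by decide),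
      sum_singleton]
    simp [lowVec, wgt, vbar]
  rw [hsum, pow_zero, div_one] at hrow
  have hb : rowPr (1 / 4) (fun x => (P : ℤ) ∣ dot v x) ≤ (1 + wgt (vbar v) + 2 * δ) / P := by
    rw [le_div_iff₀ hP', mul_comm]
    linarith
  calc dSum P v m 1 ≤ ∑ R : Fin m → Row k,
        (if ∀ r, (P : ℤ) ∣ dot v (R r) then mwt R else 0) := by
        refine sum_le_sum fun R _ => ?_
        split_ifs with h1 h2 h3
        · exact le_rfl
        · exact absurd h1.1 h2
        · exact mwt_nonneg R
        · exact le_rfl
    _ = ∏ _r : Fin m, rowPr (1 / 4) (fun x => (P : ℤ) ∣ dot v x) :=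
        sum_rows (fun _ : Fin m => fun x : Row k => (P : ℤ) ∣ dot v x)
    _ ≤ ∏ _r : Fin m, (1 + wgt (vbar v) + 2 * δ) / P :=
        prod_le_prod (fun _ _ => rowPr_nonneg _) fun _ _ => hb
    _ = _ := by simp [div_pow]

/-- Inside a subspace, the vectors with vanishing extra coordinate lose at most one dimension. -/
theorem exists_none_zero (W : Submodule (ZMod 2) (V2 k)) :
    ∃ L : Submodule (ZMod 2) (V2 k), (∀ y ∈ L, y ∈ W ∧ y none = 0) ∧
      Module.finrank (ZMod 2) W ≤ Module.finrank (ZMod 2) L + 1 := by
  let f : W →ₗ[ZMod 2] ZMod 2 := (LinearMap.proj none).comp W.subtype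
  refine ⟨(LinearMap.ker f).map W.subtype, ?_, ?_⟩
  · intro y hy
    obtain ⟨⟨w, hw⟩, hk, rfl⟩ := Submodule.mem_map.1 hy
    exact ⟨hw, by simpa [f] using hk⟩
  · rw [Submodule.finrank_map_subtype_eq]
    have h1 := LinearMap.finrank_range_add_finrank_ker f
    have h2 : Module.finrank (ZMod 2) (LinearMap.range f) ≤ 1 :=
      (Submodule.finrank_le _).trans (Module.finrank_self (ZMod 2)).le
    omega

/-- Exposure bound for large kernels. -/
theorem dSum_large_le (P : ℕ) [NeZero P] (v : Fin k → ℤ) (c₁ d : ℕ) (K : ℝ)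
    (hK : ∀ S : Finset (Fin k), ((univ : Finset (Fin k)) \ S).card ≤ c₁ →
      (P : ℝ) * atomS (1 / 16) P v S ≤ K / 2)
    (hm : k + 1 ≤ m + d) :
    dSum P v m d ≤ 2 ^ m * (K / P) ^ m * ((3 / 4) ^ min (d - 1) c₁) ^ (m + d - (k + 1)) := by
  classical
  have hP' : (0 : ℝ) < P := by exact_mod_cast Nat.pos_of_ne_zero (NeZero.ne P)
  set c := min (d - 1) c₁ with hc
  set γ : ℝ := (3 / 4) ^ c with hγ
  have hγ0 : 0 ≤ γ := by positivity
  have hγ1 : γ ≤ 1 := pow_le_one₀ (by norm_num) (by norm_num)
  have hK0 : 0 ≤ K / P := by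
    have h := hK univ (by simp)
    have h0 : 0 ≤ atomS (1 / 16) P v univ := sum_nonneg fun x _ => by
      split
      · exact fw_nonneg (fun _ => by norm_num) (fun _ => by norm_num) x
      · exact le_rfl
    have : 0 ≤ K / 2 := le_trans (mul_nonneg hP'.le h0) h
    exact div_nonneg (by linarith) hP'.le
  have hpiv : ∀ {c' : ℕ} (b : Fin c' → V2 k) (C : Fin c' ↪ Fin k),
      (∀ l l', b l (some (C l')) = if l = l' then 1 else 0) → c' ≤ c₁ →
      rowPr (1 / 4) (RowEv P v b) ≤ (3 / 4) ^ c' * (K / P) := by
    intro c' b C hb hc'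
    refine (rowEv_pivot P v b C hb).trans ?_
    have hS : ((univ : Finset (Fin k)) \ (univ \ univ.map C)).card ≤ c₁ := by
      rw [sdiff_sdiff_right_self]; simpa using hc'
    have h := hK _ hS
    rw [mul_comm, ← le_div_iff₀ hP'] at h
    calc 2 * ((3 / 4) ^ c' * atomS (1 / 16) P v (univ \ univ.map C))
        ≤ 2 * ((3 / 4) ^ c' * (K / 2 / P)) := by gcongr
      _ = (3 / 4) ^ c' * (K / P) := by ring
  have hdvd : rowPr (1 / 4) (fun x => (P : ℤ) ∣ dot v x) ≤ K / P := by
    have h := hpiv (c' := 0) Fin.elim0 ⟨Fin.elim0, fun a => a.elim0⟩ (fun l => l.elim0) (Nat.zero_le _)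
    refine le_trans (rowPr_mono (q := RowEv P v (Fin.elim0 : Fin 0 → V2 k)) fun x hx => ⟨hx, fun l => l.elim0⟩) (by simpa using h)
  set Bs := (univ : Finset (Finset (Fin m))).filter fun B => B.card + d ≤ k + 1 with hBs
  calc dSum P v m d
      ≤ ∑ R : Fin m → Row k, ∑ B ∈ Bs,
          (if (∀ r, (P : ℤ) ∣ dot v (R r)) ∧ d ≤ Module.finrank (ZMod 2) (kerW P v fun r : B => R r) ∧
              (∀ r ∉ B, ∀ y ∈ kerW P v (fun r : B => R r), parEval P v y (R r) = 0)
            then mwt R else 0) := by
        refine sum_le_sum fun R _ => ?_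
        have hnn : ∀ B ∈ Bs, 0 ≤ (if (∀ r, (P : ℤ) ∣ dot v (R r)) ∧
              d ≤ Module.finrank (ZMod 2) (kerW P v fun r : B => R r) ∧
              (∀ r ∉ B, ∀ y ∈ kerW P v (fun r : B => R r), parEval P v y (R r) = 0)
            then mwt R else 0) := fun B _ => by
          split
          · exact mwt_nonneg R
          · exact le_rfl
        split_ifs with h
        · obtain ⟨B, hBc, hBk⟩ := exists_rows_kerW P v R
          refine le_trans ?_ (single_le_sum hnn (show B ∈ Bs by simp [hBs]; omega))
          rw [if_pos ⟨h.1, by rw [hBk, h.2], fun r _ y hy => by rw [hBk] at hy; exact hy r⟩]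
        · exact sum_nonneg hnn
    _ = ∑ B ∈ Bs, ∑ R : Fin m → Row k,
          (if (∀ r, (P : ℤ) ∣ dot v (R r)) ∧ d ≤ Module.finrank (ZMod 2) (kerW P v fun r : B => R r) ∧
              (∀ r ∉ B, ∀ y ∈ kerW P v (fun r : B => R r), parEval P v y (R r) = 0)
            then mwt R else 0) := sum_comm
    _ ≤ ∑ _B ∈ Bs, (K / P) ^ m * γ ^ (m + d - (k + 1)) := by
        refine sum_le_sum fun B hB => ?_
        simp only [hBs, mem_filter, mem_univ, true_and] at hB
        rw [← (Equiv.piEquivPiSubtypeProd (fun r : Fin m => r ∈ B) (fun _ => Row k)).symm.sum_comp,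
          Fintype.sum_prod_type]
        have hout : Fintype.card {r : Fin m // r ∉ B} = m - B.card := by
          rw [Fintype.card_subtype_compl, Fintype.card_fin, Fintype.card_coe]
        calc _ ≤ ∑ x : {r : Fin m // r ∈ B} → Row k,
              (if ∀ r, (P : ℤ) ∣ dot v (x r) then ∏ r, fw (fun _ => (1 / 4 : ℝ)) (x r) else 0) *
                (γ * (K / P)) ^ (m - B.card) := by
              refine sum_le_sum fun x _ => ?_
              set e := (Equiv.piEquivPiSubtypeProd (fun r : Fin m => r ∈ B) (fun _ => Row k)).symm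
              have hin : ∀ y (r : {r : Fin m // r ∈ B}), e (x, y) r = x r := fun y r => by simp [e]
              have hou : ∀ y (r : {r : Fin m // r ∉ B}), e (x, y) r = y r := fun y r => by simp [e, r.2]
              have hW : ∀ y, kerW P v (fun r : B => e (x, y) r) = kerW P v x := by
                intro y; congr 1; funext r; exact hin y r
              by_cases hx : (∀ r, (P : ℤ) ∣ dot v (x r)) ∧ d ≤ Module.finrank (ZMod 2) (kerW P v x)
              · rw [if_pos hx.1]
                obtain ⟨L, hL, hLr⟩ := exists_none_zero (kerW P v x)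
                have h9 : Module.finrank (ZMod 2) (kerW P v x) ≤ Module.finrank (ZMod 2) L + 1 := hLr
                have h8 := hx.2
                have h7 : c ≤ d - 1 := min_le_left _ _
                obtain ⟨C, b, hbL, hb⟩ := exists_pivots c L (le_trans h7 (Nat.sub_le_iff_le_add.2 (h8.trans h9)))
                have hsome : ∀ l, ∃ i, C l = some i := by
                  intro l
                  cases hC : C l with
                  | none =>
                    have := hb l l
                    rw [hC, (hL _ (hbL l)).2, if_pos rfl] at this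
                    exact absurd this zero_ne_one
                  | some i => exact ⟨i, rfl⟩
                choose I hI using hsome
                have hIi : Function.Injective I := fun a a' h => C.injective (by rw [hI, hI, h])
                have hone : rowPr (1 / 4) (RowEv P v b) ≤ γ * (K / P) :=
                  hpiv b ⟨I, hIi⟩ (fun l l' => by simp [← hI, hb]) (min_le_right _ _)
                calc _ ≤ ∑ y : {r : Fin m // r ∉ B} → Row k,
                      (∏ r, fw (fun _ => (1 / 4 : ℝ)) (x r)) *
                        (if ∀ r, RowEv P v b (y r) then ∏ r, fw (fun _ => (1 / 4 : ℝ)) (y r) else 0) := by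
                      refine sum_le_sum fun y _ => ?_
                      have hx0 : 0 ≤ ∏ r, fw (fun _ => (1 / 4 : ℝ)) (x r) :=
                        prod_nonneg fun r _ => rfw_nonneg _
                      have hy0 : 0 ≤ ∏ r, fw (fun _ => (1 / 4 : ℝ)) (y r) :=
                        prod_nonneg fun r _ => rfw_nonneg _
                      have hw : mwt (e (x, y)) = (∏ r, fw (fun _ => (1 / 4 : ℝ)) (x r)) *
                          ∏ r, fw (fun _ => (1 / 4 : ℝ)) (y r) := by
                        unfold mwt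
                        rw [← Fintype.prod_subtype_mul_prod_subtype (fun r : Fin m => r ∈ B)]
                        refine congrArg₂ (· * ·) ?_ ?_
                        · refine Finset.prod_congr (by ext; simp) fun r _ => ?_
                          rw [hin]
                        · refine Finset.prod_congr (by ext; simp) fun r _ => ?_
                          rw [hou]
                      split_ifs with h1 h2
                      · rw [hw]
                      · refine absurd (fun r => ?_) h2
                        refine ⟨by rw [← hou y r]; exact h1.1 r, fun l => ?_⟩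
                        rw [← hou y r]
                        exact h1.2.2 r r.2 _ (by rw [hW]; exact (hL _ (hbL l)).1)
                      · exact mul_nonneg hx0 hy0
                      · simp
                  _ ≤ _ := by
                      rw [← mul_sum, sum_rows (fun _ => RowEv P v b)]
                      refine mul_le_mul_of_nonneg_left ?_ (prod_nonneg fun r _ => rfw_nonneg _)
                      rw [prod_const, card_univ, hout]
                      exact pow_le_pow_left₀ (rowPr_nonneg _) hone _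
              · refine le_trans (le_of_eq (sum_eq_zero fun y _ => if_neg fun h => hx
                  ⟨fun r => by rw [← hin y r]; exact h.1 r, by rw [← hW y]; exact h.2.1⟩)) ?_
                refine mul_nonneg ?_ (pow_nonneg (mul_nonneg hγ0 hK0) _)
                split
                · exact prod_nonneg fun r _ => rfw_nonneg _
                · exact le_rfl
          _ = (rowPr (1 / 4) (fun x => (P : ℤ) ∣ dot v x)) ^ B.card * (γ * (K / P)) ^ (m - B.card) := by
              rw [← sum_mul, sum_rows (fun _ => fun z : Row k => (P : ℤ) ∣ dot v z), prod_const, card_univ,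
                Fintype.card_coe]
          _ ≤ (K / P) ^ B.card * (γ * (K / P)) ^ (m - B.card) := by
              refine mul_le_mul_of_nonneg_right ?_ (pow_nonneg (mul_nonneg hγ0 hK0) _)
              exact pow_le_pow_left₀ (rowPr_nonneg _) hdvd _
          _ = (K / P) ^ m * γ ^ (m - B.card) := by
              have hBm : B.card ≤ m := by simpa using card_le_univ B
              rw [mul_pow, mul_left_comm, ← pow_add, Nat.add_sub_cancel' hBm, mul_comm]
          _ ≤ (K / P) ^ m * γ ^ (m + d - (k + 1)) := by
              refine mul_le_mul_of_nonneg_left ?_ (pow_nonneg hK0 _)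
              exact pow_le_pow_of_le_one hγ0 hγ1 (by omega)
    _ ≤ _ := by
        rw [sum_const, nsmul_eq_mul, mul_assoc]
        refine mul_le_mul_of_nonneg_right ?_ (mul_nonneg (pow_nonneg hK0 _) (pow_nonneg hγ0 _))
        have : Bs.card ≤ 2 ^ m := by simpa using card_le_univ Bs
        exact_mod_cast this

/-- The sparse vectors with vanishing extra coordinate. -/
def sparseVecs (k σ : ℕ) : Finset (V2 k) :=
  univ.filter fun w => w none = 0 ∧ (univ.filter fun i : Fin k => w (some i) ≠ 0).card ≤ σ

theorem wgt_eq (w : V2 k) : wgt w = (1 / 2) ^ (univ.filter fun i : Fin k => w (some i) ≠ 0).card := by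
  unfold wgt
  rw [prod_ite]
  simp

theorem wgt_nonneg (w : V2 k) : 0 ≤ wgt w := by rw [wgt_eq]; positivity

/-- Extend an independent family inside a subspace. -/
theorem extend_indep (W : Submodule (ZMod 2) (V2 k)) : ∀ (e a : ℕ) (f : Fin a → V2 k),
    LinearIndependent (ZMod 2) f → (∀ l, f l ∈ W) → a + e ≤ Module.finrank (ZMod 2) W →
    ∃ g : Fin (a + e) → V2 k, LinearIndependent (ZMod 2) g ∧ (∀ l, g l ∈ W) ∧
      ∀ l, g (Fin.castAdd e l) = f l := by
  intro e
  induction e with
  | zero => exact fun a f hf hfW _ => ⟨f, hf, hfW, fun l => rfl⟩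
  | succ e ih =>
    intro a f hf hfW hle
    obtain ⟨g, hg, hgW, hgf⟩ := ih a f hf hfW (by omega)
    have hne : ¬ W ≤ Submodule.span (ZMod 2) (Set.range g) := by
      intro h
      have h1 := Submodule.finrank_mono h
      rw [finrank_span_eq_card hg, Fintype.card_fin] at h1
      omega
    obtain ⟨x, hxW, hx⟩ := SetLike.not_le_iff_exists.1 hne
    refine ⟨Fin.snoc g x, linearIndependent_finSnoc.2 ⟨hg, hx⟩, ?_, ?_⟩
    · intro l
      induction l using Fin.lastCases with
      | last => simpa using hxW
      | cast l => simpa using hgW l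
    · intro l
      rw [← hgf l]
      exact Fin.snoc_castSucc (α := fun _ => V2 k) x g (Fin.castAdd e l)

/-- Admissible tuples: `r` sparse vectors first, spanning all sparse vectors of the span. -/
def Adm (v : Fin k → ℤ) (σ c r : ℕ) (b : Fin c → V2 k) : Prop :=
  (∀ l : Fin c, (l : ℕ) < r → b l ∈ sparseVecs k σ) ∧
    LinearIndependent (ZMod 2) (Fin.cons (vbar v) b : Fin (c + 1) → V2 k) ∧
    ∀ w ∈ Submodule.span (ZMod 2) (Set.range (Fin.cons (vbar v) b : Fin (c + 1) → V2 k)),
      w ∈ sparseVecs k σ → w ∈ Submodule.span (ZMod 2) (b '' {l | (l : ℕ) < r})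

theorem exists_adm (P : ℕ) (hP : 2 ∣ P) (v : Fin k → ℤ) (σ c : ℕ)
    (hdense : (c + 1) * σ < (univ.filter fun i : Fin k => (v i : ZMod 2) ≠ 0).card)
    (R : Fin m → Row k) (hR : ∀ r, (P : ℤ) ∣ dot v (R r))
    (hfin : Module.finrank (ZMod 2) (kerW P v R) = c + 1) :
    ∃ r, r < c + 1 ∧ ∃ b, Adm v σ c r b ∧ ∀ i, RowEv P v b (R i) := by
  classical
  set Sp := sparseVecs k σ with hSp
  set W := kerW P v R with hW
  have hvW : vbar v ∈ W := vbar_mem_kerW hP hR
  obtain ⟨s, hsSp, hspan, hli⟩ := exists_linearIndependent (ZMod 2) {w | w ∈ W ∧ w ∈ Sp}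
  have : Fintype s := Fintype.ofFinite s
  set r := Fintype.card s with hr
  have hrle : r ≤ c + 1 := by
    have h1 : Submodule.span (ZMod 2) s ≤ W := Submodule.span_le.2 fun w hw => (hsSp hw).1
    have h2 := Submodule.finrank_mono h1
    rw [finrank_span_set_eq_card hli, Set.toFinset_card] at h2
    omega
  let f : Fin r → V2 k := fun l => ((Fintype.equivFin s).symm l : V2 k)
  have hfrange : Set.range f = s := by
    ext w
    constructor
    · rintro ⟨l, rfl⟩; exact Subtype.mem _
    · intro hw; exact ⟨Fintype.equivFin s ⟨w, hw⟩, by simp [f]⟩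
  have hfli : LinearIndependent (ZMod 2) f := hli.comp _ (Equiv.injective _)
  have hvnot : vbar v ∉ Submodule.span (ZMod 2) (Set.range f) := by
    intro h
    obtain ⟨μ, hμ⟩ := (Submodule.mem_span_range_iff_exists_fun (ZMod 2)).1 h
    have hsub : (univ.filter fun i : Fin k => (v i : ZMod 2) ≠ 0)
        ⊆ univ.biUnion fun l => univ.filter fun i : Fin k => f l (some i) ≠ 0 := by
      intro i hi
      simp only [mem_filter, mem_univ, true_and] at hi
      simp only [mem_biUnion, mem_univ, mem_filter, true_and]
      by_contra hall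
      push Not at hall
      apply hi
      have := congrFun hμ (some i)
      simp only [vbar, Option.elim_some, Finset.sum_apply, Pi.smul_apply] at this
      rw [← this]
      simp [hall]
    have h2 := (card_le_card hsub).trans card_biUnion_le
    have h3 : ∀ l : Fin r, (univ.filter fun i : Fin k => f l (some i) ≠ 0).card ≤ σ := by
      intro l
      have hm : f l ∈ Sp := (hsSp (by rw [← hfrange]; exact ⟨l, rfl⟩)).2
      simp only [hSp, sparseVecs, mem_filter, mem_univ, true_and] at hm
      exact hm.2
    have h4 : ∑ l : Fin r, (univ.filter fun i : Fin k => f l (some i) ≠ 0).card ≤ r * σ := by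
      simpa using sum_le_card_nsmul univ _ σ fun l _ => h3 l
    have h5 : r * σ ≤ (c + 1) * σ := Nat.mul_le_mul_right σ hrle
    omega
  have hcons : LinearIndependent (ZMod 2) (Fin.cons (vbar v) f : Fin (r + 1) → V2 k) :=
    linearIndependent_finCons.2 ⟨hfli, hvnot⟩
  have hconsW : ∀ l, (Fin.cons (vbar v) f : Fin (r + 1) → V2 k) l ∈ W := by
    intro l
    induction l using Fin.cases with
    | zero => simpa using hvW
    | succ l => simpa using (hsSp (by rw [← hfrange]; exact ⟨l, rfl⟩)).1
  have hrc : r ≤ c := by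
    have h1 : Submodule.span (ZMod 2) (Set.range (Fin.cons (vbar v) f : Fin (r + 1) → V2 k)) ≤ W :=
      Submodule.span_le.2 fun w ⟨l, hl⟩ => hl ▸ hconsW l
    have h2 := Submodule.finrank_mono h1
    rw [finrank_span_eq_card hcons, Fintype.card_fin] at h2
    omega
  obtain ⟨g, hg, hgW, hgf⟩ := extend_indep W (c - r) (r + 1) _ hcons hconsW (by omega)
  have hcast : c + 1 = r + 1 + (c - r) := by omega
  set g' : Fin (c + 1) → V2 k := g ∘ Fin.cast hcast with hg'
  have hg0 : g' 0 = vbar v := by
    rw [hg', Function.comp_apply]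
    have := hgf 0
    rw [Fin.cons_zero] at this
    rw [← this]
    congr 1
  set b : Fin c → V2 k := Fin.tail g' with hb
  have hgb : Fin.cons (vbar v) b = g' := by rw [← hg0, hb, Fin.cons_self_tail]
  have hg'W : ∀ l, g' l ∈ W := fun l => hgW _
  have hbf : ∀ (l : Fin c) (hl : (l : ℕ) < r), b l = f ⟨l, hl⟩ := by
    intro l hl
    have := hgf (Fin.succ ⟨l, hl⟩)
    rw [Fin.cons_succ] at this
    rw [← this, hb, Fin.tail, hg', Function.comp_apply]
    congr 1
  have himg : b '' {l | (l : ℕ) < r} = Set.range f := by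
    ext w
    constructor
    · rintro ⟨l, hl, rfl⟩; exact ⟨⟨l, hl⟩, (hbf l hl).symm⟩
    · rintro ⟨l, rfl⟩
      exact ⟨⟨l, by omega⟩, l.2, hbf ⟨l, by omega⟩ l.2⟩
  refine ⟨r, by omega, b, ?_, fun i => ⟨hR i, fun l => ?_⟩⟩
  · refine ⟨fun l hl => ?_, ?_, ?_⟩
    · rw [hbf l hl]
      exact (hsSp (by rw [← hfrange]; exact ⟨_, rfl⟩)).2
    · rw [hgb]; exact hg.comp _ (Fin.cast_injective _)
    · intro w hw hwSp
      rw [himg, hfrange, hspan]
      refine Submodule.subset_span ⟨?_, hwSp⟩
      have : Submodule.span (ZMod 2) (Set.range (Fin.cons (vbar v) b : Fin (c + 1) → V2 k)) ≤ W := by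
        rw [hgb]; exact Submodule.span_le.2 fun w ⟨l, hl⟩ => hl ▸ hg'W l
      exact this hw
  · exact (hg'W (Fin.succ l)) i

theorem adm_bound (P : ℕ) [NeZero P] (hP : 2 ∣ P) (v : Fin k → ℤ) (δ : ℝ)
    (hδ : (P : ℝ) * atomS (1 / 16) P v univ - 1 ≤ δ) (σ c r : ℕ) (b : Fin c → V2 k)
    (hb : Adm v σ c r b) :
    rowPr (1 / 4) (RowEv P v b)
      ≤ (((3 / 2) ^ r + 2 ^ (c + 1) * (1 / 2) ^ σ) / 2 ^ c + 2 * δ) / P := by
  classical
  have hP' : (0 : ℝ) < P := by exact_mod_cast Nat.pos_of_ne_zero (NeZero.ne P)
  set Sp := sparseVecs k σ with hSp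
  obtain ⟨hb1, hli, hspan⟩ := hb
  rw [le_div_iff₀ hP', mul_comm]
  refine (rowEv_sharp P hP v b).trans ?_
  gcongr
  set L := Submodule.span (ZMod 2) (b '' {l | (l : ℕ) < r}) with hL
  have hLnone : ∀ y ∈ L, y none = 0 := by
    intro y hy
    induction hy using Submodule.span_induction with
    | mem y hy =>
      obtain ⟨l, hl, rfl⟩ := hy
      have hm := hb1 l hl
      simp only [sparseVecs, mem_filter, mem_univ, true_and] at hm
      exact hm.1
    | zero => rfl
    | add x y _ _ hx hy => simp [hx, hy]
    | smul a x _ hx => simp [hx]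
  have hLrank : Module.finrank (ZMod 2) L ≤ r := by
    refine (finrank_span_le_card _).trans ?_
    rw [Set.toFinset_card]
    calc Fintype.card (b '' {l : Fin c | (l : ℕ) < r}) ≤ Fintype.card {l : Fin c | (l : ℕ) < r} :=
          Fintype.card_le_of_surjective (fun l => ⟨b l, Set.mem_image_of_mem b l.2⟩)
            (by rintro ⟨_, l, hl, rfl⟩; exact ⟨⟨l, hl⟩, rfl⟩)
      _ ≤ Fintype.card (Fin r) :=
          Fintype.card_le_of_injective (fun l => (⟨(l : Fin c), l.2⟩ : Fin r))
            (fun x y h => by
              have := congrArg Fin.val h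
              exact Subtype.ext (Fin.ext this))
      _ = r := Fintype.card_fin r
  have hcomb : ∀ μ : ZMod 2 × (Fin c → ZMod 2),
      lowVec v b μ = ∑ l, (Fin.cons μ.1 μ.2 : Fin (c + 1) → ZMod 2) l •
        (Fin.cons (vbar v) b : Fin (c + 1) → V2 k) l := by
    intro μ; funext o
    simp [lowVec, vbar, Fin.sum_univ_succ, Finset.sum_apply]
  have hinj : Function.Injective (lowVec v b) := by
    intro μ ν h
    rw [hcomb, hcomb] at h
    have h2 := Fintype.linearIndependent_iff.1 hli
      (fun l => (Fin.cons μ.1 μ.2 : Fin (c + 1) → ZMod 2) l - (Fin.cons ν.1 ν.2 : Fin (c + 1) → ZMod 2) l)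
      (by simp [sub_smul, sum_sub_distrib, h])
    refine Prod.ext ?_ (funext fun l => ?_)
    · simpa [sub_eq_zero] using h2 0
    · simpa [sub_eq_zero] using h2 l.succ
  calc (∑ μ : ZMod 2 × (Fin c → ZMod 2),
        if lowVec v b μ none = 0 then wgt (lowVec v b μ) else 0)
      ≤ ∑ μ : ZMod 2 × (Fin c → ZMod 2),
        ((if lowVec v b μ ∈ L then wgt (lowVec v b μ) else 0) + (1 / 2) ^ σ) := by
        refine sum_le_sum fun μ _ => ?_
        have hp : (0 : ℝ) ≤ (1 / 2) ^ σ := by positivity
        have hw := wgt_nonneg (lowVec v b μ)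
        split_ifs with h1 h2 h3
        · linarith
        · rw [zero_add, wgt_eq]
          refine pow_le_pow_of_le_one (by norm_num) (by norm_num) ?_
          by_contra hlt
          refine h2 (hspan _ ?_ ?_)
          · rw [hcomb]
            exact sum_mem fun l _ => Submodule.smul_mem _ _ (Submodule.subset_span ⟨l, rfl⟩)
          · simp only [sparseVecs, mem_filter, mem_univ, true_and]
            exact ⟨h1, by omega⟩
        · linarith
        · linarith
    _ ≤ (3 / 2) ^ r + 2 ^ (c + 1) * (1 / 2) ^ σ := by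
        rw [sum_add_distrib, sum_const, nsmul_eq_mul]
        refine add_le_add ?_ (le_of_eq ?_)
        · rw [← sum_filter, ← sum_image (f := wgt) fun x _ y _ h => hinj h]
          refine le_trans (sum_le_sum_of_subset_of_nonneg (t := univ.filter (· ∈ L)) ?_
            fun y _ _ => wgt_nonneg y) ?_
          · intro y hy
            obtain ⟨μ, hμ, rfl⟩ := mem_image.1 hy
            simpa using (mem_filter.1 hμ).2
          · refine (sum_wgt_le L hLnone).trans ?_
            exact pow_le_pow_right₀ (by norm_num) hLrank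
        · simp [pow_succ]
          ring

/-- Union bound for small kernels. -/
theorem dSum_small_le (P : ℕ) [NeZero P] (hP : 2 ∣ P) (v : Fin k → ℤ) (δ : ℝ)
    (hδ : (P : ℝ) * atomS (1 / 16) P v univ - 1 ≤ δ) (σ d : ℕ) (hd : 1 ≤ d)
    (hdense : d * σ < (univ.filter fun i : Fin k => (v i : ZMod 2) ≠ 0).card) :
    dSum P v m d ≤ ∑ r ∈ range d, (((sparseVecs k σ).card : ℝ) ^ r * (2 ^ (k + 1)) ^ (d - 1 - r)) *
      ((((3 / 2) ^ r + 2 ^ d * (1 / 2) ^ σ) / 2 ^ (d - 1) + 2 * δ) / P) ^ m := by
  classical
  obtain ⟨c, rfl⟩ : ∃ c, d = c + 1 := ⟨d - 1, by omega⟩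
  simp only [Nat.add_sub_cancel]
  have hP' : (0 : ℝ) < P := by exact_mod_cast Nat.pos_of_ne_zero (NeZero.ne P)
  set Sp := sparseVecs k σ with hSp
  set T : ℕ → Finset (Fin c → V2 k) := fun r =>
    (Fintype.piFinset fun l : Fin c => if (l : ℕ) < r then Sp else univ).filter (Adm v σ c r) with hT
  have hcardT : ∀ r ∈ range (c + 1), ((T r).card : ℝ) ≤ (Sp.card : ℝ) ^ r * (2 ^ (k + 1)) ^ (c - r) := by
    intro r hr
    rw [mem_range] at hr
    have h1 : (T r).card ≤ (Fintype.piFinset fun l : Fin c => if (l : ℕ) < r then Sp else univ).card :=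
      card_filter_le _ _
    rw [Fintype.card_piFinset] at h1
    simp only [apply_ite card] at h1
    rw [prod_ite, prod_const, prod_const] at h1
    have h2 : ((univ : Finset (Fin c)).filter fun l : Fin c => (l : ℕ) < r).card = r := by
      rw [Fin.card_filter_val_lt]; omega
    have h3 : ((univ : Finset (Fin c)).filter fun l : Fin c => ¬ (l : ℕ) < r).card = c - r := by
      have := card_filter_add_card_filter_not (s := (univ : Finset (Fin c))) (fun l : Fin c => (l : ℕ) < r)
      rw [h2, card_univ, Fintype.card_fin] at this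
      omega
    rw [h2, h3] at h1
    simp only [card_univ, Fintype.card_fun, ZMod.card, Fintype.card_option, Fintype.card_fin] at h1
    exact_mod_cast h1
  calc dSum P v m (c + 1)
      ≤ ∑ R : Fin m → Row k, ∑ r ∈ range (c + 1), ∑ b ∈ T r,
          (if ∀ i, RowEv P v b (R i) then mwt R else 0) := by
        refine sum_le_sum fun R _ => ?_
        have hnn : ∀ r, ∀ b ∈ T r, 0 ≤ (if ∀ i, RowEv P v b (R i) then mwt R else 0) := fun r b _ => by
          split
          · exact mwt_nonneg R
          · exact le_rfl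
        split_ifs with h
        · obtain ⟨r, hr', b, hadm, hev⟩ := exists_adm P hP v σ c hdense R h.1 h.2
          have hr : r ∈ range (c + 1) := mem_range.2 hr'
          have hb : b ∈ T r := by
            simp only [hT, mem_filter, Fintype.mem_piFinset]
            refine ⟨fun l => ?_, hadm⟩
            split
            · next hl => exact hadm.1 l hl
            · exact mem_univ _
          refine le_trans ?_ (single_le_sum (fun r _ => sum_nonneg (hnn r)) hr)
          refine le_trans ?_ (single_le_sum (hnn r) hb)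
          rw [if_pos hev]
        · exact sum_nonneg fun r _ => sum_nonneg (hnn r)
    _ = ∑ r ∈ range (c + 1), ∑ b ∈ T r, ∏ _i : Fin m, rowPr (1 / 4) (RowEv P v b) := by
        rw [sum_comm]
        refine sum_congr rfl fun r _ => ?_
        rw [sum_comm]
        exact sum_congr rfl fun b _ => sum_rows (fun _ => RowEv P v b)
    _ ≤ _ := by
        refine sum_le_sum fun r hr => ?_
        set X := (((3 / 2 : ℝ) ^ r + 2 ^ (c + 1) * (1 / 2) ^ σ) / 2 ^ c + 2 * δ) / P with hX
        calc ∑ b ∈ T r, ∏ _i : Fin m, rowPr (1 / 4) (RowEv P v b) ≤ ∑ b ∈ T r, X ^ m := by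
              refine sum_le_sum fun b hb => ?_
              rw [prod_const, card_univ, Fintype.card_fin]
              exact pow_le_pow_left₀ (rowPr_nonneg _) (adm_bound P hP v δ hδ σ c r b (mem_filter.1 hb).2) _
          _ = ((T r).card : ℝ) * X ^ m := by rw [sum_const, nsmul_eq_mul]
          _ ≤ _ := by
              rcases (T r).eq_empty_or_nonempty with he | ⟨b, hb⟩
              · rw [he]
                have hδ2 : (2 : ℝ) ^ 0 = 1 := pow_zero 2
                have hX0 : 0 ≤ X := by
                  have hle0 : -1 ≤ δ := le_trans (by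
                    have : 0 ≤ (P : ℝ) * atomS (1 / 16) P v univ := mul_nonneg hP'.le
                      (sum_nonneg fun x _ => by
                        split
                        · exact fw_nonneg (fun _ => by norm_num) (fun _ => by norm_num) x
                        · exact le_rfl)
                    linarith) hδ
                  have hδ0 : 0 ≤ δ := by
                    refine le_trans ?_ hδ
                    have := card_mul_pr_zero (fun _ : Fin k => (1 / 16 : ℝ))
                      (fun i => if i ∈ (univ : Finset (Fin k)) then (v i : ZMod P) else 0)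
                    rw [ZMod.card] at this
                    rw [atomS, this, ← add_sum_erase _ _ (mem_univ (0 : AddChar (ZMod P) ℂ))]
                    have : 0 ≤ ∑ χ ∈ univ.erase (0 : AddChar (ZMod P) ℂ),
                        ∏ i : Fin k, phi (1 / 16) (χ (if i ∈ (univ : Finset (Fin k)) then (v i : ZMod P) else 0)) :=
                      sum_nonneg fun χ _ => prod_nonneg fun i _ =>
                        phi_nonneg (by norm_num) (by norm_num) (neg_one_le_re χ _)
                    simp only [AddChar.zero_apply, phi, Complex.one_re] at this ⊢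
                    norm_num at this ⊢
                    linarith
                  positivity
                simp only [card_empty, Nat.cast_zero, zero_mul]
                positivity
              · refine mul_le_mul_of_nonneg_right (hcardT r hr) (pow_nonneg ?_ _)
                exact le_trans (rowPr_nonneg _) (adm_bound P hP v δ hδ σ c r b (mem_filter.1 hb).2)

end

end Vale.Agent.P160.Rate
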