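import Vale.Agent.P160.Rate.Transfer
import Vale.Agent.P160.Rate.Moment

/-!
Reduction of singularity to first moments over null vectors modulo powers of two.
-/

namespace Vale.Agent.P160.Rate

open Finset Matrix

set_option linter.unusedSectionVars false

noncomputable section

variable {ι : Type*} [Fintype ι] [DecidableEq ι]

open Classical in
/-- The proportion of binary labellings of the edges with a property. -/
def fq (p : (Sym2 ι → Bool) → Prop) : ℝ :=
  (∑ b : Sym2 ι → Bool, if p b then (1 : ℝ) else 0) / 2 ^ Fintype.card (Sym2 ι)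

theorem fq_nonneg (p : (Sym2 ι → Bool) → Prop) : 0 ≤ fq p :=
  div_nonneg (sum_nonneg fun b _ => by split <;> norm_num) (by positivity)

theorem fq_mono {p q : (Sym2 ι → Bool) → Prop} (h : ∀ b, p b → q b) : fq p ≤ fq q := by
  unfold fq
  gcongr with b
  by_cases hp : p b
  · simp [hp, h b hp]
  · rw [if_neg hp]; split <;> norm_num

theorem fq_or (p q : (Sym2 ι → Bool) → Prop) : fq (fun b => p b ∨ q b) ≤ fq p + fq q := by
  unfold fq
  rw [← add_div, ← sum_add_distrib]
  gcongr with b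
  by_cases hp : p b <;> by_cases hq : q b <;> simp [hp, hq]

theorem fq_exists {α : Type*} (s : Finset α) (p : α → (Sym2 ι → Bool) → Prop) :
    fq (fun b => ∃ a ∈ s, p a b) ≤ ∑ a ∈ s, fq (p a) := by
  classical
  induction s using Finset.induction with
  | empty => simp [fq]
  | insert a s ha ih =>
    rw [sum_insert ha]
    refine le_trans (fq_mono (q := fun b => p a b ∨ ∃ x ∈ s, p x b) fun b ⟨x, hx, hp⟩ => ?_)
      ((fq_or _ _).trans (by linarith))
    rcases mem_insert.1 hx with rfl | hx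
    · exact Or.inl hp
    · exact Or.inr ⟨x, hx, hp⟩

/-- The binary matrix of a labelling. -/
def cMat (b : Sym2 ι → Bool) : Matrix ι ι ℤ := fun i j => if b s(i, j) then 1 else 0

theorem cMat_mulVec (b : Sym2 ι → Bool) (z : ι → ℤ) (i : ι) :
    (cMat b *ᵥ z) i = ∑ e : Sym2 ι, if b e then ev z e i else 0 := by
  classical
  have h1 : ∀ e : Sym2 ι, (if b e then ev z e i else 0)
      = if i ∈ e then (if b e then ev z e i else 0) else 0 := by
    intro e
    by_cases he : i ∈ e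
    · rw [if_pos he]
    · rw [if_neg he]; simp [ev, he]
  rw [sum_congr rfl fun e _ => h1 e, ← sum_filter]
  refine (sum_bij (fun j _ => s(i, j)) (by simp) (fun a _ a' _ h => Sym2.congr_right.1 h) ?_ ?_)
  · intro e he
    simp only [mem_filter, mem_univ, true_and] at he
    exact ⟨Sym2.Mem.other' he, mem_univ _, Sym2.other_spec' he⟩
  · intro j _
    simp only [cMat, ev_mk, if_true]
    split <;> simp

theorem quad_eq (b : Sym2 ι → Bool) (z : ι → ℤ) :
    z ⬝ᵥ (cMat b *ᵥ z) = ∑ e : Sym2 ι, if b e then qv z e else 0 := by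
  simp only [dotProduct, cMat_mulVec, mul_sum, mul_ite, mul_zero]
  rw [sum_comm]
  refine sum_congr rfl fun e _ => ?_
  by_cases he : b e <;> simp [he, qv]

theorem cMat_transpose (b : Sym2 ι → Bool) : (cMat b)ᵀ = cMat b := by
  ext i j
  simp [cMat, Sym2.eq_swap]

/-- `z` is a null vector of the sign matrix `J - 2C`. -/
def IsNull (b : Sym2 ι → Bool) (z : ι → ℤ) : Prop := ∀ i, 2 * (cMat b *ᵥ z) i = ∑ j, z j

theorem IsNull.smul {b : Sym2 ι → Bool} {z : ι → ℤ} (h : IsNull b z) (a : ℤ) : IsNull b (a • z) := by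
  intro i
  rw [Matrix.mulVec_smul]
  simp only [Pi.smul_apply, smul_eq_mul, ← mul_sum]
  rw [mul_left_comm, h i]

/-- Half the coordinate sum of representatives. -/
def half (z : ι → ℤ) : ℤ := (∑ i, z i) / 2

theorem null_mod_linear [Nonempty ι] {b : Sym2 ι → Bool} {z z₀ u : ι → ℤ} (P' : ℕ) (h : IsNull b z)
    (hz : z = z₀ + (2 * (P' : ℤ)) • u) (i : ι) :
    ((∑ e : Sym2 ι, if b e then ev z₀ e i else 0 : ℤ) : ZMod P') = ((half z₀ : ℤ) : ZMod P') := by
  have hi := h i
  rw [hz, Matrix.mulVec_add, Matrix.mulVec_smul] at hi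
  simp only [Pi.add_apply, Pi.smul_apply, smul_eq_mul, sum_add_distrib, ← mul_sum] at hi
  rw [← cMat_mulVec]
  have hhalf : half z₀ = (cMat b *ᵥ z₀) i + (P' : ℤ) * (2 * (cMat b *ᵥ u) i - ∑ j, u j) := by
    unfold half
    rw [show ∑ j, z₀ j = 2 * ((cMat b *ᵥ z₀) i + (P' : ℤ) * (2 * (cMat b *ᵥ u) i - ∑ j, u j)) by linarith,
      Int.mul_ediv_cancel_left _ two_ne_zero]
  rw [hhalf]
  simp

theorem null_mod_quad [Nonempty ι] {b : Sym2 ι → Bool} {z z₀ u : ι → ℤ} (Q : ℕ) (h : IsNull b z)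
    (hz : z = z₀ + (2 * (Q : ℤ)) • u) :
    ∃ q : Bool, (∀ i, ((∑ e : Sym2 ι, if b e then ev z₀ e i else 0 : ℤ) : ZMod (2 * Q))
        = ((half z₀ + (if q then (Q : ℤ) else 0) : ℤ) : ZMod (2 * Q))) ∧
      ((∑ e : Sym2 ι, if b e then qv z₀ e else 0 : ℤ) : ZMod (2 * Q * (2 * Q) / 2))
        = ((2 * half z₀ ^ 2 : ℤ) : ZMod (2 * Q * (2 * Q) / 2)) := by
  set U := ∑ j, u j with hU
  set W := cMat b *ᵥ z₀ with hW
  set Wu := cMat b *ᵥ u with hWu
  have hi : ∀ i, ∑ j, z₀ j = 2 * (W i + (Q : ℤ) * (2 * Wu i - U)) := by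
    intro i
    have hi := h i
    rw [hz, Matrix.mulVec_add, Matrix.mulVec_smul] at hi
    simp only [Pi.add_apply, Pi.smul_apply, smul_eq_mul, sum_add_distrib, ← mul_sum] at hi
    linarith
  have hs : ∑ j, z₀ j = 2 * half z₀ := by
    obtain ⟨i⟩ := ‹Nonempty ι›
    unfold half
    rw [hi i, Int.mul_ediv_cancel_left _ two_ne_zero]
  have hWi : ∀ i, W i = half z₀ + (Q : ℤ) * U - 2 * (Q : ℤ) * Wu i := fun i => by
    have := hi i; rw [hs] at this; linarith
  refine ⟨decide (U % 2 = 1), fun i => ?_, ?_⟩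
  · rw [← cMat_mulVec, ← hW, hWi i, ZMod.intCast_eq_intCast_iff_dvd_sub]
    rcases Int.even_or_odd U with ⟨e, he⟩ | ⟨e, he⟩
    · rw [decide_eq_false (by omega)]
      exact ⟨Wu i - e, by simp [he]; ring⟩
    · rw [decide_eq_true (by omega)]
      exact ⟨Wu i - e, by simp [he]; ring⟩
  · rw [← quad_eq, ← hW, ZMod.intCast_eq_intCast_iff_dvd_sub]
    have hsym : z₀ ⬝ᵥ Wu = u ⬝ᵥ W := by
      rw [hWu, hW, Matrix.dotProduct_mulVec, ← Matrix.mulVec_transpose, cMat_transpose, dotProduct_comm]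
    have h1 : z₀ ⬝ᵥ W = (half z₀ + (Q : ℤ) * U) * (2 * half z₀) - 2 * (Q : ℤ) * (u ⬝ᵥ W) := by
      rw [← hsym, ← hs]
      simp only [dotProduct, hWi, mul_sum, sum_mul, ← sum_sub_distrib]
      exact sum_congr rfl fun i _ => by ring
    have h2 : u ⬝ᵥ W = (half z₀ + (Q : ℤ) * U) * U - 2 * (Q : ℤ) * (u ⬝ᵥ Wu) := by
      simp only [dotProduct, hWi, mul_sub, sum_sub_distrib]
      congr 1
      · rw [← sum_mul, ← hU, mul_comm]
      · rw [mul_sum]; exact sum_congr rfl fun i _ => by ring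
    have hdiv : ((2 * Q * (2 * Q) / 2 : ℕ) : ℤ) = 2 * (Q : ℤ) * Q := by
      rw [show 2 * Q * (2 * Q) = 2 * (2 * Q * Q) by ring, Nat.mul_div_cancel_left _ two_pos]
      push_cast; ring
    rw [hdiv]
    refine ⟨U ^ 2 - 2 * (u ⬝ᵥ Wu), ?_⟩
    rw [h1, h2]
    ring

theorem sum_ite_prod {α β : Type*} [AddCommGroup α] [AddCommGroup β] (b : Sym2 ι → Bool)
    (g : Sym2 ι → α × β) :
    (∑ e, if b e then g e else 0)
      = (∑ e, if b e then (g e).1 else 0, ∑ e, if b e then (g e).2 else 0) := by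
  refine Prod.ext ?_ ?_
  · rw [Prod.fst_sum]; exact sum_congr rfl fun e _ => by split <;> rfl
  · rw [Prod.snd_sum]; exact sum_congr rfl fun e _ => by split <;> rfl

theorem gL_sum (P : ℕ) (b : Sym2 ι → Bool) (z : ι → ℤ) (i : ι) :
    (∑ e, if b e then gL P z e else 0) i
      = ((∑ e : Sym2 ι, if b e then ev z e i else 0 : ℤ) : ZMod P) := by
  rw [Finset.sum_apply, Int.cast_sum]
  exact sum_congr rfl fun e _ => by split <;> simp [gL]

theorem fq_sum_le {G : Type*} [AddCommGroup G] [Fintype G] [DecidableEq G] (g g' : Sym2 ι → G)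
    (hg : ∀ e, g' e = g e ∨ g' e = 0) (h : G) :
    fq (fun b => (∑ e, if b e then g e else 0) = h) ≤ pr (fun _ => 1 / 4) g' 0 := by
  refine le_trans (le_of_eq ?_) (bool_pr_le g g' hg h)
  unfold fq
  congr 1
  exact sum_congr rfl fun b _ => by by_cases hb : (∑ e, if b e then g e else 0) = h <;> simp [hb]

variable {m k : ℕ}

/-- Goodness of the block vector at level `i`. -/
def Good (i E₀ c₁ : ℕ) (δ : ℝ) (v : Fin k → ℤ) : Prop :=
  ∀ S : Finset (Fin k), ((univ : Finset (Fin k)) \ S).card ≤ c₁ →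
    highSum (2 ^ i) E₀ (fun c => (v c : ZMod (2 ^ i))) S ≤ δ

/-- The number of odd coordinates. -/
def oddCount (v : Fin k → ℤ) : ℕ := (univ.filter fun c : Fin k => (v c : ZMod 2) ≠ 0).card

theorem good_low (i E₀ c₁ : ℕ) (δ : ℝ) (hδ : 0 ≤ δ) (hi : i ≤ E₀) (v : Fin k → ℤ) :
    Good i E₀ c₁ δ v := by
  intro S _
  have : highSet (2 ^ i) E₀ = ∅ := by
    refine filter_eq_empty_iff.2 fun χ _ h => h ?_
    rw [(CharP.cast_eq_zero_iff (ZMod (2 ^ i)) (2 ^ i) (2 ^ E₀)).2 (pow_dvd_pow 2 hi), AddChar.map_zero_eq_one]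
  simp [highSum, this, hδ]

theorem good_congr {i E₀ c₁ : ℕ} {δ : ℝ} {v w : Fin k → ℤ}
    (h : ∀ c, (v c : ZMod (2 ^ i)) = (w c : ZMod (2 ^ i))) : Good i E₀ c₁ δ v ↔ Good i E₀ c₁ δ w := by
  unfold Good
  rw [funext h]

theorem odd_congr {i : ℕ} (hi : 1 ≤ i) {v w : Fin k → ℤ}
    (h : ∀ c, (v c : ZMod (2 ^ i)) = (w c : ZMod (2 ^ i))) : oddCount v = oddCount w := by
  have h2 : ∀ c, (v c : ZMod 2) = (w c : ZMod 2) := by
    intro c
    have := congrArg (ZMod.castHom (dvd_pow_self 2 (by omega : i ≠ 0)) (ZMod 2)) (h c)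
    simpa using this
  unfold oddCount
  simp only [h2]

/-- Representatives. -/
def rep {P : ℕ} {α : Type*} (w : α → ZMod P) : α → ℤ := fun a => ((w a).val : ℤ)

theorem exists_split (P : ℕ) [NeZero P] {α : Type*} (z : α → ℤ) :
    ∃ u : α → ℤ, z = rep (fun a => (z a : ZMod P)) + (P : ℤ) • u := by
  refine ⟨fun a => z a / (P : ℤ), funext fun a => ?_⟩
  simp only [rep, Pi.add_apply, Pi.smul_apply, smul_eq_mul]
  rw [ZMod.val_intCast]
  exact (Int.emod_add_mul_ediv _ _).symm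

/-- A null vector with many odd coordinates in the block. -/
def Wnd (u : ℕ) (b : Sym2 (Fin m ⊕ Fin k) → Bool) : Prop :=
  ∃ z, IsNull b z ∧ u ≤ oddCount (fun c => z (Sum.inr c))

/-- A null vector whose block is bad for the first time at level `i`. -/
def BadEv (i E₀ c₁ u : ℕ) (δ : ℝ) (b : Sym2 (Fin m ⊕ Fin k) → Bool) : Prop :=
  ∃ z, IsNull b z ∧ u ≤ oddCount (fun c => z (Sum.inr c)) ∧
    ¬ Good i E₀ c₁ δ (fun c => z (Sum.inr c)) ∧ Good (i - 1) E₀ c₁ δ (fun c => z (Sum.inr c))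

theorem wnd_split (j E₀ c₁ u : ℕ) (δ : ℝ) (hδ : 0 ≤ δ) (b : Sym2 (Fin m ⊕ Fin k) → Bool)
    (h : ¬ ∃ i ∈ Icc (E₀ + 1) j, BadEv i E₀ c₁ u δ b) (z : Fin m ⊕ Fin k → ℤ) (hz : IsNull b z)
    (hu : u ≤ oddCount (fun c => z (Sum.inr c))) :
    ∀ i ≤ j, Good i E₀ c₁ δ (fun c => z (Sum.inr c)) := by
  intro i
  induction i with
  | zero => exact fun _ => good_low 0 E₀ c₁ δ hδ (Nat.zero_le _) _
  | succ i ih =>
    intro hij
    by_cases hlow : i + 1 ≤ E₀
    · exact good_low _ E₀ c₁ δ hδ hlow _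
    · by_contra hbad
      exact h ⟨i + 1, mem_Icc.2 ⟨by omega, hij⟩, z, hz, hu, hbad, by simpa using ih (by omega)⟩

open Classical in
theorem fq_bad_le (i₁ E₀ c₁ u : ℕ) (δ Kk : ℝ) (hk : 1 ≤ k) (hKk : 0 ≤ Kk)
    (hkey : ∀ v : Fin k → ℤ, u ≤ oddCount v → Good i₁ E₀ c₁ δ v →
      kSum (2 ^ i₁) v m ≤ Kk * (2 : ℝ) ^ i₁ / ((2 : ℝ) ^ i₁) ^ m) :
    fq (BadEv (m := m) (k := k) (i₁ + 1) E₀ c₁ u δ) ≤
      ((univ.filter fun w : Fin k → ZMod (2 * 2 ^ i₁) => ¬ Good (i₁ + 1) E₀ c₁ δ (rep w)).card : ℝ)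
        * (2 ^ m * Kk * (2 : ℝ) ^ i₁ / ((2 : ℝ) ^ i₁) ^ k) := by
  classical
  haveI : Nonempty (Fin m ⊕ Fin k) := ⟨Sum.inr ⟨0, hk⟩⟩
  set P' := 2 ^ i₁ with hP'
  have hPP : 2 ^ (i₁ + 1) = 2 * P' := by rw [hP', pow_succ]; ring
  set Bd := univ.filter fun w : Fin k → ZMod (2 * P') =>
    ¬ Good (i₁ + 1) E₀ c₁ δ (rep w) ∧ Good i₁ E₀ c₁ δ (rep w) ∧ u ≤ oddCount (rep w) with hBd
  have hev : ∀ b, BadEv (m := m) (k := k) (i₁ + 1) E₀ c₁ u δ b → ∃ p ∈ (univ : Finset (Fin m → ZMod (2 * P'))) ×ˢ Bd,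
      (∑ e, if b e then gL P' (joinVec (rep p.2) p.1) e else 0)
        = fun _ => ((half (joinVec (rep p.2) p.1) : ℤ) : ZMod P') := by
    rintro b ⟨z, hz, hu, hbad, hgood⟩
    obtain ⟨w, hw⟩ := exists_split (2 * P') z
    have hcast : ∀ c, ((rep (fun c => (z (Sum.inr c) : ZMod (2 * P'))) c : ℤ) : ZMod (2 * P')) = (z (Sum.inr c) : ZMod (2 * P')) := by
      intro c
      rw [rep, Int.cast_natCast, ZMod.natCast_zmod_val]
    have hc1 : ∀ c, ((rep (fun c => (z (Sum.inr c) : ZMod (2 * P'))) c : ℤ) : ZMod (2 ^ (i₁ + 1))) = (z (Sum.inr c) : ZMod (2 ^ (i₁ + 1))) := by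
      rw [hPP]; exact hcast
    have hc0 : ∀ c, ((rep (fun c => (z (Sum.inr c) : ZMod (2 * P'))) c : ℤ) : ZMod (2 ^ i₁)) = (z (Sum.inr c) : ZMod (2 ^ i₁)) := by
      intro c
      have := congrArg (ZMod.castHom (dvd_mul_left P' 2) (ZMod P')) (hcast c)
      simpa using this
    refine ⟨(fun r => (z (Sum.inl r) : ZMod (2 * P')), fun c => (z (Sum.inr c) : ZMod (2 * P'))), ?_, ?_⟩
    · simp only [mem_product, mem_univ, true_and, hBd, mem_filter]
      refine ⟨?_, ?_, ?_⟩
      · rwa [good_congr hc1]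
      · rw [good_congr hc0]; simpa using hgood
      · rwa [odd_congr (by omega) hc1]
    · have hjoin : joinVec (rep (fun c => (z (Sum.inr c) : ZMod (2 * P')))) (fun r => (z (Sum.inl r) : ZMod (2 * P')))
          = rep (fun a => (z a : ZMod (2 * P'))) := by
        funext a; cases a <;> simp [joinVec, rep]
      rw [hjoin]
      funext a
      rw [gL_sum]
      refine null_mod_linear (u := w) P' hz ?_ a
      simpa using hw
  refine (fq_mono hev).trans ((fq_exists _ _).trans ?_)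
  rw [sum_product, sum_comm]
  have hbound : ∀ w ∈ Bd, ∑ z : Fin m → ZMod (2 * P'),
      fq (fun b => (∑ e, if b e then gL P' (joinVec (rep w) z) e else 0)
        = fun _ => ((half (joinVec (rep w) z) : ℤ) : ZMod P'))
      ≤ 2 ^ m * Kk * (2 : ℝ) ^ i₁ / ((2 : ℝ) ^ i₁) ^ k := by
    intro w hw
    simp only [hBd, mem_filter, mem_univ, true_and] at hw
    refine (sum_le_sum fun z _ => fq_sum_le _
      (fun e => if e ∈ univ.map (jkEdge (m := m) (k := k)) then gL P' (joinVec (rep w) z) e else 0)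
      (fun e => by split <;> simp) _).trans ?_
    refine (sum_pr_linear_le P' (rep w)).trans ?_
    have hk' := hkey (rep w) hw.2.2 hw.2.1
    refine (mul_le_mul_of_nonneg_left hk' (by positivity)).trans (le_of_eq ?_)
    rw [hP']; push_cast
    field_simp
  refine (sum_le_card_nsmul _ _ _ hbound).trans ?_
  rw [nsmul_eq_mul]
  refine mul_le_mul_of_nonneg_right ?_ (by positivity)
  have : Bd.card ≤ (univ.filter fun w : Fin k → ZMod (2 * P') => ¬ Good (i₁ + 1) E₀ c₁ δ (rep w)).card := by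
    exact card_le_card fun w hw => by
      simp only [hBd, mem_filter, mem_univ, true_and] at hw ⊢
      exact hw.1
  exact_mod_cast this

theorem star_le (P : ℕ) [NeZero P] (v : Fin k → ℤ) (i₀ : Fin k) :
    pr (fun _ => 1 / 4) (fun b : {b : Fin k // b ≠ i₀} => (v b.1 : ZMod P)) 0
      ≤ atomS (1 / 16) P v (univ.erase i₀) := by
  have hc : (0 : ℝ) < Fintype.card (ZMod P) := by exact_mod_cast Fintype.card_pos
  refine le_of_mul_le_mul_left ?_ hc
  rw [card_mul_pr_zero, atomS, card_mul_pr_zero]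
  refine sum_le_sum fun χ _ => ?_
  rw [← Finset.prod_subtype (univ.erase i₀) (by simp) (fun c => phi (1 / 4) (χ (v c : ZMod P))),
    ← prod_subset (subset_univ (univ.erase i₀)) (f := fun c =>
      phi (1 / 16) (χ (if c ∈ univ.erase i₀ then (v c : ZMod P) else 0)))]
  · refine prod_le_prod (fun c _ => phi_nonneg (by norm_num) (by norm_num) (neg_one_le_re χ _)) fun c hc => ?_
    rw [if_pos hc]
    exact phi_mono (by norm_num) (re_le_one χ _)
  · intro c _ hc
    rw [if_neg hc, AddChar.map_zero_eq_one]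
    simp [phi]

theorem fq_wnd_le (j' E₀ c₁ u : ℕ) (δ Kk Kh : ℝ) (hδ : 0 ≤ δ) (hu : 1 ≤ u) (hc₁ : 1 ≤ c₁)
    (hKk : 0 ≤ Kk) (hKh : 0 ≤ Kh)
    (hatom : ∀ (v : Fin k → ℤ) (S : Finset (Fin k)), Good (j' + 1) E₀ c₁ δ v →
      ((univ : Finset (Fin k)) \ S).card ≤ c₁ →
      ((2 ^ (j' + 1) : ℕ) : ℝ) * atomS (1 / 16) (2 ^ (j' + 1)) v S ≤ Kh)
    (hkey : ∀ v : Fin k → ℤ, u ≤ oddCount v → Good (j' + 1) E₀ c₁ δ v →
      kSum (2 ^ (j' + 1)) v m ≤ Kk * (2 : ℝ) ^ (j' + 1) / ((2 : ℝ) ^ (j' + 1)) ^ m) :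
    fq (Wnd (m := m) (k := k) u) ≤
      (∑ i ∈ Icc (E₀ + 1) (j' + 1), fq (BadEv (m := m) (k := k) i E₀ c₁ u δ))
        + 32 * Kh * Kk / ((2 : ℝ) ^ (j' + 1)) ^ 2 := by
  classical
  set j := j' + 1 with hj
  set Q := 2 ^ j' with hQ
  have hPQ : 2 ^ j = 2 * Q := by rw [hQ, hj, pow_succ]; ring
  set P := 2 ^ j with hP
  haveI : NeZero (P * P / 2) := neZero_half j'
  set Gd := univ.filter fun w : Fin k → ZMod P => Good j E₀ c₁ δ (rep w) ∧ u ≤ oddCount (rep w) with hGd
  set Ev : (Fin m → ZMod P) × (Fin k → ZMod P) → Bool → (Sym2 (Fin m ⊕ Fin k) → Bool) → Prop :=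
    fun p q b => (∑ e, if b e then gQ P (joinVec (rep p.2) p.1) e else 0)
      = ((fun _ => ((half (joinVec (rep p.2) p.1) + (if q then (Q : ℤ) else 0) : ℤ) : ZMod P)),
        ((2 * half (joinVec (rep p.2) p.1) ^ 2 : ℤ) : ZMod (P * P / 2))) with hEv
  set MainEv := fun b => Wnd (m := m) (k := k) u b ∧ ¬ ∃ i ∈ Icc (E₀ + 1) j, BadEv i E₀ c₁ u δ b
  have hsplit : fq (Wnd (m := m) (k := k) u) ≤
      (∑ i ∈ Icc (E₀ + 1) j, fq (BadEv (m := m) (k := k) i E₀ c₁ u δ)) + fq MainEv := by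
    refine le_trans (fq_mono (q := fun b => (∃ i ∈ Icc (E₀ + 1) j, BadEv i E₀ c₁ u δ b) ∨ MainEv b)
      fun b hb => ?_) ((fq_or _ _).trans (add_le_add (fq_exists _ _) le_rfl))
    by_cases h : ∃ i ∈ Icc (E₀ + 1) j, BadEv i E₀ c₁ u δ b
    · exact Or.inl h
    · exact Or.inr ⟨hb, h⟩
  refine hsplit.trans (add_le_add le_rfl ?_)
  set S := (univ : Finset (Fin m → ZMod P)) ×ˢ Gd
  have hmany : ∀ b, MainEv b → (Q : ℝ) ≤ ∑ p ∈ S, ∑ q : Bool, (if Ev p q b then (1 : ℝ) else 0) := by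
    rintro b ⟨⟨z, hz, hzu⟩, hnb⟩
    obtain ⟨c, hc⟩ : ∃ c, ((z (Sum.inr c) : ℤ) : ZMod 2) ≠ 0 := by
      have : 0 < oddCount (fun c => z (Sum.inr c)) := by omega
      obtain ⟨c, hc⟩ := card_pos.1 this
      exact ⟨c, (mem_filter.1 hc).2⟩
    let za : ℕ → (Fin m ⊕ Fin k → ℤ) := fun a => (2 * (a : ℤ) + 1) • z
    let img : ℕ → (Fin m → ZMod P) × (Fin k → ZMod P) :=
      fun a => (fun r => (za a (Sum.inl r) : ZMod P), fun c => (za a (Sum.inr c) : ZMod P))
    have hpar : ∀ a, oddCount (fun c => za a (Sum.inr c)) = oddCount (fun c => z (Sum.inr c)) := by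
      intro a
      unfold oddCount
      simp [za, show (2 : ZMod 2) = 0 from by decide]
    have hmem : ∀ a, img a ∈ S ∧ ∃ q, Ev (img a) q b := by
      intro a
      have hna : IsNull b (za a) := hz.smul _
      have hua : u ≤ oddCount (fun c => za a (Sum.inr c)) := by rw [hpar]; exact hzu
      have hgood := wnd_split j E₀ c₁ u δ hδ b hnb (za a) hna hua j le_rfl
      have hcast : ∀ c, ((rep (fun c => (za a (Sum.inr c) : ZMod P)) c : ℤ) : ZMod P) = (za a (Sum.inr c) : ZMod P) := by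
        intro c
        rw [rep, Int.cast_natCast, ZMod.natCast_zmod_val]
      refine ⟨?_, ?_⟩
      · simp only [S, mem_product, mem_univ, true_and, hGd, mem_filter, img]
        exact ⟨(good_congr hcast).2 hgood, by rw [odd_congr (by omega) hcast]; exact hua⟩
      · obtain ⟨w, hw⟩ := exists_split P (za a)
        have hjoin : joinVec (rep (img a).2) (img a).1 = rep (fun x => (za a x : ZMod P)) := by
          funext x; cases x <;> simp [joinVec, rep, img]
        haveI : Nonempty (Fin m ⊕ Fin k) := ⟨Sum.inr c⟩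
        have hw' : za a = rep (fun x => (za a x : ZMod P)) + (2 * (Q : ℤ)) • w := by
          rw [show (2 * (Q : ℤ)) = (P : ℤ) by rw [hPQ]; push_cast; ring]; exact hw
        obtain ⟨q, h1, h2⟩ := null_mod_quad Q hna hw'
        rw [← hPQ] at h1 h2
        refine ⟨q, ?_⟩
        simp only [hEv, hjoin, sum_ite_prod]
        refine Prod.ext ?_ ?_
        · funext x
          simp only [gQ]
          rw [gL_sum]
          exact h1 x
        · simp only [gQ]
          rw [← h2, Int.cast_sum]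
          exact sum_congr rfl fun e _ => by split <;> simp
    have hinj : Set.InjOn img (range Q : Finset ℕ) := by
      intro a ha a' ha' h
      simp only [coe_range, Set.mem_Iio] at ha ha'
      have h2 := congrFun (congrArg Prod.snd h) c
      simp only [img, za, Pi.smul_apply, smul_eq_mul, Int.cast_mul] at h2
      have hunit : IsUnit ((z (Sum.inr c) : ℤ) : ZMod P) := by
        rw [ZMod.coe_int_isUnit_iff_isCoprime, hP]
        push_cast
        refine IsCoprime.pow_left ?_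
        have h2 : ¬ (2 : ℤ) ∣ z (Sum.inr c) := fun h => hc ((ZMod.intCast_zmod_eq_zero_iff_dvd _ 2).2 h)
        exact Int.prime_two.coprime_iff_not_dvd.2 h2
      have h3 := hunit.mul_right_cancel h2
      have h4 : ((2 * a + 1 : ℕ) : ZMod P) = ((2 * a' + 1 : ℕ) : ZMod P) := by
        push_cast at h3 ⊢; exact h3
      rw [ZMod.natCast_eq_natCast_iff', Nat.mod_eq_of_lt (by omega), Nat.mod_eq_of_lt (by omega)] at h4
      omega
    calc (Q : ℝ) = ∑ _p ∈ (range Q).image img, (1 : ℝ) := by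
          rw [sum_const, card_image_of_injOn hinj, card_range, nsmul_one]
      _ ≤ ∑ p ∈ (range Q).image img, ∑ q : Bool, (if Ev p q b then (1 : ℝ) else 0) := by
          refine sum_le_sum fun p hp => ?_
          obtain ⟨a, -, rfl⟩ := mem_image.1 hp
          obtain ⟨q, hq⟩ := (hmem a).2
          refine le_trans ?_ (single_le_sum (fun q' _ => by split <;> norm_num) (mem_univ q))
          rw [if_pos hq]
      _ ≤ _ := by
          refine sum_le_sum_of_subset_of_nonneg ?_ fun p _ _ => sum_nonneg fun q _ => by split <;> norm_num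
          intro p hp
          obtain ⟨a, -, rfl⟩ := mem_image.1 hp
          exact (hmem a).1
  have hQ0 : (0 : ℝ) < Q := by positivity
  have h1 : (Q : ℝ) * fq MainEv ≤ ∑ p ∈ S, ∑ q : Bool, fq (Ev p q) := by
    unfold fq
    simp only [← sum_div]
    rw [mul_div_assoc']
    refine div_le_div_of_nonneg_right ?_ (by positivity)
    rw [mul_sum]
    simp only [sum_comm (t := (univ : Finset (Sym2 (Fin m ⊕ Fin k) → Bool)))]
    refine sum_le_sum fun b _ => ?_
    by_cases hb : MainEv b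
    · rw [if_pos hb, mul_one]
      refine le_trans (hmany b hb) (le_of_eq (sum_congr rfl fun p _ => sum_congr rfl fun q _ => ?_))
      by_cases hq : Ev p q b <;> simp [hq]
    · rw [if_neg hb, mul_zero]
      exact sum_nonneg fun p _ => sum_nonneg fun q _ => by split <;> norm_num
  have h2 : ∑ p ∈ S, ∑ q : Bool, fq (Ev p q) ≤ (Gd.card : ℝ) * (2 * (8 * Kh * Kk / (P : ℝ) ^ (k + 1))) := by
    rw [sum_product, sum_comm, ← nsmul_eq_mul]
    refine sum_le_card_nsmul _ _ _ fun w hw => ?_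
    simp only [hGd, mem_filter, mem_univ, true_and] at hw
    obtain ⟨i₀, hi₀⟩ : ∃ c, ((rep w c : ℤ) : ZMod 2) ≠ 0 := by
      have : 0 < oddCount (rep w) := by omega
      obtain ⟨c, hc⟩ := card_pos.1 this
      exact ⟨c, (mem_filter.1 hc).2⟩
    have hq : ∀ q : Bool, ∑ z : Fin m → ZMod P, fq (Ev (z, w) q) ≤ 8 * Kh * Kk / (P : ℝ) ^ (k + 1) := by
      intro q
      refine (sum_le_sum fun z _ => fq_sum_le _
        (fun e => if e ∈ univ.map (allEdge (m := m) i₀) then gQ P (joinVec (rep w) z) e else 0)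
        (fun e => by split <;> simp) _).trans ?_
      refine (sum_pr_quad_le j' (rep w) i₀ hi₀).trans ?_
      have hS : ((univ : Finset (Fin k)) \ univ.erase i₀).card ≤ c₁ := by
        rw [sdiff_erase (mem_univ _)]; simpa using hc₁
      have ha := hatom (rep w) _ hw.1 hS
      have hP0 : (0 : ℝ) < (P : ℝ) := by positivity
      have hst : pr (fun _ => 1 / 4) (fun b : {b : Fin k // b ≠ i₀} => (rep w b.1 : ZMod P)) 0 ≤ Kh / P := by
        refine (star_le P (rep w) i₀).trans ?_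
        rw [le_div_iff₀ hP0, mul_comm]
        exact ha
      have hpr0 : 0 ≤ pr (fun _ => 1 / 4) (fun b : {b : Fin k // b ≠ i₀} => (rep w b.1 : ZMod P)) 0 :=
        sum_nonneg fun x _ => by
          split
          · exact fw_nonneg (fun _ => by norm_num) (fun _ => by norm_num) x
          · exact le_rfl
      have hk' := hkey (rep w) hw.2 hw.1
      have hks0 : 0 ≤ kSum P (rep w) m := sum_nonneg fun R _ => by
        split
        · exact mul_nonneg (mwt_nonneg R) (Nat.cast_nonneg _)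
        · exact le_rfl
      calc _ ≤ 2 * (Kh / P) * (4 * (P : ℝ) ^ m / (P : ℝ) ^ (k + 1)) * (Kk * (2 : ℝ) ^ j / ((2 : ℝ) ^ j) ^ m) :=
            mul_le_mul (mul_le_mul_of_nonneg_right (by linarith) (by positivity)) hk' hks0
              (mul_nonneg (by positivity) (by positivity))
        _ = _ := by
            rw [show ((2 : ℝ) ^ j) = (P : ℝ) by rw [hP]; push_cast; ring]
            field_simp
            ring
    rw [sum_comm, Fintype.sum_bool]
    linarith [hq true, hq false]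
  have hG : (Gd.card : ℝ) ≤ (P : ℝ) ^ k := by
    have : Gd.card ≤ P ^ k := (card_le_univ _).trans (by simp [ZMod.card])
    exact_mod_cast this
  have h3 : (Q : ℝ) * fq MainEv ≤ (P : ℝ) ^ k * (2 * (8 * Kh * Kk / (P : ℝ) ^ (k + 1))) :=
    h1.trans (h2.trans (mul_le_mul_of_nonneg_right hG (by positivity)))
  have hPR : (P : ℝ) = 2 * (Q : ℝ) := by rw [hPQ]; push_cast; ring
  rw [show ((2 : ℝ) ^ j) = (P : ℝ) by rw [hP]; push_cast; ring]
  refine le_of_mul_le_mul_left (h3.trans (le_of_eq ?_)) hQ0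
  rw [hPR, pow_succ]
  field_simp
  ring

theorem fq_sparse_le (n : ℕ) (hn : 1 ≤ n) (T : ℕ) :
    fq (ι := Fin n) (fun b => ∃ z, IsNull b z ∧ (∃ i, (z i : ZMod 2) ≠ 0) ∧
        (univ.filter fun i => (z i : ZMod 2) ≠ 0).card ≤ T)
      ≤ (((univ : Finset (Finset (Fin n))).filter fun W => W.card ≤ T).card : ℝ) * 2 / 2 ^ (n - 1) := by
  classical
  haveI : Nonempty (Fin n) := ⟨⟨0, hn⟩⟩
  set A := (univ : Finset (Finset (Fin n))).filter (fun W => W.Nonempty ∧ W.card ≤ T) with hA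
  set indW : Finset (Fin n) → Fin n → ℤ := fun W i => if i ∈ W then 1 else 0
  have hev : ∀ b, (∃ z, IsNull b z ∧ (∃ i, (z i : ZMod 2) ≠ 0) ∧
        (univ.filter fun i => (z i : ZMod 2) ≠ 0).card ≤ T) →
      ∃ p ∈ A ×ˢ (univ : Finset (ZMod 2)),
        (∑ e, if b e then gL 2 (indW p.1) e else 0) = fun _ => p.2 := by
    rintro b ⟨z, hz, ⟨i, hi⟩, hcard⟩
    refine ⟨(univ.filter fun i => (z i : ZMod 2) ≠ 0, (((cMat b *ᵥ z) i : ℤ) : ZMod 2)), ?_, ?_⟩
    · simp only [mem_product, hA, mem_filter, mem_univ, true_and, and_true]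
      exact ⟨⟨i, by simpa using hi⟩, hcard⟩
    · funext a
      rw [gL_sum, ← cMat_mulVec]
      have h2 : ∀ x, ((indW (univ.filter fun i => (z i : ZMod 2) ≠ 0) x : ℤ) : ZMod 2) = (z x : ZMod 2) := by
        intro x
        rcases zmod2_cases (z x : ZMod 2) with h | h <;> simp [indW, h]
      have h3 : (cMat b *ᵥ z) i = (cMat b *ᵥ z) a := by have := hz i; have := hz a; linarith
      simp only [Matrix.mulVec, dotProduct] at h3
      simp only [Matrix.mulVec, dotProduct, Int.cast_sum, Int.cast_mul, h2]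
      have h4 := congrArg (Int.cast : ℤ → ZMod 2) h3
      push_cast at h4
      exact h4.symm
  refine (fq_mono hev).trans ((fq_exists _ _).trans ?_)
  have hone : ∀ W ∈ A, ∀ t : ZMod 2,
      fq (fun b => (∑ e, if b e then gL 2 (indW W) e else 0) = fun _ => t) ≤ 1 / 2 ^ (n - 1) := by
    intro W hW t
    simp only [hA, mem_filter, mem_univ, true_and] at hW
    obtain ⟨i₀, hi₀⟩ := hW.1
    set F : Finset (Sym2 (Fin n)) := (univ.erase i₀).map ⟨fun a => s(i₀, a), fun a a' h => Sym2.congr_right.1 h⟩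
      with hF
    have hFc : F.card = n - 1 := by simp [hF]
    set Sol := univ.filter fun b : Sym2 (Fin n) → Bool => (∑ e, if b e then gL 2 (indW W) e else 0) = fun _ => t
    have hcard : Sol.card ≤ 2 ^ (Fintype.card (Sym2 (Fin n)) - (n - 1)) := by
      refine le_trans (card_le_card_of_injOn (fun b => fun e : {e // e ∉ F} => b e.1)
        (t := (univ : Finset ({e // e ∉ F} → Bool))) (fun _ _ => mem_coe.2 (mem_univ _)) ?_) ?_
      · intro b hb b' hb' h
        simp only [Sol, coe_filter, Set.mem_ofPred_eq, mem_univ, true_and] at hb hb'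
        have hout : ∀ e, e ∉ F → b e = b' e := fun e he => congrFun h ⟨e, he⟩
        funext e
        by_cases he : e ∈ F
        · simp only [hF, mem_map, mem_erase, mem_univ, and_true, Function.Embedding.coeFn_mk] at he
          obtain ⟨a, ha, rfl⟩ := he
          have h1 := congrFun (hb.trans hb'.symm) a
          rw [gL_sum, gL_sum, ← cMat_mulVec, ← cMat_mulVec] at h1
          simp only [Matrix.mulVec, dotProduct, Int.cast_sum, Int.cast_mul] at h1
          rw [← add_sum_erase _ _ (mem_univ i₀), ← add_sum_erase _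
            (fun j => ((cMat b' a j : ℤ) : ZMod 2) * ((indW W j : ℤ) : ZMod 2)) (mem_univ i₀)] at h1
          have hrest : ∀ j ∈ univ.erase i₀, ((cMat b a j : ℤ) : ZMod 2) * ((indW W j : ℤ) : ZMod 2)
              = ((cMat b' a j : ℤ) : ZMod 2) * ((indW W j : ℤ) : ZMod 2) := by
            intro j hj
            have : s(a, j) ∉ F := by
              simp only [hF, mem_map, mem_erase, mem_univ, and_true, Function.Embedding.coeFn_mk, not_exists, not_and]
              intro x _ hx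
              rcases Sym2.eq_iff.1 hx with ⟨h5, _⟩ | ⟨h5, _⟩
              · exact ha h5.symm
              · exact (mem_erase.1 hj).1 h5.symm
            simp only [cMat, hout _ this]
          rw [sum_congr rfl hrest, add_left_inj] at h1
          simp only [cMat, indW, if_pos hi₀, Int.cast_one, mul_one] at h1
          rw [Sym2.eq_swap] at h1
          revert h1
          cases b s(i₀, a) <;> cases b' s(i₀, a) <;> simp
        · exact hout e he
      · rw [card_univ, Fintype.card_fun, Fintype.card_bool, Fintype.card_subtype_compl, Fintype.card_coe, hFc]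
    unfold fq
    simp only [sum_boole]
    rw [div_le_div_iff₀ (by positivity) (by positivity), one_mul]
    have hle : n - 1 ≤ Fintype.card (Sym2 (Fin n)) := hFc ▸ card_le_univ F
    calc _ ≤ (2 : ℝ) ^ (Fintype.card (Sym2 (Fin n)) - (n - 1)) * 2 ^ (n - 1) := by
          refine mul_le_mul_of_nonneg_right ?_ (by positivity)
          have : Sol.card ≤ 2 ^ (Fintype.card (Sym2 (Fin n)) - (n - 1)) := hcard
          have h9 : (Sol.card : ℝ) ≤ (2 : ℝ) ^ (Fintype.card (Sym2 (Fin n)) - (n - 1)) := by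
            exact_mod_cast this
          refine le_trans (le_of_eq ?_) h9
          simp only [Sol]; norm_cast; rw [sum_boole]; simp
      _ = _ := by rw [← pow_add, Nat.sub_add_cancel hle]
  refine (sum_le_card_nsmul _ _ (1 / 2 ^ (n - 1)) fun p hp => hone p.1 (mem_product.1 hp).1 p.2).trans ?_
  rw [card_product, card_univ, ZMod.card, nsmul_eq_mul, Nat.cast_mul, Nat.cast_ofNat, mul_one_div]
  gcongr
  exact fun W hW => by
    simp only [hA, mem_filter, mem_univ, true_and] at hW ⊢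
    exact hW.2

theorem fq_reindex {κ : Type*} [Fintype κ] [DecidableEq κ] (σ : κ ≃ ι) (p : (Sym2 κ → Bool) → Prop) :
    fq (fun b : Sym2 ι → Bool => p (fun e => b (Sym2.map σ e))) = fq p := by
  classical
  let E : Sym2 κ ≃ Sym2 ι :=
    ⟨Sym2.map σ, Sym2.map σ.symm, fun e => by simp [Sym2.map_map], fun e => by simp [Sym2.map_map]⟩
  unfold fq
  rw [Fintype.card_congr E]
  congr 1
  exact Fintype.sum_equiv (Equiv.arrowCongr E.symm (Equiv.refl Bool)) _ _ fun b => rfl

theorem isNull_reindex {κ : Type*} [Fintype κ] [DecidableEq κ] (σ : κ ≃ ι) {b : Sym2 ι → Bool}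
    {z : ι → ℤ} (h : IsNull b z) : IsNull (fun e => b (Sym2.map σ e)) (fun a => z (σ a)) := by
  intro a
  have h1 : (cMat (fun e => b (Sym2.map σ e)) *ᵥ fun a => z (σ a)) a = (cMat b *ᵥ z) (σ a) :=
    Fintype.sum_equiv σ _ _ fun x => by simp only [cMat, Sym2.map_mk]; rfl
  rw [h1, h (σ a)]
  exact (σ.sum_comp z).symm

theorem exists_odd_null {b : Sym2 ι → Bool}
    (h : (Matrix.of fun i j => (1 - 2 * cMat b i j : ℤ)).det = 0) :
    ∃ z, IsNull b z ∧ ∃ i, (z i : ZMod 2) ≠ 0 := by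
  obtain ⟨z, hz0, hz⟩ := Matrix.exists_mulVec_eq_zero_iff.2 h
  obtain ⟨i₀, hi₀⟩ := Function.ne_iff.1 hz0
  obtain ⟨w, hw, hgcd⟩ := Finset.extract_gcd z (univ_nonempty_iff.2 ⟨i₀⟩)
  have hd : (univ : Finset ι).gcd z ≠ 0 := by
    intro h0
    exact hi₀ (by simpa [h0] using hw i₀ (mem_univ _))
  refine ⟨w, fun i => ?_, ?_⟩
  · have hi := congrFun hz i
    simp only [Matrix.mulVec, dotProduct, Matrix.of_apply, Pi.zero_apply] at hi
    have : (univ : Finset ι).gcd z * (∑ j, w j - 2 * (cMat b *ᵥ w) i) = 0 := by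
      rw [← hi]
      simp only [Matrix.mulVec, dotProduct, mul_sum, ← sum_sub_distrib, mul_sub]
      exact sum_congr rfl fun j _ => by rw [hw j (mem_univ _)]; ring
    linarith [(mul_eq_zero.1 this).resolve_left hd]
  · by_contra hall
    push Not at hall
    have : (2 : ℤ) ∣ (univ : Finset ι).gcd w :=
      Finset.dvd_gcd fun i _ => (ZMod.intCast_zmod_eq_zero_iff_dvd _ 2).1 (hall i)
    rw [hgcd] at this
    norm_num at this

end

end Vale.Agent.P160.Rate
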