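import Vale.Agent.P160.Rate.JointBound

/-!
The sharp form of the row bound, through the characters of order at most two.
-/

namespace Vale.Agent.P160.Rate

open Finset

set_option linter.unusedSectionVars false

noncomputable section

variable {k c : ℕ}

theorem zmod2_cases (a : ZMod 2) : a = 0 ∨ a = 1 := by revert a; decide

/-- The sign character of `ZMod 2`. -/
def sg (a : ZMod 2) : ℂ := if a = 0 then 1 else -1

theorem sg_add (a b : ZMod 2) : sg (a + b) = sg a * sg b := by
  rcases zmod2_cases a with rfl | rfl <;> rcases zmod2_cases b with rfl | rfl <;>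
    simp [sg, show (1 : ZMod 2) + 1 = 0 from by decide]

theorem sg_re (a : ZMod 2) : (sg a).re = if a = 0 then 1 else -1 := by
  rcases zmod2_cases a with rfl | rfl <;> simp [sg]

/-- The character of `PG P c` of order at most two given by `μ`. -/
def lowChar (P c : ℕ) (μ : ZMod 2 × (Fin c → ZMod 2)) : AddChar (PG P c) ℂ where
  toFun x := sg (μ.1 * ZMod.castHom (dvd_mul_right 2 P) (ZMod 2) x.1 + ∑ l, μ.2 l * x.2 l)
  map_zero_eq_one' := by simp [sg]
  map_add_eq_mul' a b := by
    rw [← sg_add]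
    congr 1
    simp only [Prod.fst_add, Prod.snd_add, map_add, Pi.add_apply, mul_add, sum_add_distrib]
    abel

theorem lowChar_apply (P c : ℕ) (μ : ZMod 2 × (Fin c → ZMod 2)) (x : PG P c) :
    lowChar P c μ x
      = sg (μ.1 * ZMod.castHom (dvd_mul_right 2 P) (ZMod 2) x.1 + ∑ l, μ.2 l * x.2 l) := rfl

theorem lowChar_injective (P c : ℕ) [NeZero P] : Function.Injective (lowChar P c) := by
  have sginj : Function.Injective sg := by
    intro a b
    rcases zmod2_cases a with rfl | rfl <;> rcases zmod2_cases b with rfl | rfl <;> norm_num [sg]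
  intro μ ν h
  refine Prod.ext ?_ (funext fun l => ?_)
  · have := DFunLike.congr_fun h ((1, 0) : PG P c)
    rw [lowChar_apply, lowChar_apply] at this
    simpa using sginj this
  · have := DFunLike.congr_fun h ((0, Pi.single l 1) : PG P c)
    rw [lowChar_apply, lowChar_apply] at this
    simpa [Pi.single_apply] using sginj this

theorem exists_lowChar (P c : ℕ) [NeZero P] (χ : AddChar (PG P c) ℂ)
    (h : χ ((2, 0) : PG P c) = 1) : ∃ μ, lowChar P c μ = χ := by
  classical
  have hsq : ∀ x : PG P c, χ x * χ x = χ (x + x) := fun x => (χ.map_add_eq_mul x x).symm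
  have hone : χ ((1, 0) : PG P c) = 1 ∨ χ ((1, 0) : PG P c) = -1 := by
    refine mul_self_eq_one_iff.1 ?_
    rw [hsq, Prod.mk_add_mk, add_zero, one_add_one_eq_two, h]
  have hl : ∀ l, χ ((0, Pi.single l 1) : PG P c) = 1 ∨ χ ((0, Pi.single l 1) : PG P c) = -1 := by
    intro l
    refine mul_self_eq_one_iff.1 ?_
    rw [hsq, Prod.mk_add_mk, add_zero, ← Pi.single_add, show (1 : ZMod 2) + 1 = 0 from by decide,
      Pi.single_zero]
    exact χ.map_zero_eq_one
  refine ⟨(if χ ((1, 0) : PG P c) = 1 then 0 else 1,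
    fun l => if χ ((0, Pi.single l 1) : PG P c) = 1 then 0 else 1), ?_⟩
  set μ : ZMod 2 × (Fin c → ZMod 2) := (if χ ((1, 0) : PG P c) = 1 then 0 else 1,
    fun l => if χ ((0, Pi.single l 1) : PG P c) = 1 then 0 else 1) with hμ
  have g1 : lowChar P c μ ((1, 0) : PG P c) = χ ((1, 0) : PG P c) := by
    rw [lowChar_apply]
    rcases hone with h' | h'
    · simp [hμ, h', sg]
    · have hne : ¬ χ ((1, 0) : PG P c) = 1 := by rw [h']; norm_num
      simp [hμ, hne, sg]
      exact h'.symm
  have g2 : ∀ l, lowChar P c μ ((0, Pi.single l 1) : PG P c) = χ ((0, Pi.single l 1) : PG P c) := by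
    intro l
    rw [lowChar_apply]
    rcases hl l with h' | h'
    · simp [hμ, h', sg, Pi.single_apply]
    · have hne : ¬ χ ((0, Pi.single l 1) : PG P c) = 1 := by rw [h']; norm_num
      simp [hμ, hne, sg, Pi.single_apply]
      exact h'.symm
  refine DFunLike.ext _ _ fun x => ?_
  have hx : x = x.1.val • ((1, 0) : PG P c) + ∑ l, (x.2 l).val • ((0, Pi.single l 1) : PG P c) := by
    refine Prod.ext ?_ (funext fun l => ?_)
    · simp [Prod.fst_sum]
    · simp only [Prod.snd_add, Prod.smul_snd, Prod.snd_sum, smul_zero, zero_add, Finset.sum_apply,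
        Pi.smul_apply, Pi.single_apply]
      simp
  rw [hx]
  simp only [AddChar.map_add_eq_mul, char_sum, AddChar.map_nsmul_eq_pow, g1, g2]

/-- The vector of `F₂` attached to a character of order at most two. -/
def lowVec (v : Fin k → ℤ) (b : Fin c → Option (Fin k) → ZMod 2) (μ : ZMod 2 × (Fin c → ZMod 2))
    (o : Option (Fin k)) : ZMod 2 :=
  μ.1 * Option.elim o 0 (fun i => (v i : ZMod 2)) + ∑ l, μ.2 l * b l o

/-- The weight `2 ^ -(number of odd coordinates)`. -/
def wgt (w : Option (Fin k) → ZMod 2) : ℝ :=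
  ∏ i : Fin k, if w (some i) = 0 then (1 : ℝ) else 1 / 2

/-- The sharp bound. -/
theorem rowEv_sharp (P : ℕ) [NeZero P] (hP : 2 ∣ P) (v : Fin k → ℤ)
    (b : Fin c → Option (Fin k) → ZMod 2) :
    (P : ℝ) * rowPr (1 / 4) (RowEv P v b) ≤
      (∑ μ : ZMod 2 × (Fin c → ZMod 2), if lowVec v b μ none = 0 then wgt (lowVec v b μ) else 0) / 2 ^ c
        + 2 * ((P : ℝ) * atomS (1 / 16) P v univ - 1) := by
  classical
  set g := pg P v b with hg
  set h := ph P b with hh
  have hcard : (Fintype.card (PG P c) : ℝ) = 2 * P * 2 ^ c := by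
    simp [PG, ZMod.card]
  set F : AddChar (PG P c) ℂ → ℝ := fun χ => ∏ i, phi (1 / 4) (χ (g i)) with hF
  set low : Finset (AddChar (PG P c) ℂ) := univ.filter fun χ => χ ((2, 0) : PG P c) = 1 with hlow
  have hlow' : low = univ.image (lowChar P c) := by
    ext χ
    simp only [hlow, mem_filter, mem_univ, true_and, mem_image]
    refine ⟨exists_lowChar P c χ, ?_⟩
    rintro ⟨μ, rfl⟩
    rw [lowChar_apply]
    simp only [map_ofNat]
    simp [sg, show (2 : ZMod 2) = 0 from by decide]
  have hlowsum : ∀ f : AddChar (PG P c) ℂ → ℝ, ∑ χ ∈ low, f χ = ∑ μ, f (lowChar P c μ) := fun f => by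
    rw [hlow', sum_image fun _ _ _ _ hab => lowChar_injective P c hab]
  have hFn : ∀ χ, 0 ≤ F χ := fun χ =>
    prod_nonneg fun i _ => phi_nonneg (by norm_num) (by norm_num) (neg_one_le_re χ _)
  have hid : (Fintype.card (PG P c) : ℝ) * (pr (fun _ => 1 / 4) g 0 + pr (fun _ => 1 / 4) g h)
      = ∑ χ : AddChar (PG P c) ℂ, (1 + (χ h).re) * F χ := by
    have h2 := congrArg Complex.re (card_mul_pr (fun _ : Fin k => (1 / 4 : ℝ)) g h)
    simp only [← Complex.ofReal_prod, Complex.mul_re, Complex.ofReal_re, Complex.ofReal_im, mul_zero,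
      sub_zero, Complex.re_sum, Complex.natCast_re, Complex.natCast_im, conj_char, Complex.conj_re] at h2
    rw [mul_add, card_mul_pr_zero, h2, ← sum_add_distrib]
    exact sum_congr rfl fun χ _ => by simp only [hF]; ring
  have hhigh : ∑ χ ∈ univ \ low, (1 + (χ h).re) * F χ
      ≤ 2 * ((2 * P * 2 ^ c) * atomS (1 / 16) P v univ - 2 * 2 ^ c) := by
    set g2 : Fin k → PG P c := fun i => (2 : ℤ) • g i with hg2
    have hat : atomS (1 / 16) P v univ = pr (fun _ => 1 / 16) g2 0 := by
      rw [hg2, hg, pr_double_eq]; simp [atomS]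
    have hall := card_mul_pr_zero (fun _ : Fin k => (1 / 16 : ℝ)) g2
    rw [hcard, ← hat, ← sum_sdiff (subset_univ low), hlowsum] at hall
    have hone : ∀ μ, ∏ i, phi (1 / 16) (lowChar P c μ (g2 i)) = 1 := by
      intro μ
      refine prod_eq_one fun i _ => ?_
      rw [hg2, lowChar_apply]
      simp only [Prod.smul_fst, Prod.smul_snd, Pi.smul_apply, map_zsmul]
      simp [sg, phi, zsmul_eq_mul, show (2 : ZMod 2) = 0 from by decide]
    rw [sum_congr rfl fun μ _ => hone μ] at hall
    simp only [sum_const, card_univ, Fintype.card_prod, ZMod.card, Fintype.card_fun, Fintype.card_fin,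
      nsmul_eq_mul, mul_one, Nat.cast_mul, Nat.cast_pow, Nat.cast_ofNat] at hall
    rw [hall, show ∀ a b : ℝ, 2 * (a + b - b) = 2 * a from fun a b => by ring, mul_sum]
    refine sum_le_sum fun χ _ => ?_
    refine mul_le_mul (by linarith [re_le_one χ h]) ?_ (hFn χ) (by norm_num)
    exact prod_le_prod (fun i _ => phi_nonneg (by norm_num) (by norm_num) (neg_one_le_re χ _))
      fun i _ => phi_quarter_le_double χ _
  have hval : ∀ μ, (1 + (lowChar P c μ h).re) * F (lowChar P c μ)
      = 2 * if lowVec v b μ none = 0 then wgt (lowVec v b μ) else 0 := by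
    intro μ
    have hP0 : (P : ZMod 2) = 0 := (ZMod.natCast_eq_zero_iff_even).2 (even_iff_two_dvd.2 hP)
    have h1 : lowChar P c μ h = sg (lowVec v b μ none) := by
      rw [lowChar_apply]; simp [hh, ph, lowVec, hP0]
    have h2 : F (lowChar P c μ) = wgt (lowVec v b μ) := by
      refine prod_congr rfl fun i _ => ?_
      rw [lowChar_apply]
      simp only [hg, pg, map_intCast]
      rw [phi, sg_re]
      simp only [lowVec, Option.elim_some]
      split <;> rename_i hz <;> norm_num [hz]
    rw [h1, h2, sg_re]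
    split <;> ring
  have hsplit := (sum_sdiff (f := fun χ => (1 + (χ h).re) * F χ) (subset_univ low)).symm
  rw [hlowsum, sum_congr rfl (fun μ _ => hval μ), ← mul_sum, ← hid, hcard] at hsplit
  have hJ := rowEv_le P v b
  have hP' : (0 : ℝ) < P := by exact_mod_cast Nat.pos_of_ne_zero (NeZero.ne P)
  have h2c : (0 : ℝ) < 2 ^ c := by positivity
  set S := ∑ μ : ZMod 2 × (Fin c → ZMod 2), if lowVec v b μ none = 0 then wgt (lowVec v b μ) else 0
  have hb : 2 * (P : ℝ) * 2 ^ c * rowPr (1 / 4) (RowEv P v b)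
      ≤ 2 * (2 * P * 2 ^ c * atomS (1 / 16) P v univ - 2 * 2 ^ c) + 2 * S := by
    refine (mul_le_mul_of_nonneg_left hJ (by positivity)).trans ?_
    rw [← hg, ← hh, hsplit]
    linarith
  rw [div_add' _ _ _ h2c.ne', le_div_iff₀ h2c]
  nlinarith

end

end Vale.Agent.P160.Rate
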