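import Vale.Agent.P160.Rate.Rank

/-!
From symmetric binary matrices to the lazy block model, summed over the outside coordinates.
-/

namespace Vale.Agent.P160.Rate

open Finset

set_option linter.unusedSectionVars false

noncomputable section

variable {ι : Type*} [Fintype ι] [DecidableEq ι]

/-- The column vector of an edge applied to `z`. -/
def ev {R : Type*} [Zero R] (z : ι → R) (e : Sym2 ι) (i : ι) : R :=
  if h : i ∈ e then z (Sym2.Mem.other' h) else 0

theorem ev_mk {R : Type*} [Zero R] (z : ι → R) (a b i : ι) :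
    ev z s(a, b) i = if i = a then z b else if i = b then z a else 0 := by
  unfold ev
  by_cases h : i ∈ s(a, b)
  · rw [dif_pos h]
    have h2 := Sym2.other_spec' h
    by_cases ha : i = a
    · subst ha
      simp [Sym2.congr_right.1 h2]
    · have hb : i = b := (Sym2.mem_iff.1 h).resolve_left ha
      subst hb
      have h3 := Sym2.congr_right.1 (h2.trans Sym2.eq_swap)
      simp [h3, ha]
  · rw [dif_neg h]
    simp only [Sym2.mem_iff, not_or] at h
    simp [h.1, h.2]

/-- The quadratic weight of an edge. -/
def qv (z : ι → ℤ) (e : Sym2 ι) : ℤ := ∑ i, z i * ev z e i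

theorem qv_mk (z : ι → ℤ) {a b : ι} (h : a ≠ b) : qv z s(a, b) = 2 * z a * z b := by
  unfold qv
  simp_rw [ev_mk]
  rw [Fintype.sum_eq_add a b h]
  · simp [h.symm]; ring
  · intro x hx; simp [hx.1, hx.2]

theorem pr_embed {κ G : Type*} [Fintype κ] [DecidableEq κ] [AddCommGroup G] [Fintype G] [DecidableEq G]
    (f : κ ↪ ι) (t : ℝ) (g : ι → G) (hg : ∀ e, e ∉ univ.map f → g e = 0) :
    pr (fun _ => t) g 0 = pr (fun _ => t) (fun a => g (f a)) 0 := by
  have hc : (Fintype.card G : ℝ) ≠ 0 := by exact_mod_cast Fintype.card_ne_zero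
  refine mul_left_cancel₀ hc ?_
  rw [card_mul_pr_zero, card_mul_pr_zero]
  refine sum_congr rfl fun χ _ => ?_
  rw [← prod_subset (subset_univ (univ.map f)) fun e _ he => by rw [hg e he]; simp [phi], prod_map]

variable {m k : ℕ}

/-- The edges between the two blocks. -/
def jkEdge : Fin m × Fin k ↪ Sym2 (Fin m ⊕ Fin k) :=
  ⟨fun p => s(Sum.inl p.1, Sum.inr p.2), fun p q h => by
    simp only [Sym2.eq_iff, Sum.inl.injEq, Sum.inr.injEq, reduceCtorEq, false_and, or_false] at h
    exact Prod.ext h.1 h.2⟩

@[simp] theorem jkEdge_apply (p : Fin m × Fin k) :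
    jkEdge p = s(Sum.inl p.1, Sum.inr p.2) := rfl

/-- Block edges and a star inside the second block. -/
def allEdge (i₀ : Fin k) : (Fin m × Fin k) ⊕ {b : Fin k // b ≠ i₀} ↪ Sym2 (Fin m ⊕ Fin k) :=
  ⟨Sum.elim jkEdge fun b => s(Sum.inr i₀, Sum.inr b.1), by
    rintro (p | b) (q | c) h
    · exact congrArg Sum.inl (jkEdge.injective h)
    · simp at h
    · simp at h
    · simp only [Sum.elim_inr, Sym2.congr_right, Sum.inr.injEq] at h
      exact congrArg Sum.inr (Subtype.ext h)⟩

/-- Concatenate the outside coordinates with `v`. -/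
def joinVec (v : Fin k → ℤ) {P : ℕ} (z : Fin m → ZMod P) : Fin m ⊕ Fin k → ℤ :=
  Sum.elim (fun r => ((z r).val : ℤ)) v

theorem tot_jk_fst (P : ℕ) [NeZero P] (v : Fin k → ℤ) {P₀ : ℕ} (z : Fin m → ZMod P₀)
    (x : Fin m × Fin k → SignType) (r : Fin m) :
    tot (fun a => fun i => ((ev (joinVec v z) (jkEdge a) i : ℤ) : ZMod P)) x (Sum.inl r)
      = (dot v (fun c => x (r, c)) : ZMod P) := by
  simp only [tot, Finset.sum_apply, Pi.smul_apply]
  rw [Fintype.sum_prod_type, sum_eq_single r]
  · simp [dot, jkEdge_apply, ev_mk, joinVec, zsmul_eq_mul]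
  · intro r' _ hr'
    simp [jkEdge_apply, ev_mk, Ne.symm hr']
  · simp

theorem tot_jk_snd (P : ℕ) [NeZero P] (v : Fin k → ℤ) {P₀ : ℕ} (z : Fin m → ZMod P₀)
    (x : Fin m × Fin k → SignType) (c : Fin k) :
    tot (fun a => fun i => ((ev (joinVec v z) (jkEdge a) i : ℤ) : ZMod P)) x (Sum.inr c)
      = ∑ r, (ival (x (r, c)) : ZMod P) * (((z r).val : ℤ) : ZMod P) := by
  simp only [tot, Finset.sum_apply, Pi.smul_apply]
  rw [Fintype.sum_prod_type]
  refine sum_congr rfl fun r _ => ?_
  rw [sum_eq_single c]
  · simp [jkEdge_apply, ev_mk, joinVec, zsmul_eq_mul]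
  · intro c' _ hc'
    simp [jkEdge_apply, ev_mk, Ne.symm hc']
  · simp

theorem card_transpose_sol {β : Type*} [Fintype β] [DecidableEq β] (N : ℕ) [NeZero N]
    (A : Fin m → β → ℤ) :
    ((univ.filter fun d : Fin m → ZMod N => ∀ o, ∑ r, (A r o : ZMod N) * d r = 0).card : ℝ)
        * (N : ℝ) ^ Fintype.card β = (N : ℝ) ^ m * solCard N A := by
  classical
  have hp := ZMod.isPrimitive_stdAddChar N
  set ψ := ZMod.stdAddChar (N := N)
  have key : ∀ a : ZMod N, ∑ x : ZMod N, ψ (x * a) = if a = 0 then (N : ℂ) else 0 := by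
    intro a
    rw [AddChar.sum_mulShift a hp, ZMod.card]
    split <;> simp
  have h1 : ∀ d : Fin m → ZMod N, ∑ y : β → ZMod N, ψ (∑ o, y o * ∑ r, (A r o : ZMod N) * d r)
      = if ∀ o, ∑ r, (A r o : ZMod N) * d r = 0 then (N : ℂ) ^ Fintype.card β else 0 := by
    intro d
    simp_rw [char_sum]
    rw [← Fintype.prod_sum (fun (o : β) (x : ZMod N) => ψ (x * ∑ r, (A r o : ZMod N) * d r))]
    simp_rw [key]
    rw [Fintype.prod_ite_zero, prod_const, card_univ]
  have h2 : ∀ y : β → ZMod N, ∑ d : Fin m → ZMod N, ψ (∑ o, y o * ∑ r, (A r o : ZMod N) * d r)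
      = if ∀ r, ∑ o, (A r o : ZMod N) * y o = 0 then (N : ℂ) ^ m else 0 := by
    intro y
    have : ∀ d : Fin m → ZMod N, ∑ o, y o * ∑ r, (A r o : ZMod N) * d r
        = ∑ r, d r * ∑ o, (A r o : ZMod N) * y o := by
      intro d
      simp_rw [mul_sum]
      rw [sum_comm]
      exact sum_congr rfl fun r _ => sum_congr rfl fun o _ => by ring
    simp_rw [this, char_sum]
    rw [← Fintype.prod_sum (fun (r : Fin m) (x : ZMod N) => ψ (x * ∑ o, (A r o : ZMod N) * y o))]
    simp_rw [key]
    rw [Fintype.prod_ite_zero, prod_const, card_univ, Fintype.card_fin]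
    split_ifs <;> rfl
  have h3 := Finset.sum_comm (s := (univ : Finset (Fin m → ZMod N))) (t := (univ : Finset (β → ZMod N)))
    (f := fun d y => ψ (∑ o, y o * ∑ r, (A r o : ZMod N) * d r))
  simp only [h1, h2, ← sum_filter, sum_const, nsmul_eq_mul] at h3
  have h4 : ((univ.filter fun d : Fin m → ZMod N => ∀ o, ∑ r, (A r o : ZMod N) * d r = 0).card : ℂ)
        * (N : ℂ) ^ Fintype.card β = (N : ℂ) ^ m * solCard N A := by
    rw [h3, mul_comm]
    unfold solCard
    congr 3; ext; simp
  exact_mod_cast h4

/-- Affine fibres are no larger than the linear one. -/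
theorem affine_card_le {α : Type*} [AddCommGroup α] [Fintype α] [DecidableEq α] (p q : α → Prop)
    [DecidablePred p] [DecidablePred q] (h : ∀ a b, p a → p b → q (a - b)) :
    (univ.filter p).card ≤ (univ.filter q).card := by
  rcases (univ.filter p).eq_empty_or_nonempty with he | ⟨b, hb⟩
  · rw [he]; simp
  · refine card_le_card_of_injOn (fun a => a - b) ?_ ?_
    · intro a ha
      simp only [mem_coe, mem_filter, mem_univ, true_and] at ha hb ⊢
      exact h a b ha hb
    · intro a _ a' _ h'
      simpa using h'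

theorem sum_fw_curry (F : (Fin m → Row k) → ℝ) :
    ∑ x : Fin m × Fin k → SignType, fw (fun _ => 1 / 4) x * F (fun r c => x (r, c))
      = ∑ R : Fin m → Row k, mwt R * F R := by
  rw [← (Equiv.curry (Fin m) (Fin k) SignType).sum_comp]
  refine sum_congr rfl fun x _ => ?_
  congr 1
  · simp only [fw, mwt, Equiv.curry_apply, Function.curry]
    rw [Fintype.prod_prod_type]

theorem cast_val_sub {P : ℕ} [NeZero P] (a b : ZMod P) :
    (((a - b).val : ℤ) : ZMod P) = (((a.val : ℤ) - (b.val : ℤ) : ℤ) : ZMod P) := by
  simp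

/-- Edge elements for the linear equations. -/
def gL {ι : Type*} [Fintype ι] [DecidableEq ι] (P : ℕ) (z : ι → ℤ) (e : Sym2 ι) : ι → ZMod P :=
  fun i => ((ev z e i : ℤ) : ZMod P)

/-- Edge elements for both equations. -/
def gQ {ι : Type*} [Fintype ι] [DecidableEq ι] (P : ℕ) (z : ι → ℤ) (e : Sym2 ι) :
    (ι → ZMod P) × ZMod (P * P / 2) :=
  (gL P z e, (qv z e : ZMod (P * P / 2)))

theorem solCard_kerR_le (P : ℕ) [NeZero P] (v : Fin k → ℤ) (R : Fin m → Row k) :
    solCard P (fun r c => ival (R r c)) ≤ solCard P (aug P v R) := by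
  classical
  unfold solCard
  refine card_le_card_of_injOn (fun y o => Option.elim o 0 y) ?_ ?_
  · intro y hy
    simp only [coe_filter, Set.mem_ofPred_eq, mem_univ, true_and] at hy ⊢
    intro r
    simpa [Fintype.sum_option, aug] using hy r
  · intro y _ y' _ h
    funext c
    exact congrFun h (some c)

/-- The linear transfer: sum over the outside coordinates modulo `2 * P`, equations modulo `P`. -/
theorem sum_pr_linear_le (P : ℕ) [NeZero P] (v : Fin k → ℤ) :
    ∑ z : Fin m → ZMod (2 * P), pr (fun _ => 1 / 4)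
        (fun e => if e ∈ univ.map (jkEdge (m := m) (k := k)) then gL P (joinVec v z) e else 0) 0
      ≤ 2 ^ m * (P : ℝ) ^ m / (P : ℝ) ^ k * kSum P v m := by
  classical
  have hP : (0 : ℝ) < P := by exact_mod_cast Nat.pos_of_ne_zero (NeZero.ne P)
  have h1 : ∀ z : Fin m → ZMod (2 * P), pr (fun _ => 1 / 4)
      (fun e => if e ∈ univ.map (jkEdge (m := m) (k := k)) then gL P (joinVec v z) e else 0) 0
      = ∑ x : Fin m × Fin k → SignType,
          if tot (fun a => fun i => ((ev (joinVec v z) (jkEdge a) i : ℤ) : ZMod P)) x = 0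
          then fw (fun _ => 1 / 4) x else 0 := by
    intro z
    rw [pr_embed jkEdge _ _ fun e he => if_neg he]
    refine sum_congr rfl fun x _ => ?_
    have : (fun a => if jkEdge a ∈ univ.map (jkEdge (m := m) (k := k)) then gL P (joinVec v z) (jkEdge a) else 0)
        = fun a => fun i => ((ev (joinVec v z) (jkEdge a) i : ℤ) : ZMod P) := by
      funext a i; simp [gL]
    rw [this]
  simp_rw [h1]
  rw [sum_comm]
  set F : (Fin m → Row k) → ℝ := fun R =>
    if ∀ r, (P : ℤ) ∣ dot v (R r) then 2 ^ m * (P : ℝ) ^ m / (P : ℝ) ^ k * solCard P (aug P v R) else 0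
    with hF
  calc _ ≤ ∑ x : Fin m × Fin k → SignType, fw (fun _ => 1 / 4) x * F (fun r c => x (r, c)) := by
        refine sum_le_sum fun x _ => ?_
        rw [← sum_filter, sum_const, nsmul_eq_mul, mul_comm]
        refine mul_le_mul_of_nonneg_left ?_ (fw_nonneg (fun _ => by norm_num) (fun _ => by norm_num) x)
        simp only [hF]
        split_ifs with hR
        · set A : Fin m → Fin k → ℤ := fun r c => ival (x (r, c))
          set D := univ.filter fun d : Fin m → ZMod P => ∀ c, ∑ r, (A r c : ZMod P) * d r = 0 with hD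
          have hD' := card_transpose_sol P A
          rw [Fintype.card_fin] at hD'
          replace hD' : (D.card : ℝ) * (P : ℝ) ^ k = (P : ℝ) ^ m * solCard P A := by
            convert hD' using 3
            rw [hD]; congr 1; ext; simp
          have hle : (solCard P A : ℝ) ≤ solCard P (aug P v fun r c => x (r, c)) := by
            exact_mod_cast solCard_kerR_le P v (fun r c => x (r, c))
          let red : (Fin m → ZMod (2 * P)) → (Fin m → ZMod P) := fun z r => (((z r).val : ℤ) : ZMod P)
          have hcount : (univ.filter fun z : Fin m → ZMod (2 * P) =>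
              tot (fun a => fun i => ((ev (joinVec v z) (jkEdge a) i : ℤ) : ZMod P)) x = 0).card
              ≤ D.card * 2 ^ m := by
            refine le_trans ?_ (Nat.mul_le_mul_left D.card (le_refl _))
            set Z := univ.filter fun z : Fin m → ZMod (2 * P) =>
              tot (fun a => fun i => ((ev (joinVec v z) (jkEdge a) i : ℤ) : ZMod P)) x = 0
            have himg : (Z.image red).card ≤ D.card := by
              refine le_trans (card_le_card (t := univ.filter fun w : Fin m → ZMod P =>
                ∀ c, ∑ r, (A r c : ZMod P) * w r = 0) ?_) le_rfl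
              intro w hw
              obtain ⟨z, hz, rfl⟩ := mem_image.1 hw
              simp only [Z, mem_filter, mem_univ, true_and] at hz ⊢
              intro c
              have := congrFun hz (Sum.inr c)
              rw [tot_jk_snd] at this
              exact this
            have hfib : ∀ w ∈ Z.image red, (Z.filter fun z => red z = w).card ≤ 2 ^ m := by
              intro w _
              refine le_trans (card_le_card_of_injOn (t := (univ : Finset (Fin m → Fin 2)))
                (fun z r => (⟨(z r).val / P, by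
                  have := ZMod.val_lt (z r)
                  rw [Nat.div_lt_iff_lt_mul (Nat.pos_of_ne_zero (NeZero.ne P))]
                  omega⟩ : Fin 2)) (fun _ _ => mem_coe.2 (mem_univ _)) ?_) (by simp)
              intro z hz z' hz' h
              simp only [coe_filter, Set.mem_ofPred_eq] at hz hz'
              funext r
              apply ZMod.val_injective
              have h2 := congrArg Fin.val (congrFun h r)
              simp only at h2
              have h3 := congrFun (hz.2.trans hz'.2.symm) r
              simp only [red, Int.cast_natCast, ZMod.natCast_eq_natCast_iff'] at h3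
              rw [← Nat.div_add_mod (z r).val P, ← Nat.div_add_mod (z' r).val P, h2, h3]
            calc Z.card ≤ 2 ^ m * (Z.image red).card := card_le_mul_card_image Z _ hfib
              _ ≤ D.card * 2 ^ m := by rw [mul_comm]; exact Nat.mul_le_mul_right _ himg
          have hc : ((univ.filter fun z : Fin m → ZMod (2 * P) =>
              tot (fun a => fun i => ((ev (joinVec v z) (jkEdge a) i : ℤ) : ZMod P)) x = 0).card : ℝ)
              ≤ D.card * 2 ^ m := by exact_mod_cast hcount
          refine hc.trans ?_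
          have hD2 : (D.card : ℝ) = (P : ℝ) ^ m * solCard P A / (P : ℝ) ^ k := by
            rw [← hD']; field_simp
          rw [hD2, show ∀ a : ℝ, 2 ^ m * (P : ℝ) ^ m / (P : ℝ) ^ k * a = 2 ^ m * ((P : ℝ) ^ m * a / (P : ℝ) ^ k)
            from fun a => by ring, mul_comm]
          gcongr
        · have : (univ.filter fun z : Fin m → ZMod (2 * P) =>
              tot (fun a => fun i => ((ev (joinVec v z) (jkEdge a) i : ℤ) : ZMod P)) x = 0) = ∅ := by
            refine filter_eq_empty_iff.2 fun z _ hz => hR fun r => ?_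
            have := congrFun hz (Sum.inl r)
            rw [tot_jk_fst] at this
            exact (ZMod.intCast_zmod_eq_zero_iff_dvd _ P).1 this
          rw [this]; simp
    _ = ∑ R : Fin m → Row k, mwt R * F R := sum_fw_curry F
    _ = _ := by
        unfold kSum
        rw [mul_sum]
        refine sum_congr rfl fun R _ => ?_
        simp only [hF]
        split_ifs <;> ring

theorem solCard_four_le {P : ℕ} [NeZero P] (v : Fin k → ℤ) (R : Fin m → Row k) :
    solCard P (fun r o => Option.elim o (4 * aug P v R r none) fun c => aug P v R r (some c))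
      ≤ 4 * solCard P (aug P v R) := by
  classical
  unfold solCard
  have hP : 0 < P := Nat.pos_of_ne_zero (NeZero.ne P)
  let f : (Option (Fin k) → ZMod P) → (Option (Fin k) → ZMod P) × Fin 4 := fun y =>
    (fun o => Option.elim o (4 * y none) (fun c => y (some c)),
      ⟨4 * (y none).val / P, by
        rw [Nat.div_lt_iff_lt_mul hP]
        have := ZMod.val_lt (y none)
        omega⟩)
  refine le_trans (card_le_card_of_injOn
    (t := (univ.filter fun y : Option (Fin k) → ZMod P => ∀ r, ∑ o, (aug P v R r o : ZMod P) * y o = 0)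
      ×ˢ (univ : Finset (Fin 4))) f ?_ ?_) ?_
  · intro y hy
    simp only [coe_filter, Set.mem_ofPred_eq, mem_univ, true_and] at hy
    simp only [mem_coe, mem_product, mem_filter, mem_univ, true_and, and_true, f]
    intro r
    have := hy r
    simp only [Fintype.sum_option, Option.elim_none, Option.elim_some, Int.cast_mul, Int.cast_ofNat] at this ⊢
    rw [← this]
    ring
  · intro y _ y' _ h
    simp only [f, Prod.mk.injEq, Fin.mk.injEq] at h
    funext o
    cases o with
    | some c => exact congrFun h.1 (some c)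
    | none =>
      have h1 := congrFun h.1 none
      simp only [Option.elim_none] at h1
      rw [← ZMod.natCast_zmod_val (y none), ← ZMod.natCast_zmod_val (y' none)] at h1
      have h1' : ((4 * (y none).val : ℕ) : ZMod P) = ((4 * (y' none).val : ℕ) : ZMod P) := by
        push_cast; exact h1
      rw [ZMod.natCast_eq_natCast_iff'] at h1'
      apply ZMod.val_injective
      have e1 := Nat.div_add_mod (4 * (y none).val) P
      have e2 := Nat.div_add_mod (4 * (y' none).val) P
      rw [h.2, h1'] at e1
      omega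
  · rw [card_product, card_univ, Fintype.card_fin, mul_comm]
    refine Nat.mul_le_mul_left _ (le_of_eq ?_)
    congr 1; ext; simp

theorem pr_two_zero_le (i : ℕ) {κ : Type*} [Fintype κ] [DecidableEq κ] (u : κ → ℤ) (a : ℤ)
    (ha : (a : ZMod 2) ≠ 0) :
    (∑ x : κ → SignType, if ((2 * a * ∑ b, ival (x b) * u b : ℤ) : ZMod (2 ^ (i + 1))) = 0
        then fw (fun _ => (1 / 4 : ℝ)) x else 0)
      ≤ 2 * pr (fun _ => 1 / 4) (fun b => (u b : ZMod (2 ^ (i + 1)))) 0 := by
  classical
  have hcop : IsCoprime ((2 : ℤ) ^ i) a := by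
    refine IsCoprime.pow_left ?_
    have h2 : ¬ (2 : ℤ) ∣ a := fun h => ha ((ZMod.intCast_zmod_eq_zero_iff_dvd _ 2).2 h)
    exact Int.prime_two.coprime_iff_not_dvd.2 h2
  set g : κ → ZMod (2 ^ (i + 1)) := fun b => (u b : ZMod (2 ^ (i + 1))) with hg
  calc _ ≤ pr (fun _ => 1 / 4) g 0 + pr (fun _ => 1 / 4) g (((2 : ℤ) ^ i : ℤ) : ZMod (2 ^ (i + 1))) := by
        unfold pr
        rw [← sum_add_distrib]
        refine sum_le_sum fun x _ => ?_
        have hw : 0 ≤ fw (fun _ : κ => (1 / 4 : ℝ)) x :=
          fw_nonneg (fun _ => by norm_num) (fun _ => by norm_num) x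
        have htot : tot g x = ((∑ b, ival (x b) * u b : ℤ) : ZMod (2 ^ (i + 1))) := by
          simp [tot, hg, zsmul_eq_mul]
        by_cases hx : ((2 * a * ∑ b, ival (x b) * u b : ℤ) : ZMod (2 ^ (i + 1))) = 0
        · rw [if_pos hx]
          rw [ZMod.intCast_zmod_eq_zero_iff_dvd] at hx
          push_cast at hx
          rw [pow_succ, mul_comm ((2 : ℤ) ^ i), mul_assoc] at hx
          obtain ⟨d, hd⟩ := hcop.dvd_of_dvd_mul_left ((mul_dvd_mul_iff_left two_ne_zero).1 hx)
          rcases Int.even_or_odd d with ⟨e, he⟩ | ⟨e, he⟩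
          · have : tot g x = 0 := by
              rw [htot, ZMod.intCast_zmod_eq_zero_iff_dvd]
              exact ⟨e, by rw [hd, he]; push_cast; rw [pow_succ]; ring⟩
            rw [if_pos this]; split <;> linarith
          · have : tot g x = (((2 : ℤ) ^ i : ℤ) : ZMod (2 ^ (i + 1))) := by
              rw [htot, ZMod.intCast_eq_intCast_iff_dvd_sub]
              exact ⟨-e, by rw [hd, he]; push_cast; rw [pow_succ]; ring⟩
            rw [if_pos this]; split <;> linarith
        · rw [if_neg hx]; split <;> split <;> linarith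
    _ ≤ _ := by
        rw [two_mul]
        exact add_le_add le_rfl (pr_le_zero _ (fun _ => by norm_num) (fun _ => by norm_num))

theorem tot_all (P : ℕ) (v : Fin k → ℤ) (i₀ : Fin k) {P₀ : ℕ} (z : Fin m → ZMod P₀)
    (x : (Fin m × Fin k) ⊕ {b : Fin k // b ≠ i₀} → SignType) :
    tot (fun a => gQ P (joinVec v z) (allEdge i₀ a)) x
      = tot (fun a : Fin m × Fin k => gQ P (joinVec v z) (jkEdge a)) (fun a => x (Sum.inl a))
        + tot (fun b : {b : Fin k // b ≠ i₀} => gQ P (joinVec v z) s(Sum.inr i₀, Sum.inr b.1))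
          (fun b => x (Sum.inr b)) := by
  simp only [tot, Fintype.sum_sum_type]
  rfl

/-- The sum of the weighted entries of the star. -/
def starSum (v : Fin k → ℤ) {i₀ : Fin k} (y : {b : Fin k // b ≠ i₀} → SignType) : ℤ :=
  ∑ b, ival (y b) * v b.1

theorem tot_all_inl (P : ℕ) [NeZero P] (v : Fin k → ℤ) (i₀ : Fin k) {P₀ : ℕ} (z : Fin m → ZMod P₀)
    (x : (Fin m × Fin k) ⊕ {b : Fin k // b ≠ i₀} → SignType) (r : Fin m) :
    (tot (fun a => gQ P (joinVec v z) (allEdge i₀ a)) x).1 (Sum.inl r)
      = (dot v (fun c => x (Sum.inl (r, c))) : ZMod P) := by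
  rw [tot_all]
  simp only [Prod.fst_add, Pi.add_apply]
  rw [show (tot (fun a : Fin m × Fin k => gQ P (joinVec v z) (jkEdge a)) (fun a => x (Sum.inl a))).1 (Sum.inl r)
      = tot (fun a => fun i => ((ev (joinVec v z) (jkEdge a) i : ℤ) : ZMod P)) (fun a => x (Sum.inl a)) (Sum.inl r)
      from by simp [tot, gQ, gL, Prod.fst_sum, Finset.sum_apply]]
  rw [tot_jk_fst, add_eq_left]
  simp [tot, gQ, gL, ev_mk, Prod.fst_sum, Finset.sum_apply]

theorem tot_all_inr (P : ℕ) [NeZero P] (v : Fin k → ℤ) (i₀ : Fin k) {P₀ : ℕ} (z : Fin m → ZMod P₀)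
    (x : (Fin m × Fin k) ⊕ {b : Fin k // b ≠ i₀} → SignType) (c : Fin k) :
    (tot (fun a => gQ P (joinVec v z) (allEdge i₀ a)) x).1 (Sum.inr c)
      = (∑ r, (ival (x (Sum.inl (r, c))) : ZMod P) * (((z r).val : ℤ) : ZMod P))
        + ∑ b : {b : Fin k // b ≠ i₀}, ((ival (x (Sum.inr b)) *
            (if c = i₀ then v b.1 else if c = b.1 then v i₀ else 0) : ℤ) : ZMod P) := by
  rw [tot_all]
  simp only [Prod.fst_add, Pi.add_apply]
  congr 1
  · rw [← tot_jk_snd P v z (fun a => x (Sum.inl a)) c]
    simp [tot, gQ, gL, Prod.fst_sum, Finset.sum_apply]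
  · simp only [tot, gQ, Prod.smul_fst, Prod.fst_sum, Finset.sum_apply, Pi.smul_apply]
    simp only [gL, ev_mk, Sum.inr.injEq, joinVec, Sum.elim_inr, zsmul_eq_mul]
    refine sum_congr rfl fun b _ => ?_
    push_cast
    rfl

theorem tot_all_snd (P : ℕ) [NeZero P] (v : Fin k → ℤ) (i₀ : Fin k) {P₀ : ℕ} (z : Fin m → ZMod P₀)
    (x : (Fin m × Fin k) ⊕ {b : Fin k // b ≠ i₀} → SignType) :
    (tot (fun a => gQ P (joinVec v z) (allEdge i₀ a)) x).2
      = ((2 * ∑ r, ((z r).val : ℤ) * dot v (fun c => x (Sum.inl (r, c)))
          + 2 * v i₀ * starSum v (fun b => x (Sum.inr b)) : ℤ) : ZMod (P * P / 2)) := by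
  rw [tot_all]
  simp only [Prod.snd_add, Int.cast_add]
  congr 1
  · simp only [tot, gQ, Prod.smul_snd, Prod.snd_sum, zsmul_eq_mul, jkEdge_apply]
    rw [Fintype.sum_prod_type, mul_sum, Int.cast_sum]
    refine sum_congr rfl fun r _ => ?_
    rw [dot, mul_sum, mul_sum, Int.cast_sum]
    refine sum_congr rfl fun c _ => ?_
    rw [qv_mk _ (by simp)]
    simp [joinVec]
    ring
  · simp only [tot, gQ, Prod.smul_snd, Prod.snd_sum, zsmul_eq_mul, starSum, mul_sum, Int.cast_sum]
    refine sum_congr rfl fun b _ => ?_
    rw [qv_mk _ (by simp [Ne.symm b.2])]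
    simp [joinVec]
    ring

theorem neZero_half (i : ℕ) : NeZero (2 ^ (i + 1) * 2 ^ (i + 1) / 2) := by
  refine ⟨?_⟩
  rw [pow_succ, show 2 ^ i * 2 * (2 ^ i * 2) = 2 ^ i * 2 * 2 ^ i * 2 by ring, Nat.mul_div_cancel _ two_pos]
  positivity

/-- The quadratic transfer: sum over the outside coordinates. -/
theorem sum_pr_quad_le (i : ℕ) (v : Fin k → ℤ) (i₀ : Fin k) (hv : (v i₀ : ZMod 2) ≠ 0) :
    ∑ z : Fin m → ZMod (2 ^ (i + 1)), pr (fun _ => 1 / 4)
        (fun e => if e ∈ univ.map (allEdge (m := m) i₀) then gQ (2 ^ (i + 1)) (joinVec v z) e else 0) 0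
      ≤ 2 * pr (fun _ => 1 / 4) (fun b : {b : Fin k // b ≠ i₀} => (v b.1 : ZMod (2 ^ (i + 1)))) 0
        * (4 * ((2 ^ (i + 1) : ℕ) : ℝ) ^ m / ((2 ^ (i + 1) : ℕ) : ℝ) ^ (k + 1))
        * kSum (2 ^ (i + 1)) v m := by
  classical
  set P := 2 ^ (i + 1) with hPdef
  haveI : NeZero (P * P / 2) := neZero_half i
  have hP : (0 : ℝ) < (P : ℝ) := by positivity
  have h1 : ∀ z : Fin m → ZMod P, pr (fun _ => 1 / 4)
      (fun e => if e ∈ univ.map (allEdge (m := m) i₀) then gQ P (joinVec v z) e else 0) 0
      = ∑ x : (Fin m × Fin k) ⊕ {b : Fin k // b ≠ i₀} → SignType,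
          if tot (fun a => gQ P (joinVec v z) (allEdge i₀ a)) x = 0
          then fw (fun _ => 1 / 4) x else 0 := by
    intro z
    rw [pr_embed (allEdge i₀) _ _ fun e he => if_neg he]
    refine sum_congr rfl fun x _ => ?_
    have : (fun a => if allEdge i₀ a ∈ univ.map (allEdge (m := m) i₀) then gQ P (joinVec v z) (allEdge i₀ a) else 0)
        = fun a => gQ P (joinVec v z) (allEdge i₀ a) := by
      funext a; simp
    rw [this]
  refine le_of_eq_of_le (sum_congr rfl fun z _ => h1 z) ?_
  rw [sum_comm]
  set B : ℝ := 4 * (P : ℝ) ^ m / (P : ℝ) ^ (k + 1) with hB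
  set F : (Fin m → Row k) → ℝ := fun R =>
    if ∀ r, (P : ℤ) ∣ dot v (R r) then B * solCard P (aug P v R) else 0 with hF
  set Gs : ({b : Fin k // b ≠ i₀} → SignType) → ℝ := fun y =>
    if ((2 * v i₀ * ∑ b, ival (y b) * v b.1 : ℤ) : ZMod P) = 0
    then fw (fun _ => (1 / 4 : ℝ)) y else 0 with hGs
  have hGs0 : ∀ y, 0 ≤ Gs y := fun y => by
    simp only [hGs]
    split
    · exact fw_nonneg (fun _ => by norm_num) (fun _ => by norm_num) y
    · exact le_rfl
  have hB0 : 0 ≤ B := by positivity
  have hF0 : ∀ R, 0 ≤ F R := fun R => by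
    simp only [hF]
    split
    · positivity
    · exact le_rfl
  calc _ ≤ ∑ x : (Fin m × Fin k) ⊕ {b : Fin k // b ≠ i₀} → SignType,
        fw (fun _ => 1 / 4) (fun a => x (Sum.inl a)) * F (fun r c => x (Sum.inl (r, c))) *
          Gs (fun b => x (Sum.inr b)) := by
        refine sum_le_sum fun x _ => ?_
        set y := fun b => x (Sum.inr b)
        have hwx : fw (fun _ => (1 / 4 : ℝ)) x
            = fw (fun _ => (1 / 4 : ℝ)) (fun a => x (Sum.inl a)) * fw (fun _ => (1 / 4 : ℝ)) y := by
          simp only [fw, Fintype.prod_sum_type, y]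
        rw [← sum_filter, sum_const, nsmul_eq_mul]
        set Z := univ.filter fun z : Fin m → ZMod P => tot (fun a => gQ P (joinVec v z) (allEdge i₀ a)) x = 0
        rcases Z.eq_empty_or_nonempty with he | ⟨z₀, hz₀⟩
        · rw [he]
          simp only [card_empty, Nat.cast_zero, zero_mul]
          exact mul_nonneg (mul_nonneg (fw_nonneg (fun _ => by norm_num) (fun _ => by norm_num) _) (hF0 _))
            (hGs0 _)
        · simp only [Z, mem_filter, mem_univ, true_and] at hz₀
          have hdvd : ∀ r, (P : ℤ) ∣ dot v (fun c => x (Sum.inl (r, c))) := fun r => by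
            have := congrFun (congrArg Prod.fst hz₀) (Sum.inl r)
            rw [tot_all_inl] at this
            exact (ZMod.intCast_zmod_eq_zero_iff_dvd _ P).1 this
          have hstar : ((2 * v i₀ * ∑ b, ival (y b) * v b.1 : ℤ) : ZMod P) = 0 := by
            have h := congrArg (fun w : (Fin m ⊕ Fin k → ZMod P) × ZMod (P * P / 2) =>
              ∑ c, (v c : ZMod P) * w.1 (Sum.inr c)) hz₀
            simp only [tot_all_inr, Prod.fst_zero, Pi.zero_apply, mul_zero, sum_const_zero, mul_add,
              sum_add_distrib, mul_sum] at h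
            rw [Finset.sum_comm] at h
            have hz : ∀ r : Fin m, ∑ c, (v c : ZMod P) *
                ((ival (x (Sum.inl (r, c))) : ZMod P) * (((z₀ r).val : ℤ) : ZMod P)) = 0 := by
              intro r
              have h2 := (ZMod.intCast_zmod_eq_zero_iff_dvd _ P).2 (hdvd r)
              simp only [dot, Int.cast_sum, Int.cast_mul] at h2
              rw [show (0 : ZMod P) = (∑ c, (ival (x (Sum.inl (r, c))) : ZMod P) * (v c : ZMod P)) *
                (((z₀ r).val : ℤ) : ZMod P) by rw [h2, zero_mul], sum_mul]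
              exact sum_congr rfl fun c _ => by ring
            rw [sum_eq_zero fun r _ => hz r, zero_add, sum_comm] at h
            rw [← h]
            push_cast
            rw [mul_sum]
            refine sum_congr rfl fun b _ => ?_
            rw [← add_sum_erase _ _ (mem_univ i₀), if_pos rfl,
              sum_eq_single b.1]
            · rw [if_neg b.2, if_pos rfl]; simp only [y]; ring
            · intro c hc hcb
              simp [(mem_erase.1 hc).1, hcb]
            · intro hb
              exact absurd (mem_erase.2 ⟨b.2, mem_univ _⟩) hb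
          simp only [hF, if_pos hdvd, hGs, if_pos hstar]
          rw [hwx]
          set R : Fin m → Row k := fun r c => x (Sum.inl (r, c))
          have hcount : (Z.card : ℝ) ≤ B * solCard P (aug P v R) := by
            let M4 : Fin m → Option (Fin k) → ℤ := fun r o =>
              Option.elim o (4 * aug P v R r none) fun c => aug P v R r (some c)
            set D := univ.filter fun d : Fin m → ZMod P => ∀ o, ∑ r, (M4 r o : ZMod P) * d r = 0 with hD
            have hZD : Z.card ≤ D.card := by
              refine affine_card_le _ _ fun a b ha hb o => ?_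
              cases o with
              | some c =>
                have h1 := congrFun (congrArg Prod.fst ha) (Sum.inr c)
                have h2 := congrFun (congrArg Prod.fst hb) (Sum.inr c)
                rw [tot_all_inr] at h1 h2
                simp only [M4, Option.elim_some, aug, Pi.sub_apply, mul_sub, sum_sub_distrib,
                  Prod.fst_zero, Pi.zero_apply] at h1 h2 ⊢
                simp only [R]
                simp only [Int.cast_natCast, ZMod.natCast_zmod_val] at h1 h2
                linear_combination h1 - h2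
              | none =>
                have h1 := congrArg Prod.snd ha
                have h2 := congrArg Prod.snd hb
                rw [tot_all_snd, Prod.snd_zero, ZMod.intCast_zmod_eq_zero_iff_dvd] at h1 h2
                have h3 := dvd_sub h1 h2
                have hdot : ∀ r, dot v (fun c => x (Sum.inl (r, c))) = (P : ℤ) * aug P v R r none := by
                  intro r
                  simp only [aug, Option.elim_none, R]
                  rw [Int.mul_ediv_cancel' (hdvd r)]
                simp only [hdot] at h3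
                have h4 : (((P * P / 2 : ℕ) : ℤ)) * 2 = (P : ℤ) * P := by
                  have : 2 ∣ P * P := dvd_mul_of_dvd_left (by rw [hPdef]; exact dvd_pow_self 2 (Nat.succ_ne_zero i)) _
                  exact_mod_cast Nat.div_mul_cancel this
                set S : ℤ := ∑ r, (((a r).val : ℤ) - ((b r).val : ℤ)) * aug P v R r none
                have h5 : 2 * (P : ℤ) * S * 2 = (2 * ∑ r, ((a r).val : ℤ) * ((P : ℤ) * aug P v R r none)
                    + 2 * v i₀ * starSum v (fun b => x (Sum.inr b))
                    - (2 * ∑ r, ((b r).val : ℤ) * ((P : ℤ) * aug P v R r none)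
                    + 2 * v i₀ * starSum v (fun b => x (Sum.inr b)))) * 2 := by
                  rw [add_sub_add_right_eq_sub, ← mul_sub, ← sum_sub_distrib]
                  simp only [S, mul_sum, sum_mul]
                  exact sum_congr rfl fun r _ => by ring
                have h6 : (P : ℤ) * P ∣ (P : ℤ) * (4 * S) := by
                  rw [← h4, show (P : ℤ) * (4 * S) = 2 * (P : ℤ) * S * 2 by ring, h5]
                  exact mul_dvd_mul_right h3 2
                have h7 := (mul_dvd_mul_iff_left (by exact_mod_cast hP.ne' : (P : ℤ) ≠ 0)).1 h6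
                rw [← ZMod.intCast_zmod_eq_zero_iff_dvd] at h7
                rw [← h7]
                simp only [M4, Option.elim_none, Pi.sub_apply, S, Int.cast_mul, Int.cast_sum, Int.cast_sub,
                  Int.cast_natCast, Int.cast_ofNat, ZMod.natCast_zmod_val, mul_sum]
                exact sum_congr rfl fun r _ => by ring
            have hD' := card_transpose_sol P M4
            rw [Fintype.card_option, Fintype.card_fin, ← hD] at hD'
            have h4le : (solCard P M4 : ℝ) ≤ 4 * solCard P (aug P v R) := by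
              exact_mod_cast solCard_four_le v R
            have hD2 : (D.card : ℝ) = (P : ℝ) ^ m * solCard P M4 / (P : ℝ) ^ (k + 1) := by
              rw [← hD']; field_simp
            refine le_trans (Nat.cast_le.2 hZD) ?_
            rw [hD2, hB, show ∀ s : ℝ, 4 * (P : ℝ) ^ m / (P : ℝ) ^ (k + 1) * s = (P : ℝ) ^ m * (4 * s) / (P : ℝ) ^ (k + 1)
              from fun s => by ring]
            gcongr
          calc (Z.card : ℝ) * (fw (fun _ => 1 / 4) (fun a => x (Sum.inl a)) * fw (fun _ => 1 / 4) y)
              ≤ (B * solCard P (aug P v R)) * (fw (fun _ => 1 / 4) (fun a => x (Sum.inl a)) * fw (fun _ => 1 / 4) y) := by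
                refine mul_le_mul_of_nonneg_right hcount (mul_nonneg ?_ ?_) <;>
                  exact fw_nonneg (fun _ => by norm_num) (fun _ => by norm_num) _
            _ = _ := by ring
    _ = (∑ R : Fin m → Row k, mwt R * F R) * ∑ y, Gs y := by
        rw [← sum_fw_curry F, sum_mul_sum,
          ← (Equiv.sumArrowEquivProdArrow (Fin m × Fin k) {b : Fin k // b ≠ i₀} SignType).symm.sum_comp,
          Fintype.sum_prod_type]
        rfl
    _ ≤ (∑ R : Fin m → Row k, mwt R * F R)
          * (2 * pr (fun _ => 1 / 4) (fun b : {b : Fin k // b ≠ i₀} => (v b.1 : ZMod P)) 0) := by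
        refine mul_le_mul_of_nonneg_left ?_ (sum_nonneg fun R _ => mul_nonneg (mwt_nonneg R) (hF0 R))
        exact pr_two_zero_le i (fun b : {b : Fin k // b ≠ i₀} => v b.1) (v i₀) hv
    _ = _ := by
        rw [mul_comm, mul_assoc (2 * _)]
        congr 1
        unfold kSum
        rw [mul_sum]
        refine sum_congr rfl fun R _ => ?_
        simp only [hF, hB]
        split_ifs <;> ring

end

end Vale.Agent.P160.Rate
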